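import Mathlib

/-!
# Automorphisms of alternating groups preserving the class of three-cycles
-/

set_option linter.unusedSectionVars false
set_option linter.unusedSimpArgs false

open scoped Classical
open Equiv Equiv.Perm

noncomputable section

namespace Vale.Agent.P240

variable {Ω : Type*} [Fintype Ω] [DecidableEq Ω]

/-- The three-cycle `a ↦ b ↦ c ↦ a`. -/
def c3 (a b c : Ω) : Perm Ω := swap a c * swap a b

theorem c3_isThreeCycle {a b c : Ω} (hab : a ≠ b) (hac : a ≠ c) (hbc : b ≠ c) :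
    (c3 a b c).IsThreeCycle :=
  isThreeCycle_swap_mul_swap_same hac hab (Ne.symm hbc)

theorem c3_apply {a b c : Ω} (hab : a ≠ b) (hac : a ≠ c) (hbc : b ≠ c) :
    c3 a b c a = b ∧ c3 a b c b = c ∧ c3 a b c c = a ∧
      ∀ x, x ≠ a → x ≠ b → x ≠ c → c3 a b c x = x := by
  refine ⟨?_, ?_, ?_, fun x h1 h2 h3 => ?_⟩ <;>
    simp [c3, swap_apply_def, hab, hac, hbc, Ne.symm hab, Ne.symm hac, Ne.symm hbc, *]

theorem mem_support_c3 {a b c : Ω} (hab : a ≠ b) (hac : a ≠ c) (hbc : b ≠ c) {x : Ω} :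
    c3 a b c x ≠ x ↔ x = a ∨ x = b ∨ x = c := by
  obtain ⟨e1, e2, e3, e4⟩ := c3_apply hab hac hbc
  constructor
  · intro h
    by_contra hx
    push Not at hx
    exact h (e4 x hx.1 hx.2.1 hx.2.2)
  · rintro (rfl | rfl | rfl)
    · rw [e1]; exact Ne.symm hab
    · rw [e2]; exact Ne.symm hbc
    · rw [e3]; exact hac

/-- A three-cycle through a moved point. -/
theorem exists_c3_of_mem {f : Perm Ω} (hf : f.IsThreeCycle) {u : Ω} (hu : f u ≠ u) :
    u ≠ f u ∧ u ≠ f (f u) ∧ f u ≠ f (f u) ∧ f = c3 u (f u) (f (f u)) := by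
  have h3 : f ^ 3 = 1 := by rw [← hf.orderOf]; exact pow_orderOf_eq_one f
  have happ : ∀ x, f (f (f x)) = x := fun x => by
    have := congrArg (fun g : Perm Ω => g x) h3
    simpa [pow_succ, Perm.mul_apply] using this
  have h2 : u ≠ f (f u) := fun e => hu (by
    have := congrArg f e
    rw [happ] at this
    exact this)
  have h1 : f u ≠ f (f u) := fun e => hu (f.injective e).symm
  refine ⟨Ne.symm hu, h2, h1, ?_⟩
  have hsupp : f.support = {u, f u, f (f u)} := by
    refine (Finset.eq_of_subset_of_card_le ?_ ?_).symm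
    · intro x hx
      simp only [Finset.mem_insert, Finset.mem_singleton] at hx
      rw [mem_support]
      rcases hx with rfl | rfl | rfl
      · exact hu
      · exact Ne.symm h1
      · exact fun e => h1 (f.injective e).symm
    · rw [hf.card_support, Finset.card_insert_of_notMem (by simp [Ne.symm hu, h2]),
        Finset.card_insert_of_notMem (by simp [h1]), Finset.card_singleton]
  obtain ⟨e1, e2, e3, e4⟩ := c3_apply (Ne.symm hu) h2 h1
  ext x
  by_cases hx : x ∈ f.support
  · rw [hsupp] at hx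
    simp only [Finset.mem_insert, Finset.mem_singleton] at hx
    rcases hx with rfl | rfl | rfl
    · rw [e1]
    · rw [e2]
    · rw [e3, happ]
  · have hfx : f x = x := notMem_support.1 hx
    rw [hsupp] at hx
    simp only [Finset.mem_insert, Finset.mem_singleton, not_or] at hx
    rw [e4 x hx.1 hx.2.1 hx.2.2, hfx]

/-- Two three-cycles whose product squares to one share an oriented edge. -/
theorem shared_edge {f g : Perm Ω} (hf : f.IsThreeCycle) (hg : g.IsThreeCycle) (hne : f * g ≠ 1)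
    (h : f * g * (f * g) = 1) : ∃ u, f u ≠ u ∧ f u = g u := by
  by_contra hno
  push Not at hno
  have hh : ∀ x, f (g (f (g x))) = x := fun x => by
    have := congrArg (fun z : Perm Ω => z x) h
    simpa [Perm.mul_apply] using this
  have h3 : ∀ (z : Perm Ω), z.IsThreeCycle → ∀ x, z (z (z x)) = x := fun z hz x => by
    have h' : z ^ 3 = 1 := by rw [← hz.orderOf]; exact pow_orderOf_eq_one z
    have := congrArg (fun w : Perm Ω => w x) h'
    simpa [pow_succ, Perm.mul_apply] using this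
  by_cases hcommon : ∃ u, f u ≠ u ∧ g u ≠ u
  · obtain ⟨a, ha, ha'⟩ := hcommon
    obtain ⟨nab, nac, nbc, ef⟩ := exists_c3_of_mem hf ha
    obtain ⟨nad, nae, nde, eg⟩ := exists_c3_of_mem hg ha'
    set b := f a with hb
    set c := f b with hc
    set d := g a with hd
    set e := g d with he
    obtain ⟨f1, f2, f3, f4⟩ := c3_apply nab nac nbc
    obtain ⟨g1, g2, g3, g4⟩ := c3_apply nad nae nde
    rw [← ef] at f1 f2 f3 f4
    rw [← eg] at g1 g2 g3 g4
    have n1 : b ≠ d := hno a ha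
    by_cases hdc : d = c
    · by_cases heb : e = b
      · -- `g` is the inverse of `f`: then `f * g = 1`
        have hinv : ∀ x, f (g x) = x := by
          intro x
          by_cases hx : x = a ∨ x = b ∨ x = c
          · rcases hx with rfl | rfl | rfl
            · rw [g1, hdc, f3]
            · rw [← heb, g3, f1, heb]
            · rw [← hdc, g2, heb, f2, hdc]
          · push Not at hx
            rw [g4 x hx.1 (hdc ▸ hx.2.2) (heb ▸ hx.2.1), f4 x hx.1 hx.2.1 hx.2.2]
        exact hne (Equiv.ext hinv)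
      · have ne1 : e ≠ c := fun e' => nde (by rw [hdc, e'])
        have := hh a
        rw [g1, hdc, f3, g1, hdc, f3] at this
        have h' := hh c
        rw [← hdc, g2, f4 e (Ne.symm nae) heb ne1, g3, f1, hdc] at h'
        exact nbc h'
    · by_cases hdb : d = b
      · exact absurd hdb.symm n1
      have fd : f d = d := f4 d (Ne.symm nad) hdb hdc
      by_cases heb : e = b
      · have := hh a
        rw [g1, fd, g2, heb, f2] at this
        exact nac this.symm
      by_cases hec : e = c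
      · exact hno c (by rw [f3]; exact nac) (by rw [f3, ← hec, g3])
      have fe : f e = e := f4 e (Ne.symm nae) heb hec
      have := hh a
      rw [g1, fd, g2, fe] at this
      exact nae this.symm
  · push Not at hcommon
    obtain ⟨a, ha⟩ : ∃ a, f a ≠ a := by
      by_contra hall
      push Not at hall
      have h1 : f = 1 := Equiv.ext hall
      have := hf.card_support
      rw [h1] at this
      simp at this
    have hga := hcommon a ha
    have hfa : f (f a) ≠ f a := fun e => ha (f.injective e)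
    have := hh a
    rw [hga, hcommon (f a) hfa] at this
    have e := congrArg f this
    rw [h3 f hf a] at e
    exact ha e.symm

theorem star_sq {a b z z' : Ω} (hab : a ≠ b) (haz : a ≠ z) (hbz : b ≠ z) (haz' : a ≠ z')
    (hbz' : b ≠ z') (hzz : z ≠ z') :
    c3 a b z * c3 a b z' * (c3 a b z * c3 a b z') = 1 := by
  obtain ⟨e1, e2, e3, e4⟩ := c3_apply hab haz hbz
  obtain ⟨d1, d2, d3, d4⟩ := c3_apply hab haz' hbz'
  ext x
  simp only [Perm.mul_apply, Perm.one_apply]
  by_cases hxa : x = a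
  · subst hxa; rw [d1, e2, d4 z (Ne.symm haz) (Ne.symm hbz) hzz, e3]
  by_cases hxb : x = b
  · subst hxb; rw [d2, e4 z' (Ne.symm haz') (Ne.symm hbz') (Ne.symm hzz), d3, e1]
  by_cases hxz : x = z
  · subst hxz; rw [d4 x hxa hxb hzz, e3, d1, e2]
  by_cases hxz' : x = z'
  · subst hxz'; rw [d3, e1, d2, e4 x hxa hxb hxz]
  rw [d4 x hxa hxb hxz', e4 x hxa hxb hxz, d4 x hxa hxb hxz', e4 x hxa hxb hxz]

theorem star_mul_ne {a b z z' : Ω} (hab : a ≠ b) (haz : a ≠ z) (hbz : b ≠ z) (haz' : a ≠ z')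
    (hbz' : b ≠ z') : c3 a b z * c3 a b z' ≠ 1 := fun h => by
  have := congrArg (fun w : Perm Ω => w a) h
  simp only [Perm.mul_apply, Perm.one_apply, (c3_apply hab haz' hbz').1,
    (c3_apply hab haz hbz).2.1] at this
  exact haz this.symm

/-- The stars generate every three-cycle. -/
theorem c3_mem_of_stars {a b : Ω} (hab : a ≠ b) (G : Subgroup (Perm Ω))
    (hG : ∀ z, z ≠ a → z ≠ b → c3 a b z ∈ G) {f : Perm Ω} (hf : f.IsThreeCycle) : f ∈ G := by
  have rot : ∀ u v w : Ω, u ≠ v → u ≠ w → v ≠ w → c3 u v w = c3 v w u := by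
    intro u v w h1 h2 h3
    obtain ⟨e1, e2, e3, e4⟩ := c3_apply h1 h2 h3
    obtain ⟨d1, d2, d3, d4⟩ := c3_apply h3 (Ne.symm h1) (Ne.symm h2)
    ext x
    by_cases hu : x = u
    · subst hu; rw [e1, d3]
    by_cases hv : x = v
    · subst hv; rw [e2, d1]
    by_cases hw : x = w
    · subst hw; rw [e3, d2]
    rw [e4 x hu hv hw, d4 x hv hw hu]
  have conj : ∀ (σ : Perm Ω) (u v w : Ω), σ * c3 u v w * σ⁻¹ = c3 (σ u) (σ v) (σ w) := by
    intro σ u v w
    simp only [c3, swap_apply_apply]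
    group
  have inv : ∀ u v w : Ω, u ≠ v → u ≠ w → v ≠ w → (c3 u v w)⁻¹ = c3 u w v := by
    intro u v w _ _ _
    simp [c3, mul_inv_rev]
  -- one star point removed
  have hb : ∀ z z', z ≠ a → z ≠ b → z' ≠ a → z' ≠ b → z ≠ z' → c3 b z z' ∈ G := by
    intro z z' h1 h2 h3 h4 h5
    obtain ⟨e1, e2, e3, e4⟩ := c3_apply hab (Ne.symm h1) (Ne.symm h2)
    have := G.mul_mem (G.mul_mem (hG z h1 h2) (hG z' h3 h4)) (G.inv_mem (hG z h1 h2))
    rwa [conj, e1, e2, e4 z' h3 h4 (Ne.symm h5)] at this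
  have ha : ∀ z z', z ≠ a → z ≠ b → z' ≠ a → z' ≠ b → z ≠ z' → c3 a z z' ∈ G := by
    intro z z' h1 h2 h3 h4 h5
    obtain ⟨e1, e2, e3, e4⟩ := c3_apply hab (Ne.symm h3) (Ne.symm h4)
    have := G.mul_mem (G.mul_mem (G.mul_mem (hG z' h3 h4) (hG z' h3 h4)) (hG z h1 h2))
      (G.inv_mem (G.mul_mem (hG z' h3 h4) (hG z' h3 h4)))
    rw [conj] at this
    simp only [Perm.mul_apply, e1, e2, e3, e4 z h1 h2 h5] at this
    -- `this : c3 z' a z ∈ G`
    rwa [rot z' a z h3 (Ne.symm h5) (Ne.symm h1)] at this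
  have hfree : ∀ z z' w, z ≠ a → z ≠ b → z' ≠ a → z' ≠ b → w ≠ a → w ≠ b → z ≠ z' → z ≠ w →
      z' ≠ w → c3 z z' w ∈ G := by
    intro z z' w h1 h2 h3 h4 h5 h6 h7 h8 h9
    obtain ⟨e1, e2, e3, e4⟩ := c3_apply hab (Ne.symm h1) (Ne.symm h2)
    have := G.mul_mem (G.mul_mem (G.mul_mem (hG z h1 h2) (hG z h1 h2)) (ha z' w h3 h4 h5 h6 h9))
      (G.inv_mem (G.mul_mem (hG z h1 h2) (hG z h1 h2)))
    rw [conj] at this
    simp only [Perm.mul_apply, e1, e2, e4 z' h3 h4 (Ne.symm h7), e4 w h5 h6 (Ne.symm h8)] at this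
    exact this
  obtain ⟨u, hu⟩ : ∃ u, f u ≠ u := by
    by_contra hall
    push Not at hall
    have h1 : f = 1 := Equiv.ext hall
    have := hf.card_support
    rw [h1] at this
    simp at this
  obtain ⟨n1, n2, n3, ef⟩ := exists_c3_of_mem hf hu
  rw [ef]
  generalize f u = v at n1 n2 n3 ⊢
  generalize f v = w at n2 n3 ⊢
  -- cases on the position of `a`, then of `b`
  have caseA : ∀ v w, v ≠ w → v ≠ a → w ≠ a → c3 a v w ∈ G := by
    intro v w h1 h2 h3
    by_cases hv : v = b
    · subst hv; exact hG w h3 (Ne.symm h1)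
    by_cases hw : w = b
    · subst hw
      rw [← inv a w v hab (Ne.symm h2) (Ne.symm h1)]
      exact G.inv_mem (hG v h2 hv)
    exact ha v w h2 hv h3 hw h1
  by_cases h1 : u = a
  · subst h1; exact caseA v w n3 (Ne.symm n1) (Ne.symm n2)
  by_cases h2 : v = a
  · subst h2; rw [rot u v w n1 n2 n3]; exact caseA w u (Ne.symm n2) (Ne.symm n3) h1
  by_cases h3 : w = a
  · subst h3; rw [← rot w u v (Ne.symm n2) (Ne.symm n3) n1]; exact caseA u v n1 h1 h2
  by_cases h4 : u = b
  · subst h4; exact hb v w h2 (Ne.symm n1) h3 (Ne.symm n2) n3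
  by_cases h5 : v = b
  · subst h5; rw [rot u v w n1 n2 n3]; exact hb w u h3 (Ne.symm n3) h1 h4 (Ne.symm n2)
  by_cases h6 : w = b
  · subst h6
    rw [← rot w u v (Ne.symm n2) (Ne.symm n3) n1]; exact hb u v h1 h4 h2 h5 n1
  exact hfree u v w h1 h4 h2 h5 h3 h6 n1 n2 n3

/-- An automorphism of an alternating group that maps three-cycles to three-cycles is conjugation
by a permutation. -/
theorem exists_perm_of_preserves (h5 : 5 ≤ Fintype.card Ω) (α : MulAut (alternatingGroup Ω))
    (hα : ∀ x : alternatingGroup Ω, (x : Perm Ω).IsThreeCycle →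
      ((α x : alternatingGroup Ω) : Perm Ω).IsThreeCycle) :
    ∃ σ : Perm Ω, ∀ x : alternatingGroup Ω, ((α x : alternatingGroup Ω) : Perm Ω) = σ * x * σ⁻¹ := by
  obtain ⟨a, b, hab⟩ : ∃ a b : Ω, a ≠ b := Fintype.exists_pair_of_one_lt_card (by omega)
  set Zs := ((Finset.univ.erase a).erase b) with hZs
  have hZ : ∀ z, z ∈ Zs ↔ z ≠ a ∧ z ≠ b := fun z => by simp [hZs, and_comm]
  have hcard : 3 ≤ Zs.card := by
    rw [hZs, Finset.card_erase_of_mem (by simp [Ne.symm hab]),
      Finset.card_erase_of_mem (Finset.mem_univ a), Finset.card_univ]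
    omega
  have hstar : ∀ z ∈ Zs, (c3 a b z).IsThreeCycle := fun z hz =>
    c3_isThreeCycle hab (Ne.symm ((hZ z).1 hz).1) (Ne.symm ((hZ z).1 hz).2)
  let st : {z // z ∈ Zs} → alternatingGroup Ω := fun z =>
    ⟨c3 a b z, (hstar z z.2).mem_alternatingGroup⟩
  set y : {z // z ∈ Zs} → Perm Ω := fun z => (α (st z) : Perm Ω) with hy
  have hy3 : ∀ z, (y z).IsThreeCycle := fun z => hα _ (hstar z z.2)
  have yinj : Function.Injective y := fun z z' e => by
    have := congrArg Subtype.val (α.injective (Subtype.ext e))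
    have h1 := congrArg (fun w : Perm Ω => w b) this
    simp only [st] at h1
    rw [(c3_apply hab (Ne.symm ((hZ z).1 z.2).1) (Ne.symm ((hZ z).1 z.2).2)).2.1,
      (c3_apply hab (Ne.symm ((hZ z').1 z'.2).1) (Ne.symm ((hZ z').1 z'.2).2)).2.1] at h1
    exact Subtype.ext h1
  have share : ∀ z z', z ≠ z' → ∃ u, y z u ≠ u ∧ y z u = y z' u := by
    intro z z' hne
    have hza := (hZ z).1 z.2
    have hza' := (hZ z').1 z'.2
    refine shared_edge (hy3 z) (hy3 z') ?_ ?_
    · intro e
      have : α (st z * st z') = 1 := Subtype.ext (by rw [map_mul]; exact e)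
      rw [MulEquiv.map_eq_one_iff] at this
      exact star_mul_ne hab (Ne.symm hza.1) (Ne.symm hza.2) (Ne.symm hza'.1) (Ne.symm hza'.2)
        (congrArg Subtype.val this)
    · have h1 : st z * st z' * (st z * st z') = 1 := Subtype.ext (star_sq hab (Ne.symm hza.1)
        (Ne.symm hza.2) (Ne.symm hza'.1) (Ne.symm hza'.2) (fun e => hne (Subtype.ext e)))
      have := congrArg (fun w => ((α w : alternatingGroup Ω) : Perm Ω)) h1
      simpa [hy] using this
  obtain ⟨z0, z1, hz01⟩ := Finset.one_lt_card.1 (by omega : 1 < Zs.card) |>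
    fun ⟨u, hu, v, hv, h⟩ => (⟨⟨u, hu⟩, ⟨v, hv⟩, fun e => h (congrArg Subtype.val e)⟩ :
      ∃ p q : {z // z ∈ Zs}, p ≠ q)
  obtain ⟨a', ha', hab'⟩ := share z0 z1 hz01
  obtain ⟨b', hb'⟩ : ∃ b', y z0 a' = b' := ⟨_, rfl⟩
  obtain ⟨n1, n2, n3, e0⟩ := exists_c3_of_mem (hy3 z0) ha'
  obtain ⟨m1, m2, m3, e1⟩ := exists_c3_of_mem (hy3 z1) (show y z1 a' ≠ a' by rw [← hab']; exact ha')
  rw [← hab', hb'] at m1 m2 m3 e1
  rw [hb'] at n1 n2 n3 e0 ha' hab'
  obtain ⟨c', hc'⟩ : ∃ c', y z0 b' = c' := ⟨_, rfl⟩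
  obtain ⟨d', hd'⟩ : ∃ d', y z1 b' = d' := ⟨_, rfl⟩
  rw [hc'] at n2 n3 e0
  rw [hd'] at m2 m3 e1
  have hcd : c' ≠ d' := fun e => hz01 (yinj (by rw [e0, e1]; exact congrArg _ e))
  have hall : ∀ z, y z a' = b' := by
    intro z
    by_cases h0 : z = z0
    · rw [h0, hb']
    by_cases h1 : z = z1
    · rw [h1, ← hab']
    by_contra hne
    obtain ⟨p1, p2, p3, p4⟩ := c3_apply n1 n2 n3
    obtain ⟨q1, q2, q3, q4⟩ := c3_apply m1 m2 m3
    rw [← e0] at p1 p2 p3 p4
    rw [← e1] at q1 q2 q3 q4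
    obtain ⟨u, hu, huz⟩ := share z0 z (Ne.symm h0)
    obtain ⟨u', hu', huz'⟩ := share z1 z (Ne.symm h1)
    have hu3 : u = b' ∨ u = c' := by
      by_contra h
      push Not at h
      by_cases hua : u = a'
      · exact hne ((congrArg _ hua.symm).trans (huz.symm.trans ((congrArg _ hua).trans p1)))
      · exact hu (p4 u hua h.1 h.2)
    have hu3' : u' = b' ∨ u' = d' := by
      by_contra h
      push Not at h
      by_cases hua : u' = a'
      · exact hne ((congrArg _ hua.symm).trans (huz'.symm.trans ((congrArg _ hua).trans q1)))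
      · exact hu' (q4 u' hua h.1 h.2)
    -- the third cycle moves four points
    have hfour : ({a', b', c', d'} : Finset Ω) ⊆ (y z).support → False := by
      intro h
      have := Finset.card_le_card h
      rw [(hy3 z).card_support, Finset.card_insert_of_notMem
          (by simp only [Finset.mem_insert, Finset.mem_singleton, not_or]; exact ⟨n1, n2, m2⟩),
        Finset.card_insert_of_notMem
          (by simp only [Finset.mem_insert, Finset.mem_singleton, not_or]; exact ⟨n3, m3⟩),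
        Finset.card_insert_of_notMem (by simp [hcd]), Finset.card_singleton] at this
      omega
    have mvim : ∀ x x', y z x = x' → x ≠ x' → x ∈ (y z).support ∧ x' ∈ (y z).support := by
      intro x x' e hne'
      refine ⟨mem_support.2 (by rw [e]; exact Ne.symm hne'), mem_support.2 fun e' => hne' ?_⟩
      exact (y z).injective (e.trans e'.symm)
    rcases hu3 with hub | huc <;> rcases hu3' with hub' | hud
    · exact hcd (by rw [← p2, ← q2, ← hub, huz, hub, ← hub', ← huz', hub'])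
    · refine hfour fun x hx => ?_
      obtain ⟨s1, s2⟩ := mvim b' c' (by rw [← hub, ← huz, hub, p2]) n3
      obtain ⟨t1, t2⟩ := mvim d' a' (by rw [← hud, ← huz', hud, q3]) (Ne.symm m2)
      simp only [Finset.mem_insert, Finset.mem_singleton] at hx
      rcases hx with rfl | rfl | rfl | rfl <;> assumption
    · refine hfour fun x hx => ?_
      obtain ⟨s1, s2⟩ := mvim c' a' (by rw [← huc, ← huz, huc, p3]) (Ne.symm n2)
      obtain ⟨t1, t2⟩ := mvim b' d' (by rw [← hub', ← huz', hub', q2]) m3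
      simp only [Finset.mem_insert, Finset.mem_singleton] at hx
      rcases hx with rfl | rfl | rfl | rfl <;> assumption
    · refine hcd ((y z).injective ?_)
      rw [show y z c' = a' by rw [← huc, ← huz, huc, p3],
        show y z d' = a' by rw [← hud, ← huz', hud, q3]]
  have hform : ∀ z, a' ≠ b' ∧ a' ≠ y z b' ∧ b' ≠ y z b' ∧ y z = c3 a' b' (y z b') := by
    intro z
    have := exists_c3_of_mem (hy3 z) (show y z a' ≠ a' by rw [hall z]; exact ha')
    rwa [hall z] at this
  let σf : Ω → Ω := fun x =>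
    if x = a then a' else if x = b then b' else if h : x ∈ Zs then y ⟨x, h⟩ b' else x
  have hσa : σf a = a' := if_pos rfl
  have hσb : σf b = b' := by simp [σf, Ne.symm hab]
  have hσz : ∀ z : {z // z ∈ Zs}, σf z = y z b' := fun z => by
    simp [σf, ((hZ z).1 z.2).1, ((hZ z).1 z.2).2, z.2]
  have cases3 : ∀ x, x = a ∨ x = b ∨ ∃ z : {z // z ∈ Zs}, x = z := fun x => by
    by_cases h1 : x = a
    · exact Or.inl h1
    by_cases h2 : x = b
    · exact Or.inr (Or.inl h2)
    exact Or.inr (Or.inr ⟨⟨x, (hZ x).2 ⟨h1, h2⟩⟩, rfl⟩)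
  have hσinj : Function.Injective σf := by
    intro x x' e
    rcases cases3 x with rfl | rfl | ⟨z, rfl⟩ <;> rcases cases3 x' with rfl | rfl | ⟨z', rfl⟩ <;>
      simp only [hσa, hσb, hσz] at e
    · rfl
    · exact absurd e (hform z0).1
    · exact absurd e (hform z').2.1
    · exact absurd e.symm (hform z0).1
    · rfl
    · exact absurd e (hform z').2.2.1
    · exact absurd e.symm (hform z).2.1
    · exact absurd e.symm (hform z).2.2.1
    · refine congrArg Subtype.val (yinj ?_)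
      rw [(hform z).2.2.2, (hform z').2.2.2, e]
  let σ : Perm Ω := Equiv.ofBijective σf (Finite.injective_iff_bijective.1 hσinj)
  refine ⟨σ, ?_⟩
  let H : Subgroup (Perm Ω) :=
    { carrier := {f | ∃ hf : f ∈ alternatingGroup Ω,
        ((α ⟨f, hf⟩ : alternatingGroup Ω) : Perm Ω) = σ * f * σ⁻¹}
      one_mem' := ⟨Subgroup.one_mem _, by
        rw [show (⟨1, Subgroup.one_mem _⟩ : alternatingGroup Ω) = 1 from rfl, map_one]; simp⟩
      mul_mem' := by
        rintro f g ⟨hf, ef⟩ ⟨hg, eg⟩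
        refine ⟨Subgroup.mul_mem _ hf hg, ?_⟩
        rw [show (⟨f * g, Subgroup.mul_mem _ hf hg⟩ : alternatingGroup Ω) = ⟨f, hf⟩ * ⟨g, hg⟩
          from rfl, map_mul, Subgroup.coe_mul, ef, eg]
        group
      inv_mem' := by
        rintro f ⟨hf, ef⟩
        refine ⟨Subgroup.inv_mem _ hf, ?_⟩
        rw [show (⟨f⁻¹, Subgroup.inv_mem _ hf⟩ : alternatingGroup Ω) = ⟨f, hf⟩⁻¹ from rfl,
          map_inv, Subgroup.coe_inv, ef]
        group }
  have hgen : ∀ z, z ≠ a → z ≠ b → c3 a b z ∈ H := by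
    intro z h1 h2
    refine ⟨(hstar z ((hZ z).2 ⟨h1, h2⟩)).mem_alternatingGroup, ?_⟩
    show y ⟨z, (hZ z).2 ⟨h1, h2⟩⟩ = _
    rw [(hform ⟨z, (hZ z).2 ⟨h1, h2⟩⟩).2.2.2]
    have : σ * c3 a b z * σ⁻¹ = c3 (σ a) (σ b) (σ z) := by
      simp only [c3, swap_apply_apply]; group
    rw [this]
    congr 1
    · exact hσa.symm
    · exact hσb.symm
    · exact (hσz ⟨z, (hZ z).2 ⟨h1, h2⟩⟩).symm
  have hle : Subgroup.closure {f : Perm Ω | f.IsThreeCycle} ≤ H :=
    (Subgroup.closure_le _).2 fun f hf => c3_mem_of_stars hab H hgen hf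
  rw [closure_three_cycles_eq_alternating] at hle
  intro x
  obtain ⟨hf, e⟩ := hle x.2
  exact e

/-- An automorphism fixing one three-cycle is conjugation by a permutation. -/
theorem exists_perm_of_fixes (h5 : 5 ≤ Fintype.card Ω) (α : MulAut (alternatingGroup Ω))
    {y : alternatingGroup Ω} (hy : (y : Perm Ω).IsThreeCycle) (hfix : α y = y) :
    ∃ σ : Perm Ω, ∀ x : alternatingGroup Ω, ((α x : alternatingGroup Ω) : Perm Ω) = σ * x * σ⁻¹ := by
  refine exists_perm_of_preserves h5 α fun x hx => ?_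
  have hc := alternatingGroup.isThreeCycle_isConj (by rwa [Nat.card_eq_fintype_card]) hy hx
  obtain ⟨c, hc⟩ := isConj_iff.1 hc
  have h : α x = α c * y * (α c)⁻¹ := by rw [← hc, map_mul, map_mul, map_inv, hfix]
  have hconj : IsConj (y : Perm Ω) ((α x : alternatingGroup Ω) : Perm Ω) :=
    isConj_iff.2 ⟨(α c : alternatingGroup Ω), (congrArg Subtype.val h).symm⟩
  exact (isConj_iff_cycleType_eq.1 hconj).symm.trans hy

theorem eq_one_of_commutes (h4 : 4 ≤ Fintype.card Ω) {σ : Perm Ω}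
    (h : ∀ x : alternatingGroup Ω, σ * (x : Perm Ω) = x * σ) : σ = 1 := by
  by_contra hne
  obtain ⟨u, hu⟩ : ∃ u, σ u ≠ u := by
    by_contra hall
    push Not at hall
    exact hne (Equiv.ext hall)
  set R := (Finset.univ.erase u).erase (σ u) with hR
  have hcard : 2 ≤ R.card := by
    rw [hR, Finset.card_erase_of_mem (by simp [hu]),
      Finset.card_erase_of_mem (Finset.mem_univ u), Finset.card_univ]
    omega
  obtain ⟨b, hb, c, hc, hbc⟩ := Finset.one_lt_card.1 (by omega : 1 < R.card)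
  simp only [hR, Finset.mem_erase] at hb hc
  obtain ⟨e1, -, -, e4⟩ := c3_apply (Ne.symm hb.2.1) (Ne.symm hc.2.1) hbc
  have h3 : (c3 u b c).IsThreeCycle := c3_isThreeCycle (Ne.symm hb.2.1) (Ne.symm hc.2.1) hbc
  have := congrArg (fun f : Perm Ω => f u) (h ⟨_, h3.mem_alternatingGroup⟩)
  simp only [Perm.mul_apply] at this
  rw [e1, e4 (σ u) hu (Ne.symm hb.1) (Ne.symm hc.1)] at this
  exact hb.2.1 (σ.injective this)

end Vale.Agent.P240
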