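import Vale.Agent.P240.SepNice

/-!
# Separation data for every alternating group of degree at least five
-/

set_option linter.unusedSectionVars false

open Equiv Equiv.Perm

noncomputable section

namespace Vale.Agent.P240

section Blocks

variable (k m : ℕ)

/-- `k` blocks of three points and one block of `m` points. -/
abbrev Pts := (Fin k × Fin 3) ⊕ Fin m

/-- Permutations acting inside the three-blocks. -/
def blockHom : (Fin k → Perm (Fin 3)) →* Perm (Pts k m) where
  toFun f := Equiv.sumCongr (Equiv.prodCongrRight f) 1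
  map_one' := by ext (⟨i, a⟩ | j) <;> simp
  map_mul' f g := by ext (⟨i, a⟩ | j) <;> simp

theorem blockHom_inl (f : Fin k → Perm (Fin 3)) (i : Fin k) (a : Fin 3) :
    blockHom k m f (Sum.inl (i, a)) = Sum.inl (i, f i a) := rfl

theorem blockHom_inr (f : Fin k → Perm (Fin 3)) (j : Fin m) :
    blockHom k m f (Sum.inr j) = Sum.inr j := rfl

/-- The long cycle. -/
def longCyc : Perm (Pts k m) := Equiv.sumCongr 1 (finRotate m)

theorem longCyc_pow_inl (t : ℕ) (p : Fin k × Fin 3) :
    (longCyc k m ^ t) (Sum.inl p) = Sum.inl p := by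
  induction t with
  | zero => rfl
  | succ t ih => rw [pow_succ, Perm.mul_apply]; exact ih

theorem longCyc_pow_inr (t : ℕ) (j : Fin m) :
    (longCyc k m ^ t) (Sum.inr j) = Sum.inr ((finRotate m ^ t) j) := by
  induction t generalizing j with
  | zero => rfl
  | succ t ih =>
    rw [pow_succ, Perm.mul_apply, pow_succ, Perm.mul_apply]
    exact ih (finRotate m j)

theorem longCyc_comm (f : Fin k → Perm (Fin 3)) :
    longCyc k m * blockHom k m f = blockHom k m f * longCyc k m := by
  ext (⟨i, a⟩ | j) <;> rfl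

/-- The rotations of the blocks. -/
def rots : Subgroup (Fin k → Perm (Fin 3)) :=
  Subgroup.pi Set.univ (fun _ => Subgroup.zpowers (finRotate 3))

theorem mem_rots {f : Fin k → Perm (Fin 3)} :
    f ∈ rots k ↔ ∀ i, f i ∈ Subgroup.zpowers (finRotate 3) := by
  rw [rots, Subgroup.mem_pi]
  exact ⟨fun h i => h i (Set.mem_univ i), fun h i _ => h i⟩

theorem blockHom_even {f : Fin k → Perm (Fin 3)} (hf : f ∈ rots k) :
    blockHom k m f ∈ alternatingGroup (Pts k m) := by
  rw [Equiv.Perm.mem_alternatingGroup]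
  show sign (Equiv.sumCongr (Equiv.prodCongrRight f) 1) = 1
  rw [sign_sumCongr, map_one, mul_one, sign_prodCongrRight]
  refine Finset.prod_eq_one fun i _ => ?_
  obtain ⟨t, ht⟩ := Subgroup.mem_zpowers_iff.1 ((mem_rots k).1 hf i)
  rw [← ht, map_zpow, sign_finRotate]
  simp

theorem longCyc_even (hm : m = 0 ∨ Odd m) : longCyc k m ∈ alternatingGroup (Pts k m) := by
  rw [Equiv.Perm.mem_alternatingGroup]
  show sign (Equiv.sumCongr 1 (finRotate m)) = 1
  rw [sign_sumCongr, map_one, one_mul, sign_finRotate]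
  rcases hm with rfl | ⟨r, rfl⟩ <;> simp

/-- Splitting off one block. -/
theorem rots_update {f : Fin k → Perm (Fin 3)} (hf : f ∈ rots k) (i : Fin k) :
    Function.update f i 1 ∈ rots k ∧ Pi.mulSingle i (f i) ∈ rots k ∧
      f = Function.update f i 1 * Pi.mulSingle i (f i) := by
  refine ⟨(mem_rots k).2 fun l => ?_, (mem_rots k).2 fun l => ?_, funext fun l => ?_⟩
  · by_cases h : l = i
    · subst h; simp
    · simpa [h] using (mem_rots k).1 hf l
  · by_cases h : l = i
    · subst h; simpa using (mem_rots k).1 hf l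
    · simp [h]
  · by_cases h : l = i
    · subst h; simp
    · simp [h]

theorem finRotate_trans {n : ℕ} (hn : 2 ≤ n) (a b : Fin n) :
    ∃ t : ℕ, (finRotate n ^ t) a = b :=
  (isCycle_finRotate_of_le hn).exists_pow_eq
    (mem_support.1 (by rw [support_finRotate_of_le hn]; exact Finset.mem_univ a))
    (mem_support.1 (by rw [support_finRotate_of_le hn]; exact Finset.mem_univ b))

theorem finRotate_moves {n : ℕ} (hn : 2 ≤ n) (a : Fin n) : finRotate n a ≠ a :=
  mem_support.1 (by rw [support_finRotate_of_le hn]; exact Finset.mem_univ a)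

theorem blocks_nice (hk : 0 < k) (hm : m = 0 ∨ (Odd m ∧ 2 ≤ m)) :
    ∃ (Q : Subgroup (alternatingGroup (Pts k m))) (x : alternatingGroup (Pts k m)),
      NiceAct Q x := by
  have hm' : m = 0 ∨ Odd m := hm.imp_right And.left
  set Q : Subgroup (alternatingGroup (Pts k m)) :=
    ((rots k).map (blockHom k m)).subgroupOf (alternatingGroup (Pts k m)) with hQ
  set x : alternatingGroup (Pts k m) := ⟨longCyc k m, longCyc_even k m hm'⟩ with hx
  have qmem : ∀ {f}, (hf : f ∈ rots k) → (⟨blockHom k m f, blockHom_even k m hf⟩ :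
      alternatingGroup (Pts k m)) ∈ Q := fun hf => ⟨_, hf, rfl⟩
  have hcx : ∀ a ∈ Q, x * a = a * x := by
    rintro ⟨a, ha⟩ ⟨f, -, rfl⟩
    exact Subtype.ext (longCyc_comm k m f)
  have hform : ∀ h ∈ Q ⊔ Subgroup.zpowers x, ∃ f, ∃ hf : f ∈ rots k, ∃ t : ℕ,
      h = (⟨blockHom k m f, blockHom_even k m hf⟩ : alternatingGroup (Pts k m)) * x ^ t := by
    intro h hh
    have hset : h ∈ (↑(Q ⊔ Subgroup.zpowers x) : Set (alternatingGroup (Pts k m))) := hh
    rw [Subgroup.coe_mul_of_left_le_normalizer_right] at hset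
    · obtain ⟨a, ⟨f, hf, e⟩, b, hb, rfl⟩ := hset
      obtain ⟨t, rfl⟩ := (isOfFinOrder_of_finite x).mem_powers_iff_mem_zpowers.2 hb
      exact ⟨f, hf, t, congrArg (· * x ^ t) (Subtype.ext e.symm)⟩
    · intro a ha
      rw [Subgroup.mem_normalizer_iff]
      intro n
      constructor
      · intro hn
        obtain ⟨t, rfl⟩ := Subgroup.mem_zpowers_iff.1 hn
        rw [(show Commute a x from (hcx a ha).symm).zpow_right t |>.eq, mul_assoc, mul_inv_cancel,
          mul_one]
        exact hn
      · intro hn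
        obtain ⟨t, ht⟩ := Subgroup.mem_zpowers_iff.1 hn
        have e : n = a⁻¹ * (x ^ t) * a := by rw [ht]; group
        rw [e, mul_assoc, ← ((show Commute a x from (hcx a ha).symm).zpow_right t).eq,
          inv_mul_cancel_left]
        exact Subgroup.zpow_mem_zpowers x t
  have hmemf : ∀ {f}, (hf : f ∈ rots k) → (⟨blockHom k m f, blockHom_even k m hf⟩ :
      alternatingGroup (Pts k m)) ∈ Q ⊔ Subgroup.zpowers x :=
    fun hf => Subgroup.mem_sup_left (qmem hf)
  have hmemx : ∀ t : ℕ, x ^ t ∈ Q ⊔ Subgroup.zpowers x :=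
    fun t => Subgroup.mem_sup_right (Subgroup.npow_mem_zpowers x t)
  have happ : ∀ (t : ℕ) (p : Pts k m),
      ((x ^ t : alternatingGroup (Pts k m)) : Perm (Pts k m)) p = (longCyc k m ^ t) p :=
    fun t p => by rw [Subgroup.coe_pow]
  have hsingle : ∀ (i : Fin k) (t : ℕ), Pi.mulSingle i (finRotate 3 ^ t) ∈ rots k := by
    intro i t
    refine (mem_rots k).2 fun l => ?_
    by_cases h : l = i
    · subst h; rw [Pi.mulSingle_eq_same]; exact Subgroup.npow_mem_zpowers _ t
    · rw [Pi.mulSingle_eq_of_ne h]; exact Subgroup.one_mem _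
  refine ⟨Q, x, ⟨?_, ?_, hcx, ?_, ?_, ?_, ?_⟩⟩
  · rintro ⟨⟨a, ha⟩, f, hf, e⟩
    refine ⟨1, Subtype.ext (Subtype.ext ?_)⟩
    simp only [Subgroup.coe_pow, Subgroup.coe_one]
    change a ^ 3 ^ 1 = 1
    rw [← show blockHom k m f = a from e, ← map_pow, ← (blockHom k m).map_one]
    congr 1
    funext i
    obtain ⟨t, ht⟩ := Subgroup.mem_zpowers_iff.1 ((mem_rots k).1 hf i)
    rw [Pi.pow_apply, ← ht, Pi.one_apply, ← zpow_natCast, ← zpow_mul, mul_comm, zpow_mul,
      zpow_natCast, show (finRotate 3) ^ (3 ^ 1) = 1 by decide, one_zpow]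
  · rintro ⟨a, ha⟩ ⟨f, hf, rfl⟩ ⟨b, hb⟩ ⟨g, hg, rfl⟩
    refine Subtype.ext ?_
    show blockHom k m f * blockHom k m g = blockHom k m g * blockHom k m f
    rw [← map_mul, ← map_mul]
    congr 1
    funext i
    obtain ⟨s, hs⟩ := Subgroup.mem_zpowers_iff.1 ((mem_rots k).1 hf i)
    obtain ⟨t, ht⟩ := Subgroup.mem_zpowers_iff.1 ((mem_rots k).1 hg i)
    rw [Pi.mul_apply, Pi.mul_apply, ← hs, ← ht, ← zpow_add, ← zpow_add, add_comm]
  · rw [← Subgroup.orderOf_coe]
    show Odd (orderOf (longCyc k m))
    rcases hm with rfl | ⟨hodd, h2⟩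
    · have : longCyc k 0 = 1 := by
        ext (p | j)
        · rfl
        · exact j.elim0
      rw [this, orderOf_one]; exact odd_one
    · refine Odd.of_dvd_nat hodd (orderOf_dvd_of_pow_eq_one ?_)
      ext (p | j)
      · rw [longCyc_pow_inl]; rfl
      · rw [longCyc_pow_inr]
        have hpow : finRotate m ^ m = 1 := by
          have h := pow_orderOf_eq_one (finRotate m)
          rwa [(isCycle_finRotate_of_le h2).orderOf, support_finRotate_of_le h2, Finset.card_univ,
            Fintype.card_fin] at h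
        rw [hpow]; rfl
  · rintro (⟨i, a⟩ | j)
    · refine ⟨_, hmemf (hsingle i 1), ?_⟩
      rw [blockHom_inl, Pi.mulSingle_eq_same, pow_one]
      intro e
      exact finRotate_moves (by norm_num) a (Prod.ext_iff.1 (Sum.inl_injective e)).2
    · have h2 : 2 ≤ m := by
        rcases hm with rfl | ⟨-, h⟩
        · exact j.elim0
        · exact h
      refine ⟨_, hmemx 1, ?_⟩
      rw [happ, longCyc_pow_inr, pow_one]
      intro e
      exact finRotate_moves h2 j (Sum.inr_injective e)
  · rintro (⟨i, a⟩ | j) (⟨i', b⟩ | j')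
    · by_cases hii : i = i'
      · subst hii
        obtain ⟨t, ht⟩ := finRotate_trans (by norm_num : 2 ≤ 3) a b
        refine Or.inl ⟨_, hmemf (hsingle i t), ?_⟩
        rw [blockHom_inl, Pi.mulSingle_eq_same, ht]
      · refine Or.inr fun h hh => ?_
        obtain ⟨f, hf, t, rfl⟩ := hform h hh
        obtain ⟨u1, u2, u3⟩ := rots_update k hf i
        refine ⟨_, Subgroup.mul_mem _ (hmemx t) (hmemf u1), ?_, _, hmemf u2, ?_, ?_⟩
        · rw [app_mul, blockHom_inl, Function.update_self, happ]
          exact longCyc_pow_inl k m t _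
        · rw [blockHom_inl, Pi.mulSingle_eq_of_ne (Ne.symm hii)]; rfl
        · refine Subtype.ext ?_
          simp only [Subgroup.coe_mul, Subgroup.coe_pow]
          show blockHom k m f * longCyc k m ^ t = _ * _ * _
          rw [mul_assoc, ← map_mul, ← u3]
          exact ((show Commute (blockHom k m f) (longCyc k m) from
            (longCyc_comm k m f).symm).pow_right t).eq
    · refine Or.inr fun h hh => ?_
      obtain ⟨f, hf, t, rfl⟩ := hform h hh
      refine ⟨x ^ t, hmemx t, by rw [happ, longCyc_pow_inl], _, hmemf hf, rfl, ?_⟩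
      exact (((show Commute _ x from (hcx _ (qmem hf)).symm)).pow_right t).eq
    · refine Or.inr fun h hh => ?_
      obtain ⟨f, hf, t, rfl⟩ := hform h hh
      exact ⟨_, hmemf hf, rfl, x ^ t, hmemx t, by rw [happ, longCyc_pow_inl], rfl⟩
    · have h2 : 2 ≤ m := by
        rcases hm with rfl | ⟨-, h⟩
        · exact j.elim0
        · exact h
      obtain ⟨t, ht⟩ := finRotate_trans h2 j j'
      exact Or.inl ⟨x ^ t, hmemx t, by rw [happ, longCyc_pow_inr, ht]⟩
  · refine ⟨_, qmem (hsingle ⟨0, hk⟩ 1), ?_⟩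
    rw [← card_support_eq_three_iff]
    have : (blockHom k m (Pi.mulSingle ⟨0, hk⟩ (finRotate 3 ^ 1))).support =
        Finset.univ.image (fun a => Sum.inl (⟨0, hk⟩, a)) := by
      ext p
      simp only [mem_support, Finset.mem_image, Finset.mem_univ, true_and]
      rcases p with ⟨i, a⟩ | j
      · rw [blockHom_inl]
        by_cases hi : i = ⟨0, hk⟩
        · subst hi
          rw [Pi.mulSingle_eq_same, pow_one]
          refine iff_of_true (fun e => ?_) ⟨a, rfl⟩
          exact finRotate_moves (by norm_num) a (Prod.ext_iff.1 (Sum.inl_injective e)).2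
        · rw [Pi.mulSingle_eq_of_ne hi]
          refine iff_of_false (fun h => h rfl) ?_
          rintro ⟨a', e⟩
          exact hi (Prod.ext_iff.1 (Sum.inl_injective e)).1.symm
      · exact iff_of_false (fun h => h rfl) (by rintro ⟨a', e⟩; cases e)
    rw [this, Finset.card_image_of_injective _ (fun a b e =>
      (Prod.ext_iff.1 (Sum.inl_injective e)).2)]
    rfl

end Blocks

end Vale.Agent.P240
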