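import Vale.Agent.P240.Group

/-!
# Transfer along a normal subgroup of order prime to `p`
-/

set_option linter.unusedSectionVars false

open scoped Classical

noncomputable section

namespace Vale.Agent.P240

variable {k : Type*} [Field k] {p : ℕ} [hp : Fact p.Prime] {G : Type*} [Group G] [Finite G]
  (N : Subgroup G) [N.Normal]

/-- The trace of a chain of the quotient inside a fixed lift `L`, summed over conjugates. -/
def lam (k : Type*) [Field k] {G : Type*} [Group G] [Finite G] (N : Subgroup G) [N.Normal]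
    (L : Subgroup G) (τ : Finset (Subgroup (G ⧸ N))) : Finset (Subgroup G) →₀ k :=
  letI : Fintype N := Fintype.ofFinite N
  ∑ v : N, Finsupp.single
    (τ.image (fun T => cj (v : G) (L ⊓ T.comap (QuotientGroup.mk' N)))) 1

theorem map_inf_comap {L : Subgroup G} {T : Subgroup (G ⧸ N)}
    (h : T ≤ L.map (QuotientGroup.mk' N)) :
    (L ⊓ T.comap (QuotientGroup.mk' N)).map (QuotientGroup.mk' N) = T := by
  refine le_antisymm ?_ ?_
  · rintro _ ⟨x, hx, rfl⟩; exact hx.2
  · intro t ht
    obtain ⟨x, hx, rfl⟩ := h ht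
    exact ⟨x, ⟨hx, ht⟩, rfl⟩

theorem map_cj_mem {v : G} (hv : v ∈ N) (E : Subgroup G) :
    (cj v E).map (QuotientGroup.mk' N) = E.map (QuotientGroup.mk' N) := by
  rw [map_cj, show QuotientGroup.mk' N v = 1 from (QuotientGroup.eq_one_iff v).2 hv, cj_one]

theorem cj_inf_comap {v : G} (hv : v ∈ N) (E : Subgroup G) (T : Subgroup (G ⧸ N)) :
    cj v (E ⊓ T.comap (QuotientGroup.mk' N)) = cj v E ⊓ T.comap (QuotientGroup.mk' N) := by
  ext x
  have e : QuotientGroup.mk' N v = 1 := (QuotientGroup.eq_one_iff v).2 hv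
  simp only [mem_cj, Subgroup.mem_inf, Subgroup.mem_comap, map_mul, map_inv, e, inv_one,
    one_mul, mul_one]

theorem lam_congr (hN : (Nat.card N).Coprime p) {L L' : Subgroup G} (hL : IsElem p L)
    (hL' : IsElem p L') {T0 : Subgroup (G ⧸ N)} {τ : Finset (Subgroup (G ⧸ N))}
    (hτ : ∀ T ∈ τ, T ≤ T0) (h : T0 ≤ L.map (QuotientGroup.mk' N))
    (h' : T0 ≤ L'.map (QuotientGroup.mk' N)) : lam k N L τ = lam k N L' τ := by
  let : Fintype N := Fintype.ofFinite N
  set f := QuotientGroup.mk' N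
  obtain ⟨u, hu, -, e⟩ := lift_conj hN (P0 := ⊥) (hL.mono (inf_le_left (b := T0.comap f)))
    (hL'.mono (inf_le_left (b := T0.comap f))) bot_le bot_le
    (by rw [map_inf_comap N h, map_inf_comap N h'])
  have hT : ∀ (v : G) (M : Subgroup G), ∀ T ∈ τ,
      cj v (M ⊓ T.comap f) = cj v ((M ⊓ T0.comap f) ⊓ T.comap f) := by
    intro v M T hT
    rw [inf_assoc, inf_eq_right.2 (Subgroup.comap_mono (hτ T hT))]
  rw [lam, lam]
  refine (Fintype.sum_equiv (Equiv.mulRight ⟨u, hu⟩) _ _ fun v => ?_).symm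
  congr 1
  refine Finset.image_congr fun T hT' => ?_
  show cj (v : G) (L' ⊓ T.comap f) = cj ((v : G) * u) (L ⊓ T.comap f)
  rw [hT _ L' T hT', hT _ L T hT', cj_mul, cj_inf_comap N hu, e]

variable (p) in
/-- A chosen lift of a subgroup of the quotient. -/
def someLift (Tb : Subgroup (G ⧸ N)) : Subgroup G :=
  if h : ∃ E : Subgroup G, IsElem p E ∧ E.map (QuotientGroup.mk' N) = Tb then h.choose else ⊥

theorem someLift_spec (hN : (Nat.card N).Coprime p) {Tb : Subgroup (G ⧸ N)} (h : IsElem p Tb) :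
    IsElem p (someLift p N Tb) ∧ (someLift p N Tb).map (QuotientGroup.mk' N) = Tb := by
  obtain ⟨E, h1, -, h3⟩ := exists_lift hN h (P0 := ⊥) isElem_bot.isPGroup (by simp)
  have hex : ∃ E : Subgroup G, IsElem p E ∧ E.map (QuotientGroup.mk' N) = Tb := ⟨E, h1, h3⟩
  simp only [someLift, dif_pos hex]
  exact hex.choose_spec

theorem sup_id_isElem {α : Type*} [Group α] {τ : Finset (Subgroup α)}
    (hτ : IsChain (· ≤ ·) (τ : Set (Subgroup α))) (hU : ↑τ ⊆ elemAbelianSubgroups p α) :
    IsElem p (τ.sup id) := by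
  induction τ using Finset.induction_on with
  | empty => simpa using isElem_bot
  | insert a t ha ih =>
    rw [Finset.coe_insert] at hτ hU
    rw [Finset.sup_insert]
    by_cases hle : ∀ b ∈ t, b ≤ a
    · rw [show id a ⊔ t.sup id = a from sup_eq_left.2 (Finset.sup_le hle)]
      exact (hU (Set.mem_insert _ _)).2
    · push Not at hle
      obtain ⟨b, hb, hba⟩ := hle
      have : a ≤ b := (hτ (Set.mem_insert _ _) (Set.mem_insert_of_mem _ hb)
        (fun e => ha (e ▸ hb))).resolve_right hba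
      rw [show id a ⊔ t.sup id = t.sup id from
        sup_eq_right.2 (this.trans (Finset.le_sup (f := id) hb))]
      exact ih (hτ.mono (Set.subset_insert _ _)) ((Set.subset_insert _ _).trans hU)

/-- The transfer of a single chain. -/
def lamChain (k : Type*) [Field k] (p : ℕ) {G : Type*} [Group G] [Finite G] (N : Subgroup G)
    [N.Normal] (τ : Finset (Subgroup (G ⧸ N))) : Finset (Subgroup G) →₀ k :=
  lam k N (someLift p N (τ.sup id)) τ

theorem lam_eq_sum_push (L : Subgroup G) (τ : Finset (Subgroup (G ⧸ N))) [Fintype N] :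
    lam k N L τ = ∑ v : N, push k (fun T => cj (v : G) (L ⊓ T.comap (QuotientGroup.mk' N)))
      (Finsupp.single τ 1) := by
  unfold lam
  simp only [push_single]
  exact Finset.sum_congr (Finset.ext fun _ => by simp) fun _ _ => rfl

theorem lift_step {L : Subgroup G} (v : G)
    {τ : Finset (Subgroup (G ⧸ N))} (hle : ∀ T ∈ τ, T ≤ L.map (QuotientGroup.mk' N))
    {a b : Subgroup (G ⧸ N)} (ha : a ∈ τ) (hb : b ∈ τ) (h : a < b) :
    cj v (L ⊓ a.comap (QuotientGroup.mk' N)) < cj v (L ⊓ b.comap (QuotientGroup.mk' N)) := by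
  refine (cj v).strictMono (lt_of_le_of_ne (inf_le_inf_left _ (Subgroup.comap_mono h.le))
    fun e => h.ne ?_)
  rw [← map_inf_comap N (hle a ha), ← map_inf_comap N (hle b hb), e]

theorem lamChain_mem (hN : (Nat.card N).Coprime p) {m : ℕ} {τ : Finset (Subgroup (G ⧸ N))}
    (hτ : τ ∈ chainSets (elemAbelianSubgroups p (G ⧸ N)) m) :
    lamChain k p N τ ∈ CC k (elemAbelianSubgroups p G) m := by
  obtain ⟨hL, hLm⟩ := someLift_spec N hN (sup_id_isElem hτ.1 hτ.2.1)
  have hle : ∀ T ∈ τ, T ≤ (someLift p N (τ.sup id)).map (QuotientGroup.mk' N) :=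
    fun T hT => le_of_le_of_eq (Finset.le_sup (f := id) hT) hLm.symm
  let : Fintype N := Fintype.ofFinite N
  rw [lamChain, lam_eq_sum_push]
  refine Submodule.sum_mem _ fun v _ => push_mem_CC (U := (τ : Set (Subgroup (G ⧸ N))))
    (fun a ha b hb h => lift_step N (v : G) hle ha hb h) ?_
    (single_mem_CC ⟨hτ.1, subset_rfl, hτ.2.2⟩ 1)
  intro T hT
  refine ⟨fun e => (hτ.2.1 hT).1 ?_, (hL.mono inf_le_left).cj _⟩
  rw [← map_inf_comap N (hle T hT), cj_eq_bot.1 e, Subgroup.map_bot]

theorem push_lamChain (hN : (Nat.card N).Coprime p) {m : ℕ} {τ : Finset (Subgroup (G ⧸ N))}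
    (hτ : τ ∈ chainSets (elemAbelianSubgroups p (G ⧸ N)) m) :
    push k (fun E : Subgroup G => E.map (QuotientGroup.mk' N)) (lamChain k p N τ) =
      (Nat.card N : k) • Finsupp.single τ 1 := by
  obtain ⟨hL, hLm⟩ := someLift_spec N hN (sup_id_isElem hτ.1 hτ.2.1)
  have hle : ∀ T ∈ τ, T ≤ (someLift p N (τ.sup id)).map (QuotientGroup.mk' N) :=
    fun T hT => le_of_le_of_eq (Finset.le_sup (f := id) hT) hLm.symm
  let : Fintype N := Fintype.ofFinite N
  rw [lamChain, lam_eq_sum_push, map_sum]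
  have : ∀ v : N, push k (fun E : Subgroup G => E.map (QuotientGroup.mk' N))
      (push k (fun T => cj (v : G)
        (someLift p N (τ.sup id) ⊓ T.comap (QuotientGroup.mk' N))) (Finsupp.single τ 1)) =
      Finsupp.single τ (1 : k) := by
    intro v
    rw [push_single, push_single, Finset.image_image]
    congr 1
    refine (Finset.image_congr (g := id) fun T hT => ?_).trans Finset.image_id
    show (cj (v : G) _).map _ = T
    rw [map_cj_mem N v.2, map_inf_comap N (hle T hT)]
  rw [Finset.sum_congr rfl (fun v _ => this v), Finset.sum_const, Finset.card_univ,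
    Nat.card_eq_fintype_card, Nat.cast_smul_eq_nsmul]

theorem bd_lamChain (hN : (Nat.card N).Coprime p) {m : ℕ} {τ : Finset (Subgroup (G ⧸ N))}
    (hτ : τ ∈ chainSets (elemAbelianSubgroups p (G ⧸ N)) m) :
    bd k (Subgroup G) (lamChain k p N τ) =
      Finsupp.linearCombination k (lamChain k p N)
        (bd k (Subgroup (G ⧸ N)) (Finsupp.single τ 1)) := by
  obtain ⟨hL, hLm⟩ := someLift_spec N hN (sup_id_isElem hτ.1 hτ.2.1)
  have hle : ∀ T ∈ τ, T ≤ (someLift p N (τ.sup id)).map (QuotientGroup.mk' N) :=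
    fun T hT => le_of_le_of_eq (Finset.le_sup (f := id) hT) hLm.symm
  let : Fintype N := Fintype.ofFinite N
  have h1 : bd k (Subgroup G) (lamChain k p N τ) =
      ∑ v : N, push k (fun T => cj (v : G)
        (someLift p N (τ.sup id) ⊓ T.comap (QuotientGroup.mk' N)))
        (bd k (Subgroup (G ⧸ N)) (Finsupp.single τ 1)) := by
    rw [lamChain, lam_eq_sum_push, map_sum]
    exact Finset.sum_congr rfl fun v _ =>
      (push_bd_single hτ.1 (fun a ha b hb h => lift_step N (v : G) hle ha hb h) 1).symm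
  rw [h1, bd_single, map_sum]
  simp only [map_sum]
  rw [Finset.sum_comm]
  refine Finset.sum_congr rfl fun a ha => ?_
  obtain ⟨hL', hLm'⟩ := someLift_spec N hN (sup_id_isElem
    (hτ.1.mono (Finset.coe_subset.2 (Finset.erase_subset a τ)))
    ((Finset.coe_subset.2 (Finset.erase_subset a τ)).trans hτ.2.1))
  have e : lamChain k p N (τ.erase a) = lam k N (someLift p N (τ.sup id)) (τ.erase a) :=
    lam_congr N hN hL' hL (fun T hT => Finset.le_sup (f := id) hT) hLm'.ge
      (le_of_le_of_eq (Finset.sup_mono (Finset.erase_subset _ _)) hLm.symm)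
  rw [Finsupp.linearCombination_single, e, lam_eq_sum_push, Finset.smul_sum]
  refine Finset.sum_congr rfl fun v _ => ?_
  rw [← map_smul, Finsupp.smul_single, smul_eq_mul, mul_one, one_mul]

/-- Nonzero homology of `A_p` of a coprime quotient survives in `A_p(G)`. -/
theorem transfer [CharZero k] (hN : (Nat.card N).Coprime p)
    (h : HasReducedHomology k (elemAbelianSubgroups p (G ⧸ N))) :
    HasReducedHomology k (elemAbelianSubgroups p G) := by
  obtain ⟨n, z, hz, hz0, hzb⟩ := h
  set s : (Finset (Subgroup (G ⧸ N)) →₀ k) →ₗ[k] (Finset (Subgroup G) →₀ k) :=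
    Finsupp.linearCombination k (lamChain k p N) with hs
  set pf := push k (fun E : Subgroup G => E.map (QuotientGroup.mk' N)) with hpf
  have hs1 : ∀ {m : ℕ} {c : Finset (Subgroup (G ⧸ N)) →₀ k},
      c ∈ CC k (elemAbelianSubgroups p (G ⧸ N)) m →
      s c ∈ CC k (elemAbelianSubgroups p G) m ∧
      bd k (Subgroup G) (s c) = s (bd k (Subgroup (G ⧸ N)) c) ∧
      pf (s c) = (Nat.card N : k) • c := by
    intro m c hc
    refine CC_induction (P := fun c => s c ∈ CC k (elemAbelianSubgroups p G) m ∧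
      bd k (Subgroup G) (s c) = s (bd k (Subgroup (G ⧸ N)) c) ∧
      pf (s c) = (Nat.card N : k) • c) hc (by simp) ?_ ?_
    · rintro x y ⟨x1, x2, x3⟩ ⟨y1, y2, y3⟩
      simp only [map_add, smul_add, x2, x3, y2, y3]
      exact ⟨add_mem x1 y1, trivial, trivial⟩
    · intro τ hτ a
      have e : s (Finsupp.single τ a) = a • lamChain k p N τ :=
        Finsupp.linearCombination_single k a τ
      have e1 : Finsupp.single τ a = a • Finsupp.single τ (1 : k) := by simp
      refine ⟨e ▸ Submodule.smul_mem _ a (lamChain_mem N hN hτ), ?_, ?_⟩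
      · rw [e, map_smul, bd_lamChain N hN hτ, ← map_smul, ← map_smul, ← e1]
      · rw [e, map_smul, hpf, push_lamChain N hN hτ, smul_comm, ← e1]
  obtain ⟨z1, z2, z3⟩ := hs1 hz
  refine ⟨n, s z, z1, by rw [z2, hz0, map_zero], fun w hw e => ?_⟩
  have hmono : ∀ a ∈ elemAbelianSubgroups p G, ∀ b ∈ elemAbelianSubgroups p G, a < b →
      a.map (QuotientGroup.mk' N) < b.map (QuotientGroup.mk' N) :=
    fun a _ b hb h => map_lt_map_mk hN hb.2.isPGroup h
  have e2 := congrArg pf e
  rw [z3, hpf, push_bd hmono hw] at e2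
  refine hzb ((Nat.card N : k)⁻¹ • pf w) ?_ ?_
  · exact Submodule.smul_mem _ _
      (push_mem_CC hmono (fun E hE => map_mem_elem hN hE) hw)
  · rw [map_smul, hpf, e2, smul_smul, inv_mul_cancel₀, one_smul]
    exact_mod_cast Nat.card_pos.ne'

end Vale.Agent.P240
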