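import Vale.Agent.P240.Theta
import Vale.Agent.P240.Transfer

/-!
# Arrangements of maximal subgroups and the fundamental relative cycle
-/

set_option linter.unusedSectionVars false

open scoped Classical

noncomputable section

namespace Vale.Agent.P240

variable {p : ℕ} [hp : Fact p.Prime] {G : Type*} [Group G] [Finite G]

/-- Nonidentity subgroups of `L`. -/
def Below {G : Type*} [Group G] (L : Subgroup G) : Set (Subgroup G) := {F | F ≠ ⊥ ∧ F ≤ L}

/-- Nonidentity subgroups of some member of `K`. -/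
def Arr {G : Type*} [Group G] (Ks : Finset (Subgroup G)) : Set (Subgroup G) :=
  {F | F ≠ ⊥ ∧ ∃ K ∈ Ks, F ≤ K}

theorem maxIn_of_card {E A : Subgroup G} (hE : IsElem p E) (h : A < E)
    (hc : Nat.card E ≤ Nat.card A * p) : MaxIn A E := by
  refine ⟨h, fun L hAL hLE => Subgroup.eq_of_le_of_card_ge hLE (hc.trans ?_)⟩
  obtain ⟨a, ha⟩ := IsPGroup.iff_card.1 (hE.mono h.le).isPGroup
  obtain ⟨l, hl⟩ := IsPGroup.iff_card.1 (hE.mono hLE).isPGroup
  rw [ha, hl, ← pow_succ]
  refine Nat.pow_le_pow_right hp.out.pos (Nat.succ_le_of_lt ?_)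
  by_contra hla
  refine hAL.ne (Subgroup.eq_of_le_of_card_ge hAL.le ?_)
  rw [ha, hl]
  exact Nat.pow_le_pow_right hp.out.pos (Nat.le_of_not_lt hla)

theorem van_arr (k : Type*) [Field k] {E : Subgroup G} (hE : IsElem p E)
    (Ks : Finset (Subgroup G)) (hKs : ∀ K ∈ Ks, MaxIn K E) (hne : Ks.Nonempty) {d : ℕ}
    (hd : p ^ (d + 1) < Nat.card E) : Van k (Arr Ks) d := by
  induction hn : Ks.card using Nat.strong_induction_on generalizing E Ks d with
  | _ n ih =>
    obtain ⟨K, hK⟩ := hne
    have hKbot : K ≠ ⊥ := fun e => by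
      have := card_maxIn hE (hKs K hK)
      rw [e, Subgroup.card_bot, one_mul] at this
      have h' : p ^ 1 ≤ p ^ (d + 1) := Nat.pow_le_pow_right hp.out.pos (Nat.le_add_left 1 d)
      rw [pow_one] at h'
      omega
    have hsingle : Arr ({K} : Finset (Subgroup G)) = Below K := by
      ext F; simp [Arr, Below]
    have hvK : ∀ j, Van k (Below K) j :=
      fun j => van_of_top (U := Below K) (t := K) ⟨hKbot, le_rfl⟩ (fun a ha => ha.2) j
    rcases (Ks.erase K).eq_empty_or_nonempty with he | hne'
    · have : Ks = {K} := by rw [← Finset.insert_erase hK, he]; rfl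
      rw [this, hsingle]
      exact hvK d
    have hunion : Arr Ks = Arr (Ks.erase K) ∪ Below K := by
      ext F
      simp only [Arr, Below, Set.mem_union, Set.mem_ofPred_eq, Finset.mem_erase]
      constructor
      · rintro ⟨h0, K', hK', hle⟩
        by_cases e : K' = K
        · exact Or.inr ⟨h0, e ▸ hle⟩
        · exact Or.inl ⟨h0, K', ⟨e, hK'⟩, hle⟩
      · rintro (⟨h0, K', ⟨-, hK'⟩, hle⟩ | ⟨h0, hle⟩)
        · exact ⟨h0, K', hK', hle⟩
        · exact ⟨h0, K, hK, hle⟩
    rw [hunion]
    have hlt : (Ks.erase K).card < n := hn ▸ Finset.card_erase_lt_of_mem hK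
    refine van_union ?_ ?_
      (ih _ hlt hE _ (fun K' h => hKs K' (Finset.mem_of_mem_erase h)) hne' hd rfl) (hvK d) ?_
    · rintro a ⟨-, K', hK', haK⟩ b ⟨hb, -⟩ hba
      exact ⟨hb, K', hK', hba.trans haK⟩
    · rintro a ⟨-, haK⟩ b ⟨hb, -⟩ hba
      exact ⟨hb, hba.trans haK⟩
    · intro m hm
      subst hm
      have hinter : Arr (Ks.erase K) ∩ Below K = Arr ((Ks.erase K).image (· ⊓ K)) := by
        ext F
        simp only [Arr, Below, Set.mem_inter_iff, Set.mem_ofPred_eq, Finset.mem_image]
        constructor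
        · rintro ⟨⟨h0, K', hK', hle⟩, -, hFK⟩
          exact ⟨h0, K' ⊓ K, ⟨K', hK', rfl⟩, le_inf hle hFK⟩
        · rintro ⟨h0, _, ⟨K', hK', rfl⟩, hle⟩
          exact ⟨⟨h0, K', hK', hle.trans inf_le_left⟩, h0, hle.trans inf_le_right⟩
      rw [hinter]
      refine ih _ (lt_of_le_of_lt Finset.card_image_le hlt) (hE.mono (hKs K hK).1.le) _ ?_
        (hne'.image _) ?_ rfl
      · simp only [Finset.mem_image, Finset.mem_erase]
        rintro _ ⟨K', ⟨hne0, hK'⟩, rfl⟩
        have hc := card_le_inf_mul hE (hKs K' hK') (hKs K hK).1.le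
        rw [inf_comm] at hc
        refine maxIn_of_card (hE.mono (hKs K hK).1.le)
          (lt_of_le_of_ne inf_le_right fun e => ?_) hc
        have hKK' : K ≤ K' := e ▸ inf_le_left
        rcases eq_or_lt_of_le hKK' with h | h
        · exact hne0 h.symm
        · exact (hKs K' hK').1.ne ((hKs K hK).2 K' h (hKs K' hK').1.le)
      · have e := card_maxIn hE (hKs K hK)
        rw [e, show m + 1 + 1 = (m + 1) + 1 from rfl, pow_succ] at hd
        exact Nat.lt_of_mul_lt_mul_right hd

theorem card_chain {C T : Subgroup G} (hT : IsElem p T) (hCT : C ≤ T)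
    {τ : Finset (Subgroup G)} (hτ : IsChain (· ≤ ·) (τ : Set (Subgroup G)))
    (h : ∀ x ∈ τ, C < x ∧ x ≤ T) : Nat.card C * p ^ τ.card ≤ Nat.card T := by
  induction hn : τ.card generalizing T τ with
  | zero => simpa using Subgroup.card_le_of_le hCT
  | succ n ih =>
    obtain ⟨x, hx, hmax⟩ := τ.exists_maximal (Finset.card_pos.1 (by omega))
    rcases (τ.erase x).eq_empty_or_nonempty with he | hne
    · have hcard := Finset.card_erase_add_one hx
      rw [he, Finset.card_empty] at hcard
      obtain ⟨a, ha⟩ := IsPGroup.iff_card.1 (hT.mono hCT).isPGroup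
      obtain ⟨l, hl⟩ := IsPGroup.iff_card.1 (hT.mono (h x hx).2).isPGroup
      have hal : a < l := by
        by_contra hla
        refine (h x hx).1.ne (Subgroup.eq_of_le_of_card_ge (h x hx).1.le ?_)
        rw [ha, hl]
        exact Nat.pow_le_pow_right hp.out.pos (Nat.le_of_not_lt hla)
      rw [show n + 1 = 1 by omega, pow_one, ha, ← pow_succ]
      exact (Nat.pow_le_pow_right hp.out.pos hal).trans
        (hl ▸ Subgroup.card_le_of_le (h x hx).2)
    · obtain ⟨y, hy, hymax⟩ := (τ.erase x).exists_maximal hne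
      have hyτ := Finset.mem_of_mem_erase hy
      have hτ' : IsChain (· ≤ ·) ((τ.erase x : Finset _) : Set (Subgroup G)) :=
        hτ.mono (by intro u hu; exact Finset.mem_of_mem_erase hu)
      have e := ih (hT.mono (h y hyτ).2) (h y hyτ).1.le hτ' (fun u hu => ⟨(h u
        (Finset.mem_of_mem_erase hu)).1, by
          by_cases huy : u = y
          · exact le_of_eq huy
          rcases hτ' hu hy huy with h' | h'
          · exact h'
          · exact hymax hu h'⟩)
        (by rw [Finset.card_erase_of_mem hx]; omega)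
      have hyx : y < x := by
        have hne' := Finset.ne_of_mem_erase hy
        rcases hτ hyτ hx hne' with h' | h'
        · exact lt_of_le_of_ne h' hne'
        · exact lt_of_le_of_ne (hmax hyτ h') hne'
      obtain ⟨a, ha⟩ := IsPGroup.iff_card.1 (hT.mono (h y hyτ).2).isPGroup
      obtain ⟨l, hl⟩ := IsPGroup.iff_card.1 (hT.mono (h x hx).2).isPGroup
      have hal : a < l := by
        by_contra hla
        refine hyx.ne (Subgroup.eq_of_le_of_card_ge hyx.le ?_)
        rw [ha, hl]
        exact Nat.pow_le_pow_right hp.out.pos (Nat.le_of_not_lt hla)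
      rw [pow_succ, ← mul_assoc]
      refine (Nat.mul_le_mul_right p e).trans ?_
      rw [ha, ← pow_succ]
      exact (Nat.pow_le_pow_right hp.out.pos hal).trans
        (hl ▸ Subgroup.card_le_of_le (h x hx).2)

variable {k : Type*} [Field k] {n : ℕ} (b : Fin n → G)

/-- The subgroup spanned by some of the `b i`. -/
def spanB (S : Finset (Fin n)) : Subgroup G := Subgroup.closure (b '' (S : Set (Fin n)))

variable (k) in
/-- Subdivided simplex on the vertices in `S`, built by coning. -/
def subdiv : ℕ → Finset (Fin n) → (Finset (Subgroup G) →₀ k)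
  | 0, _ => Finsupp.single ∅ 1
  | m + 1, S => cone k (spanB b S)
      (∑ j ∈ S, ((-1 : k) ^ below S j) • subdiv m (S.erase j))

variable (k) in
/-- Linear extension of `subdiv`. -/
def subdivLin : (Finset (Fin n) →₀ k) →ₗ[k] (Finset (Subgroup G) →₀ k) :=
  Finsupp.linearCombination k (fun S => subdiv k b S.card S)

theorem bd_single_fin (S : Finset (Fin n)) (c : k) :
    bd k (Fin n) (Finsupp.single S c) =
      ∑ j ∈ S, Finsupp.single (S.erase j) (c * (-1 : k) ^ below S j) := by
  rw [bd_single]
  refine Finset.sum_congr rfl fun j _ => ?_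
  congr 2
  exact Subsingleton.elim _ _

theorem isChain_fin (S : Finset (Fin n)) : IsChain (· ≤ ·) (S : Set (Fin n)) :=
  fun a _ c _ _ => le_total a c

theorem subdiv_succ {m : ℕ} {S : Finset (Fin n)} (hS : S.card = m + 1) :
    subdiv k b (m + 1) S =
      cone k (spanB b S) (subdivLin k b (bd k (Fin n) (Finsupp.single S 1))) := by
  rw [subdiv, bd_single_fin]
  refine congrArg _ ((Finset.sum_congr rfl fun j hj => ?_).trans (map_sum _ _ _).symm)
  rw [subdivLin, Finsupp.linearCombination_single, one_mul,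
    show (S.erase j).card = m by rw [Finset.card_erase_of_mem hj]; omega]

theorem subdiv_spec (hb1 : ∀ i, b i ≠ 1) {m : ℕ} : ∀ {S : Finset (Fin n)}, S.card = m →
    subdiv k b m S ∈ CC k (Below (spanB b S)) m ∧
    bd k (Subgroup G) (subdiv k b m S) = subdivLin k b (bd k (Fin n) (Finsupp.single S 1)) := by
  induction m with
  | zero =>
    intro S hS
    obtain rfl := Finset.card_eq_zero.1 hS
    refine ⟨single_mem_CC ⟨by simp [IsChain], by simp, rfl⟩ 1, ?_⟩
    simp [subdiv, bd_single]
  | succ m ih =>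
    intro S hS
    have hne : spanB b S ≠ ⊥ := by
      obtain ⟨i, hi⟩ := Finset.card_pos.1 (by omega : 0 < S.card)
      exact fun e => hb1 i (Subgroup.mem_bot.1 (e ▸ Subgroup.subset_closure ⟨i, hi, rfl⟩))
    set y := subdivLin k b (bd k (Fin n) (Finsupp.single S 1)) with hy
    have hmem : ∀ x ∈ CC k (↑S : Set (Fin n)) m,
        subdivLin k b x ∈ CC k (Below (spanB b S)) m ∧
        bd k (Subgroup G) (subdivLin k b x) = subdivLin k b (bd k (Fin n) x) := by
      intro x hx
      refine CC_induction (P := fun x => subdivLin k b x ∈ CC k (Below (spanB b S)) m ∧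
        bd k (Subgroup G) (subdivLin k b x) = subdivLin k b (bd k (Fin n) x)) hx (by simp) ?_ ?_
      · rintro u v ⟨u1, u2⟩ ⟨v1, v2⟩
        simp only [map_add, u2, v2, and_true]
        exact add_mem u1 v1
      · intro R hR c
        obtain ⟨r1, r2⟩ := ih hR.2.2
        have e : subdivLin k b (Finsupp.single R c) = c • subdiv k b m R := by
          rw [subdivLin, Finsupp.linearCombination_single, hR.2.2]
        refine ⟨e ▸ Submodule.smul_mem _ c (CC_mono ?_ r1), ?_⟩
        · exact fun F hF => ⟨hF.1, hF.2.trans (Subgroup.closure_mono (Set.image_mono hR.2.1))⟩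
        · rw [e, map_smul, r2, ← map_smul, ← map_smul, Finsupp.smul_single, smul_eq_mul,
            mul_one]
    have hS1 : Finsupp.single S (1 : k) ∈ CC k (↑S : Set (Fin n)) (m + 1) :=
      single_mem_CC ⟨isChain_fin S, subset_rfl, hS⟩ 1
    obtain ⟨y1, y2⟩ := hmem _ (bd_mem_CC hS1)
    rw [bd_bd hS1, map_zero] at y2
    rw [subdiv_succ b hS]
    refine ⟨cone_mem_CC y1 ⟨hne, le_rfl⟩ (fun a ha => ha.2), ?_⟩
    have := cone_homotopy y1 (t := spanB b S) (fun a ha => ha.2)
    rwa [y2, map_zero, add_zero] at this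

theorem subdiv_top_mem {m : ℕ} {S : Finset (Fin n)} {σ : Finset (Subgroup G)}
    (hσ : subdiv k b (m + 1) S σ ≠ 0) : spanB b S ∈ σ := by
  rw [subdiv] at hσ
  revert hσ
  generalize (∑ j ∈ S, ((-1 : k) ^ below S j) • subdiv k b m (S.erase j) :
    Finset (Subgroup G) →₀ k) = y
  induction y using Finsupp.induction_linear with
  | zero => simp
  | add u v hu hv =>
    intro h
    rw [map_add, Finsupp.add_apply] at h
    by_cases h' : cone k (spanB b S) u σ = 0
    · exact hv (by simpa [h'] using h)
    · exact hu h'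
  | single s c =>
    rw [cone_single]
    split_ifs with h
    · simp
    · intro h'
      have : insert (spanB b S) s = σ := by
        by_contra e
        exact h' (Finsupp.single_eq_of_ne (Ne.symm e))
      exact this ▸ Finset.mem_insert_self _ _

theorem subdiv_ne_zero {H : Fin n → Subgroup G} (hout : ∀ i, b i ∉ H i)
    (hin : ∀ i j, i ≠ j → b i ∈ H j) {m : ℕ} :
    ∀ {S : Finset (Fin n)}, S.card = m → subdiv k b m S ≠ 0 := by
  induction m with
  | zero => intro S _; simp [subdiv]
  | succ m ih =>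
    intro S hS h0
    have hb1 : ∀ i, b i ≠ 1 := fun i e => hout i (e ▸ Subgroup.one_mem _)
    have e := (subdiv_spec (k := k) b hb1 hS).2
    rw [h0, map_zero] at e
    obtain ⟨j0, hj0⟩ := Finset.card_pos.1 (by omega : 0 < S.card)
    have hcard : ∀ j ∈ S, (S.erase j).card = m := fun j hj => by
      rw [Finset.card_erase_of_mem hj]; omega
    obtain ⟨σ, hσ⟩ := Finsupp.ne_iff.1 (ih (hcard j0 hj0))
    have e' : ∑ j ∈ S, ((-1 : k) ^ below S j) * subdiv k b m (S.erase j) σ = 0 := by
      rw [bd_single_fin, map_sum] at e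
      have := DFunLike.congr_fun e.symm σ
      rw [Finsupp.finsetSum_apply, Finsupp.zero_apply] at this
      rw [← this]
      refine Finset.sum_congr rfl fun j hj => ?_
      rw [subdivLin, Finsupp.linearCombination_single, one_mul, hcard j hj, Finsupp.smul_apply,
        smul_eq_mul]
    rw [Finset.sum_eq_single j0] at e'
    · exact hσ (by simpa using e')
    · intro j hj hne
      rcases m with _ | m
      · exact absurd (Finset.card_le_one.1 (show S.card ≤ 1 by omega) j hj j0 hj0) hne
      rw [mul_eq_zero]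
      refine Or.inr (by_contra fun h => hout j ?_)
      obtain ⟨i, hi⟩ := Finset.card_pos.1
        (by rw [hcard j0 hj0]; exact Nat.succ_pos m : 0 < (S.erase j0).card)
      have hmem := ((Finsupp.mem_supported k _).1
        (subdiv_spec (k := k) b hb1 (hcard j hj)).1 (Finsupp.mem_support_iff.2 h)).2.1
        (subdiv_top_mem b hσ)
      have hle : spanB b (S.erase j) ≤ H j := by
        rw [spanB, Subgroup.closure_le]
        rintro _ ⟨i, hi, rfl⟩
        exact hin i j (Finset.ne_of_mem_erase hi)
      exact hle (hmem.2 (Subgroup.subset_closure ⟨j, Finset.mem_erase.2 ⟨hne, hj⟩, rfl⟩))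
    · exact fun h => absurd hj0 h

/-- The fundamental relative cycle of an elementary abelian group with independent maximal
subgroups `H i`. -/
theorem exists_relCycle {B : Subgroup G} {H : Fin n → Subgroup G}
    (hb : ∀ i, b i ∈ B ∧ b i ∉ H i) (hin : ∀ i j, i ≠ j → b i ∈ H j) :
    ∃ z ∈ CC k (Below B) n, z ≠ 0 ∧
      ∀ σ ∈ (bd k (Subgroup G) z).support, ∃ j, ∀ F ∈ σ, F ≤ H j := by
  have hb1 : ∀ i, b i ≠ 1 := fun i e => (hb i).2 (e ▸ Subgroup.one_mem _)
  have hcard : (Finset.univ : Finset (Fin n)).card = n := by simp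
  obtain ⟨h1, h2⟩ := subdiv_spec (k := k) b hb1 hcard
  have hle : spanB b Finset.univ ≤ B := by
    rw [spanB, Subgroup.closure_le]
    rintro _ ⟨i, -, rfl⟩; exact (hb i).1
  refine ⟨subdiv k b n Finset.univ,
    CC_mono (U' := Below B) (fun F hF => ⟨hF.1, hF.2.trans hle⟩) h1,
    subdiv_ne_zero b (fun i => (hb i).2) hin hcard, fun σ hσ => ?_⟩
  rw [h2, bd_single_fin, map_sum] at hσ
  obtain ⟨j, -, hj⟩ := Finset.mem_biUnion.1 (Finsupp.support_finsetSum hσ)
  rw [subdivLin, Finsupp.linearCombination_single] at hj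
  refine ⟨j, fun F hF => ?_⟩
  obtain ⟨g1, -⟩ := subdiv_spec (k := k) b hb1 (S := Finset.univ.erase j) rfl
  refine (((Finsupp.mem_supported k _).1 g1 (Finsupp.support_smul hj)).2.1 hF).2.trans ?_
  rw [spanB, Subgroup.closure_le]
  rintro _ ⟨i, hi, rfl⟩
  exact hin i j (Finset.ne_of_mem_erase hi)

end Vale.Agent.P240
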