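import Mathlib

/-!
# Reduced simplicial homology of the order complex of a finite poset

A simplex of the order complex of a set `U` in an ordered type is a finite totally ordered
subset of `U`; the empty one spans the degree `-1` term of the augmented complex.
-/

set_option linter.unusedSectionVars false

open scoped Classical

noncomputable section

namespace Vale.Agent.P240

variable {k : Type*} [Field k] {α β : Type*} [PartialOrder α] [PartialOrder β]

/-- The number of members of `s` lying strictly below `a`. -/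
def below (s : Finset α) (a : α) : ℕ := (s.filter (fun b => b < a)).card

/-- Simplicial boundary on finite subsets: delete `a` with the sign of its position. -/
def bd (k : Type*) [Field k] (α : Type*) [PartialOrder α] :
    (Finset α →₀ k) →ₗ[k] (Finset α →₀ k) :=
  Finsupp.linearCombination k
    (fun s => ∑ a ∈ s, Finsupp.single (s.erase a) ((-1 : k) ^ below s a))

/-- The totally ordered subsets of `U` with exactly `n` elements. -/
def chainSets (U : Set α) (n : ℕ) : Set (Finset α) :=
  {s | IsChain (· ≤ ·) (s : Set α) ∧ ↑s ⊆ U ∧ s.card = n}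

/-- The chain group spanned by the `n`-element chains of `U` (simplices of dimension `n-1`). -/
def CC (k : Type*) [Field k] {α : Type*} [PartialOrder α] (U : Set α) (n : ℕ) :
    Submodule k (Finset α →₀ k) :=
  Finsupp.supported k k (chainSets U n)

/-- Vanishing of reduced homology of the order complex of `U` in degree `n-1`. -/
def Van (k : Type*) [Field k] {α : Type*} [PartialOrder α] (U : Set α) (n : ℕ) : Prop :=
  ∀ z ∈ CC k U n, bd k α z = 0 → ∃ w ∈ CC k U (n + 1), bd k α w = z

/-- Some reduced homology group of the order complex of `U` over `k` is nonzero. -/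
def HasReducedHomology (k : Type*) [Field k] {α : Type*} [PartialOrder α] (U : Set α) : Prop :=
  ∃ n : ℕ, ∃ z ∈ CC k U n, bd k α z = 0 ∧ ∀ w ∈ CC k U (n + 1), bd k α w ≠ z

theorem hasReducedHomology_iff {U : Set α} : HasReducedHomology k U ↔ ∃ n, ¬ Van k U n := by
  constructor
  · rintro ⟨n, z, hz, h0, hw⟩
    exact ⟨n, fun h => by obtain ⟨w, hw', e⟩ := h z hz h0; exact hw w hw' e⟩
  · rintro ⟨n, h⟩
    simp only [Van, not_forall, not_exists, not_and] at h
    obtain ⟨z, hz, h0, hw⟩ := h
    exact ⟨n, z, hz, h0, hw⟩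

theorem bd_single (s : Finset α) (c : k) :
    bd k α (Finsupp.single s c) =
      ∑ a ∈ s, Finsupp.single (s.erase a) (c * (-1 : k) ^ below s a) := by
  simp [bd, Finset.smul_sum]

theorem single_mem_CC {U : Set α} {n : ℕ} {s : Finset α} (h : s ∈ chainSets U n) (c : k) :
    Finsupp.single s c ∈ CC k U n :=
  Finsupp.single_mem_supported k c h

theorem CC_induction {U : Set α} {n : ℕ} {P : (Finset α →₀ k) → Prop}
    {z : Finset α →₀ k} (hz : z ∈ CC k U n) (h0 : P 0) (hadd : ∀ x y, P x → P y → P (x + y))
    (h1 : ∀ s ∈ chainSets U n, ∀ c : k, P (Finsupp.single s c)) : P z := by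
  have e : z = ∑ s ∈ z.support, Finsupp.single s (z s) := (Finsupp.sum_single z).symm
  rw [e]
  refine Finset.sum_induction _ P hadd h0 (fun s hs => h1 s ?_ _)
  exact (Finsupp.mem_supported k z).1 hz hs

theorem CC_mono {U U' : Set α} (h : U ⊆ U') {n : ℕ} : CC k U n ≤ CC k U' n :=
  Finsupp.supported_mono fun _ hs => ⟨hs.1, hs.2.1.trans h, hs.2.2⟩

theorem erase_mem_chainSets {U : Set α} {n : ℕ} {s : Finset α} (h : s ∈ chainSets U (n + 1))
    {a : α} (ha : a ∈ s) : s.erase a ∈ chainSets U n := by
  refine ⟨h.1.mono (by intro x hx; exact (Finset.mem_erase.1 hx).2),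
    fun x hx => h.2.1 ((Finset.mem_erase.1 hx).2), ?_⟩
  rw [Finset.card_erase_of_mem ha, h.2.2]; omega

theorem bd_mem_CC {U : Set α} {n : ℕ} {z : Finset α →₀ k} (hz : z ∈ CC k U (n + 1)) :
    bd k α z ∈ CC k U n := by
  refine CC_induction (P := fun z => bd k α z ∈ CC k U n) hz (by simp)
    (fun x y hx hy => by rw [map_add]; exact add_mem hx hy) (fun s hs c => ?_)
  rw [bd_single]
  exact Submodule.sum_mem _ fun a ha => single_mem_CC (erase_mem_chainSets hs ha) _

theorem bd_CC_zero {U : Set α} {z : Finset α →₀ k} (hz : z ∈ CC k U 0) : bd k α z = 0 := by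
  refine CC_induction (P := fun z => bd k α z = 0) hz (by simp)
    (fun x y hx hy => by rw [map_add, hx, hy, add_zero]) (fun s hs c => ?_)
  obtain rfl : s = ∅ := Finset.card_eq_zero.1 hs.2.2
  simp [bd_single]

theorem below_erase {s : Finset α} {a b : α} (ha : a ∈ s) :
    below (s.erase a) b + (if a < b then 1 else 0) = below s b := by
  unfold below
  rw [Finset.filter_erase]
  split_ifs with h
  · rw [Finset.card_erase_add_one]
    simp [ha, h]
  · rw [Finset.erase_eq_of_notMem, add_zero]
    simp [h]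

theorem sign_pair {s : Finset α} (hs : IsChain (· ≤ ·) (s : Set α)) {a b : α}
    (ha : a ∈ s) (hb : b ∈ s) (hne : a ≠ b) :
    (-1 : k) ^ below s a * (-1 : k) ^ below (s.erase a) b +
      (-1 : k) ^ below s b * (-1 : k) ^ below (s.erase b) a = 0 := by
  rcases hs ha hb hne with h | h
  · have h' : a < b := lt_of_le_of_ne h hne
    have e1 := below_erase (b := b) ha
    have e2 := below_erase (b := a) hb
    simp only [h', if_true, not_lt_of_gt h', if_false, add_zero] at e1 e2
    rw [← e1, ← e2, pow_succ]; ring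
  · have h' : b < a := lt_of_le_of_ne h (Ne.symm hne)
    have e1 := below_erase (b := b) ha
    have e2 := below_erase (b := a) hb
    simp only [h', if_true, not_lt_of_gt h', if_false, add_zero] at e1 e2
    rw [← e1, ← e2, pow_succ]; ring

theorem bd_bd_single {s : Finset α} (hs : IsChain (· ≤ ·) (s : Set α)) (c : k) :
    bd k α (bd k α (Finsupp.single s c)) = 0 := by
  simp only [bd_single, map_sum]
  rw [Finset.sum_sigma']
  refine Finset.sum_involution (fun x _ => ⟨x.2, x.1⟩) ?_ ?_ ?_ ?_
  · rintro ⟨a, b⟩ hx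
    simp only [Finset.mem_sigma, Finset.mem_erase] at hx
    simp only []
    rw [Finset.erase_right_comm, ← Finsupp.single_add, mul_assoc, mul_assoc, ← mul_add,
      sign_pair hs hx.1 hx.2.2 (Ne.symm hx.2.1), mul_zero, Finsupp.single_zero]
  · rintro ⟨a, b⟩ hx _ h
    simp only [Finset.mem_sigma, Finset.mem_erase] at hx
    exact hx.2.1 (congrArg Sigma.fst h)
  · rintro ⟨a, b⟩ hx
    simp only [Finset.mem_sigma, Finset.mem_erase] at hx ⊢
    exact ⟨hx.2.2, Ne.symm hx.2.1, hx.1⟩
  · intro x _; rfl

theorem bd_bd {U : Set α} {n : ℕ} {z : Finset α →₀ k} (hz : z ∈ CC k U n) :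
    bd k α (bd k α z) = 0 :=
  CC_induction (P := fun z => bd k α (bd k α z) = 0) hz (by simp)
    (fun x y hx hy => by rw [map_add, map_add, hx, hy, add_zero])
    (fun s hs c => bd_bd_single hs.1 c)

theorem below_top {s : Finset α} {t : α} (ht : t ∈ s) (hle : ∀ a ∈ s, a ≤ t) :
    below s t + 1 = s.card := by
  unfold below
  have : s.filter (fun b => b < t) = s.erase t := by
    ext a
    simp only [Finset.mem_filter, Finset.mem_erase]
    exact ⟨fun h => ⟨h.2.ne, h.1⟩, fun h => ⟨h.2, lt_of_le_of_ne (hle a h.2) h.1⟩⟩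
  rw [this, Finset.card_erase_add_one ht]

/-- The cone operator with apex `t`. -/
def cone (k : Type*) [Field k] {α : Type*} [PartialOrder α] (t : α) :
    (Finset α →₀ k) →ₗ[k] (Finset α →₀ k) :=
  Finsupp.linearCombination k
    (fun s => if t ∈ s then 0 else Finsupp.single (insert t s) ((-1 : k) ^ s.card))

theorem cone_single (t : α) (s : Finset α) (c : k) :
    cone k t (Finsupp.single s c) =
      if t ∈ s then 0 else Finsupp.single (insert t s) (c * (-1 : k) ^ s.card) := by
  by_cases h : t ∈ s <;> simp [cone, h]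

theorem cone_homotopy_single {s : Finset α} {t : α} (hle : ∀ a ∈ s, a ≤ t) (c : k) :
    bd k α (cone k t (Finsupp.single s c)) + cone k t (bd k α (Finsupp.single s c))
      = Finsupp.single s c := by
  by_cases h : t ∈ s
  · rw [cone_single, if_pos h, map_zero, zero_add, bd_single, map_sum,
      Finset.sum_eq_single t]
    · rw [cone_single, if_neg (by simp), Finset.insert_erase h]
      have e := below_top h hle
      rw [Finset.card_erase_of_mem h, show s.card - 1 = below s t by omega, mul_assoc,
        ← pow_add, ← two_mul, pow_mul]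
      simp
    · intro a _ hat
      rw [cone_single, if_pos]
      simp [h, Ne.symm hat]
    · exact fun h' => absurd h h'
  · rw [cone_single, if_neg h, bd_single, Finset.sum_insert h]
    have hle' : ∀ a ∈ insert t s, a ≤ t := by
      intro a ha
      rcases Finset.mem_insert.1 ha with rfl | ha
      · exact le_rfl
      · exact hle a ha
    have e := below_top (Finset.mem_insert_self t s) hle'
    rw [Finset.card_insert_of_notMem h] at e
    rw [Finset.erase_insert h, show below (insert t s) t = s.card by omega, mul_assoc,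
      ← pow_add, ← two_mul, pow_mul]
    simp only [neg_one_sq, one_pow, mul_one]
    rw [bd_single, map_sum, add_assoc, ← Finset.sum_add_distrib, Finset.sum_eq_zero, add_zero]
    intro a ha
    have hne : t ≠ a := fun e => h (e ▸ ha)
    rw [cone_single, if_neg (by simp [h]), Finset.erase_insert_of_ne hne]
    have hbl : below (insert t s) a = below s a := by
      unfold below
      rw [Finset.filter_insert, if_neg]
      exact fun hlt => absurd (hle a ha) (not_le_of_gt hlt)
    have hc : (s.erase a).card + 1 = s.card := Finset.card_erase_add_one ha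
    rw [hbl, ← Finsupp.single_add, ← hc, pow_succ,
      show c * ((-1 : k) ^ (s.erase a).card * -1) * (-1) ^ below s a
        + c * (-1) ^ below s a * (-1) ^ (s.erase a).card = 0 by ring, Finsupp.single_zero]

theorem cone_homotopy {U : Set α} {n : ℕ} {z : Finset α →₀ k} (hz : z ∈ CC k U n) {t : α}
    (hle : ∀ a ∈ U, a ≤ t) : bd k α (cone k t z) + cone k t (bd k α z) = z :=
  CC_induction (P := fun z => bd k α (cone k t z) + cone k t (bd k α z) = z) hz (by simp)
    (fun x y hx hy => by
      rw [map_add, map_add, map_add, map_add]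
      calc _ = (bd k α (cone k t x) + cone k t (bd k α x))
            + (bd k α (cone k t y) + cone k t (bd k α y)) := by abel
        _ = x + y := by rw [hx, hy])
    (fun s hs c => cone_homotopy_single (fun a ha => hle a (hs.2.1 ha)) c)

theorem cone_mem_CC {U : Set α} {n : ℕ} {z : Finset α →₀ k} (hz : z ∈ CC k U n) {t : α}
    (ht : t ∈ U) (hle : ∀ a ∈ U, a ≤ t) : cone k t z ∈ CC k U (n + 1) := by
  refine CC_induction (P := fun z => cone k t z ∈ CC k U (n + 1)) hz (by simp)
    (fun x y hx hy => by rw [map_add]; exact add_mem hx hy) (fun s hs c => ?_)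
  rw [cone_single]
  split_ifs with h
  · exact zero_mem _
  · refine single_mem_CC ⟨?_, ?_, by rw [Finset.card_insert_of_notMem h, hs.2.2]⟩ _
    · rw [Finset.coe_insert]
      exact hs.1.insert fun b hb _ => Or.inr (hle b (hs.2.1 hb))
    · rw [Finset.coe_insert]; exact Set.insert_subset ht hs.2.1

/-- A set with a greatest element has vanishing reduced homology. -/
theorem van_of_top {U : Set α} {t : α} (ht : t ∈ U) (hle : ∀ a ∈ U, a ≤ t) (n : ℕ) :
    Van k U n := fun z hz h0 =>
  ⟨cone k t z, cone_mem_CC hz ht hle, by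
    simpa [h0] using cone_homotopy hz hle⟩

/-- Push a chain forward along a map. -/
def push (k : Type*) [Field k] {α β : Type*} (f : α → β) :
    (Finset α →₀ k) →ₗ[k] (Finset β →₀ k) :=
  Finsupp.lmapDomain k k (fun s => s.image f)

theorem push_single (f : α → β) (s : Finset α) (c : k) :
    push k f (Finsupp.single s c) = Finsupp.single (s.image f) c := by
  simp [push]

theorem injOn_of_strictMono {f : α → β} {s : Finset α} (hs : IsChain (· ≤ ·) (s : Set α))
    (hf : ∀ a ∈ s, ∀ b ∈ s, a < b → f a < f b) : Set.InjOn f (s : Set α) := by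
  intro a ha b hb e
  by_contra hne
  rcases hs ha hb hne with h | h
  · exact (hf a ha b hb (lt_of_le_of_ne h hne)).ne e
  · exact (hf b hb a ha (lt_of_le_of_ne h (Ne.symm hne))).ne e.symm

theorem isChain_image {f : α → β} {s : Finset α} (hs : IsChain (· ≤ ·) (s : Set α))
    (hf : ∀ a ∈ s, ∀ b ∈ s, a < b → f a < f b) :
    IsChain (· ≤ ·) ((s.image f : Finset β) : Set β) := by
  rw [Finset.coe_image]
  rintro x ⟨a, ha, rfl⟩ y ⟨b, hb, rfl⟩ hne
  have hab : a ≠ b := fun e => hne (by rw [e])
  rcases hs ha hb hab with h | h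
  · exact Or.inl (hf a ha b hb (lt_of_le_of_ne h hab)).le
  · exact Or.inr (hf b hb a ha (lt_of_le_of_ne h (Ne.symm hab))).le

theorem lt_iff_of_strictMono {f : α → β} {s : Finset α} (hs : IsChain (· ≤ ·) (s : Set α))
    (hf : ∀ a ∈ s, ∀ b ∈ s, a < b → f a < f b) {a b : α} (ha : a ∈ s) (hb : b ∈ s) :
    f a < f b ↔ a < b := by
  refine ⟨fun h => ?_, hf a ha b hb⟩
  by_cases hab : a = b
  · exact absurd (hab ▸ h) (lt_irrefl _)
  · rcases hs ha hb hab with h' | h'
    · exact lt_of_le_of_ne h' hab
    · exact absurd (hf b hb a ha (lt_of_le_of_ne h' (Ne.symm hab))) (not_lt_of_gt h)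

theorem below_image {f : α → β} {s : Finset α} (hs : IsChain (· ≤ ·) (s : Set α))
    (hf : ∀ a ∈ s, ∀ b ∈ s, a < b → f a < f b) {a : α} (ha : a ∈ s) :
    below (s.image f) (f a) = below s a := by
  unfold below
  rw [Finset.filter_image, Finset.card_image_of_injOn]
  · congr 1
    exact Finset.filter_congr fun b hb => lt_iff_of_strictMono hs hf hb ha
  · exact (injOn_of_strictMono hs hf).mono (by
      intro x hx; exact (Finset.mem_filter.1 hx).1)

theorem push_bd_single {f : α → β} {s : Finset α} (hs : IsChain (· ≤ ·) (s : Set α))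
    (hf : ∀ a ∈ s, ∀ b ∈ s, a < b → f a < f b) (c : k) :
    push k f (bd k α (Finsupp.single s c)) = bd k β (push k f (Finsupp.single s c)) := by
  rw [push_single, bd_single, bd_single, map_sum,
    Finset.sum_image (injOn_of_strictMono hs hf)]
  refine Finset.sum_congr rfl fun a ha => ?_
  rw [push_single, below_image hs hf ha]
  congr 1
  ext x
  simp only [Finset.mem_image, Finset.mem_erase]
  constructor
  · rintro ⟨b, ⟨hne, hb⟩, rfl⟩
    exact ⟨fun e => hne (injOn_of_strictMono hs hf hb ha e), b, hb, rfl⟩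
  · rintro ⟨hne, b, hb, rfl⟩
    exact ⟨b, ⟨fun e => hne (by rw [e]), hb⟩, rfl⟩

theorem push_bd {U : Set α} {f : α → β} (hf : ∀ a ∈ U, ∀ b ∈ U, a < b → f a < f b) {n : ℕ}
    {z : Finset α →₀ k} (hz : z ∈ CC k U n) :
    push k f (bd k α z) = bd k β (push k f z) :=
  CC_induction (P := fun z => push k f (bd k α z) = bd k β (push k f z)) hz (by simp)
    (fun x y hx hy => by rw [map_add, map_add, map_add, map_add, hx, hy])
    (fun s hs c => push_bd_single hs.1
      (fun a ha b hb => hf a (hs.2.1 ha) b (hs.2.1 hb)) c)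

theorem image_mem_chainSets {U : Set α} {U' : Set β} {f : α → β}
    (hf : ∀ a ∈ U, ∀ b ∈ U, a < b → f a < f b) (hU : Set.MapsTo f U U') {n : ℕ} {s : Finset α}
    (hs : s ∈ chainSets U n) : s.image f ∈ chainSets U' n := by
  have hf' : ∀ a ∈ s, ∀ b ∈ s, a < b → f a < f b :=
    fun a ha b hb => hf a (hs.2.1 ha) b (hs.2.1 hb)
  refine ⟨isChain_image hs.1 hf', ?_, ?_⟩
  · rw [Finset.coe_image]
    rintro _ ⟨a, ha, rfl⟩
    exact hU (hs.2.1 ha)
  · rw [Finset.card_image_of_injOn (injOn_of_strictMono hs.1 hf'), hs.2.2]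

theorem push_mem_CC {U : Set α} {U' : Set β} {f : α → β}
    (hf : ∀ a ∈ U, ∀ b ∈ U, a < b → f a < f b) (hU : Set.MapsTo f U U') {n : ℕ}
    {z : Finset α →₀ k} (hz : z ∈ CC k U n) : push k f z ∈ CC k U' n := by
  refine CC_induction (P := fun z => push k f z ∈ CC k U' n) hz (by simp)
    (fun x y hx hy => by rw [map_add]; exact add_mem hx hy) (fun s hs c => ?_)
  rw [push_single]
  exact single_mem_CC (image_mem_chainSets hf hU hs) _

/-- One Mayer-Vietoris step for two down-closed sets. -/
theorem van_union {X Y : Set α} (hX : ∀ a ∈ X, ∀ b ∈ Y, b ≤ a → b ∈ X)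
    (hY : ∀ a ∈ Y, ∀ b ∈ X, b ≤ a → b ∈ Y) {n : ℕ}
    (h1 : Van k X n) (h2 : Van k Y n)
    (h3 : ∀ m, n = m + 1 → Van k (X ∩ Y) m) : Van k (X ∪ Y) n := by
  intro z hz h0
  set z1 := z.filter (fun s : Finset α => (s : Set α) ⊆ X) with hz1
  set z2 := z.filter (fun s : Finset α => ¬ (s : Set α) ⊆ X) with hz2
  have hsum : z1 + z2 = z := Finsupp.filter_add_filter_not z _
  have m1 : z1 ∈ CC k X n := by
    rw [CC, Finsupp.mem_supported]
    intro s hs
    simp only [hz1, Finsupp.support_filter, Finset.coe_filter, Set.mem_ofPred_eq] at hs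
    have := (Finsupp.mem_supported k z).1 hz hs.1
    exact ⟨this.1, hs.2, this.2.2⟩
  have m2 : z2 ∈ CC k Y n := by
    rw [CC, Finsupp.mem_supported]
    intro s hs
    simp only [hz2, Finsupp.support_filter, Finset.coe_filter, Set.mem_ofPred_eq] at hs
    have hc := (Finsupp.mem_supported k z).1 hz hs.1
    refine ⟨hc.1, ?_, hc.2.2⟩
    obtain ⟨a, ha, hax⟩ := Set.not_subset.1 hs.2
    have haY : a ∈ Y := (hc.2.1 ha).resolve_left hax
    intro b hb
    rcases hc.2.1 hb with hbX | hbY
    · by_cases hab : b = a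
      · exact hab ▸ haY
      rcases hc.1 hb ha hab with h | h
      · exact hY a haY b hbX h
      · exact absurd (hX b hbX a haY h) hax
    · exact hbY
  have hb12 : bd k α z1 + bd k α z2 = 0 := by rw [← map_add, hsum, h0]
  obtain ⟨w, hwX, hwY, hw⟩ : ∃ w, w ∈ CC k X n ∧ w ∈ CC k Y n ∧ bd k α w = bd k α z1 := by
    rcases n with _ | m
    · exact ⟨0, zero_mem _, zero_mem _, by rw [map_zero, bd_CC_zero m1]⟩
    · have hm : bd k α z1 ∈ CC k (X ∩ Y) m := by
        rw [CC, Finsupp.mem_supported]
        intro s hs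
        have a1 := (Finsupp.mem_supported k _).1 (bd_mem_CC m1) hs
        have a2 := (Finsupp.mem_supported k _).1
          (show bd k α z1 ∈ CC k Y m by
            rw [eq_neg_of_add_eq_zero_left hb12]; exact neg_mem (bd_mem_CC m2)) hs
        exact ⟨a1.1, Set.subset_inter a1.2.1 a2.2.1, a1.2.2⟩
      obtain ⟨w, hw, e⟩ := h3 m rfl _ hm (bd_bd m1)
      exact ⟨w, CC_mono Set.inter_subset_left hw, CC_mono Set.inter_subset_right hw, e⟩
  obtain ⟨u1, hu1, e1⟩ := h1 (z1 - w) (sub_mem m1 hwX) (by rw [map_sub, hw, sub_self])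
  obtain ⟨u2, hu2, e2⟩ := h2 (z2 + w) (add_mem m2 hwY)
    (by rw [map_add, hw, add_comm, hb12])
  refine ⟨u1 + u2, add_mem (CC_mono Set.subset_union_left hu1)
    (CC_mono Set.subset_union_right hu2), ?_⟩
  rw [map_add, e1, e2, ← hsum]; abel

end Vale.Agent.P240
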