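import Vale.Agent.P240.Semisimple

/-!
# Choice of the subgroup `B` and of the switched factors
-/

set_option linter.unusedSectionVars false

open scoped Classical

noncomputable section

namespace Vale.Agent.P240

theorem IsElem.sup {X : Type*} [Group X] {p : ℕ} {E F : Subgroup X} (hE : IsElem p E)
    (hF : IsElem p F) (h : ∀ a ∈ E, ∀ b ∈ F, a * b = b * a) :
    IsElem p (E ⊔ F) ∧ ∀ y ∈ E ⊔ F, ∃ a ∈ E, ∃ b ∈ F, y = a * b := by
  let P : Subgroup X :=
    { carrier := {y | ∃ a ∈ E, ∃ b ∈ F, y = a * b}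
      one_mem' := ⟨1, E.one_mem, 1, F.one_mem, by simp⟩
      mul_mem' := by
        rintro _ _ ⟨a, ha, b, hb, rfl⟩ ⟨c, hc, d, hd, rfl⟩
        exact ⟨a * c, E.mul_mem ha hc, b * d, F.mul_mem hb hd, by
          rw [mul_assoc a, ← mul_assoc b, ← h c hc b hb]; group⟩
      inv_mem' := by
        rintro _ ⟨a, ha, b, hb, rfl⟩
        exact ⟨a⁻¹, E.inv_mem ha, b⁻¹, F.inv_mem hb, by
          rw [mul_inv_rev, h _ (E.inv_mem ha) _ (F.inv_mem hb)]⟩ }
  have hsub : E ⊔ F ≤ P := sup_le (fun a ha => ⟨a, ha, 1, F.one_mem, by simp⟩)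
    fun b hb => ⟨1, E.one_mem, b, hb, by simp⟩
  refine ⟨⟨?_, ?_⟩, fun y hy => hsub hy⟩
  · intro y hy z hz
    obtain ⟨a, ha, b, hb, rfl⟩ := hsub hy
    obtain ⟨c, hc, d, hd, rfl⟩ := hsub hz
    rw [mul_assoc a, ← mul_assoc b, ← h c hc b hb, mul_assoc c, hF.1 b hb d hd, ← mul_assoc a,
      hE.1 a ha c hc, mul_assoc c, ← mul_assoc a, h a ha d hd]
    group
  · intro y hy
    obtain ⟨a, ha, b, hb, rfl⟩ := hsub hy
    rw [(show Commute a b from h a ha b hb).mul_pow, hE.2 a ha, hF.2 b hb, one_mul]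

theorem isElem_zpowers {X : Type*} [Group X] {e : X} (h : e * e = 1) :
    IsElem 2 (Subgroup.zpowers e) := by
  refine ⟨fun a ha b hb => ?_, fun a ha => ?_⟩
  · obtain ⟨m, rfl⟩ := Subgroup.mem_zpowers_iff.1 ha
    obtain ⟨n, rfl⟩ := Subgroup.mem_zpowers_iff.1 hb
    exact ((Commute.refl e).zpow_zpow m n).eq
  · obtain ⟨m, rfl⟩ := Subgroup.mem_zpowers_iff.1 ha
    rw [pow_two, ← (Commute.refl e).mul_zpow, h, one_zpow]

namespace CompSys

variable {X : Type*} [Group X] [Finite X] {K : Subgroup X} {ι : Type*} [Fintype ι]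
  {A : ι → Type*} [∀ i, Group (A i)] [∀ i, Finite (A i)] (S : CompSys K A)
  (D : ∀ i, SepData (A i)) (xT : ∀ i, A i)

theorem outer_of_M0 {m : X} (hm : m ∈ S.M0 D xT) {i : ι} (h : ¬ S.Cen m i) :
    ∃ α : MulAut (A i), FixesData (D i).Q (D i).x α ∧ α ≠ 1 :=
  ⟨_, S.fixesData0 D xT hm.2.2 hm.2.1 i, fun e => h ((S.aut_eq_one_iff _).1 e)⟩

/-- The conditions on `B`. -/
structure GoodB (C : Subgroup X) (Z : Finset ι) : Prop where
  elem : IsElem 2 C
  cent : ∀ c ∈ C, S.CentH D xT ∅ c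
  trivK : C ⊓ K = ⊥
  cenZ : ∀ c ∈ C, ∀ i ∈ Z, S.Cen c i
  mem_Z : ∀ i, (D i).states.Nonempty → (∀ c ∈ C, S.Cen c i) → i ∈ Z
  states_Z : ∀ i ∈ Z, (D i).states.Nonempty
  spansZ : S.Spans D xT Z
  maximal : ∀ e, e * e = 1 → S.CentH D xT ∅ e → (∀ c ∈ C, e * c = c * e) →
    ∃ c ∈ C, ∃ m ∈ S.M0 D xT, e = c * m

theorem exists_goodB : ∃ (C : Subgroup X) (Z : Finset ι), S.GoodB D xT C Z := by
  set P : Set (Subgroup X) :=
    {E | IsElem 2 E ∧ S.M0 D xT ≤ E ∧ ∀ e ∈ E, S.CentH D xT ∅ e} with hP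
  obtain ⟨Es, hEs⟩ := (Set.toFinite P).exists_maximal
    ⟨_, S.M0_elem D xT, le_rfl, fun e he => he.2.2⟩
  obtain ⟨hEel, hME, hEc⟩ := hEs.1
  obtain ⟨J, hJ⟩ := (Set.toFinite {s : Finset ι | S.Spans D xT s}).exists_minimal
    ⟨_, S.spans_univ D xT⟩
  have hdual : ∀ i ∈ J, ∃ m ∈ S.M0 D xT, ¬ S.Cen m i ∧ ∀ l ∈ J, l ≠ i → S.Cen m l := by
    intro i hi
    have hns : ¬ S.Spans D xT (J.erase i) := fun h =>
      (Finset.notMem_erase i J) (hJ.2 h (Finset.erase_subset i J) hi)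
    simp only [Spans, not_forall] at hns
    obtain ⟨m, hm, hcen, hne⟩ := hns
    refine ⟨m, hm, fun hi' => hne (hJ.1 m hm fun l hl => ?_), fun l hl hne' =>
      hcen l (Finset.mem_erase.2 ⟨hne', hl⟩)⟩
    by_cases h : l = i
    · subst h; exact hi'
    · exact hcen l (Finset.mem_erase.2 ⟨h, hl⟩)
  set C : Subgroup X :=
    Es ⊓ Subgroup.centralizer {y | ∃ i ∈ J, y ∈ S.L i} with hC
  have hCcen : ∀ {e}, e ∈ C ↔ e ∈ Es ∧ ∀ i ∈ J, S.Cen e i := by
    intro e
    rw [hC, Subgroup.mem_inf, Subgroup.mem_centralizer_iff]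
    refine and_congr_right fun _ => ⟨fun h i hi a => (h _ ⟨i, hi, a, rfl⟩).symm, ?_⟩
    rintro h _ ⟨i, hi, a, rfl⟩
    exact (h i hi a).symm
  have hsq : ∀ e ∈ Es, e * e = 1 := fun e he => by
    have := hEel.2 e he; rwa [pow_two] at this
  have hdec : ∀ n, ∀ e ∈ Es, (J.filter (fun i => ¬ S.Cen e i)).card = n →
      ∃ m ∈ S.M0 D xT, e * m ∈ C := by
    intro n
    induction n with
    | zero =>
      intro e he h
      refine ⟨1, (S.M0 D xT).one_mem, ?_⟩
      rw [mul_one, hCcen]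
      refine ⟨he, fun i hi => ?_⟩
      by_contra hne
      exact (Finset.notMem_empty i) (Finset.card_eq_zero.1 h ▸ Finset.mem_filter.2 ⟨hi, hne⟩)
    | succ n ih =>
      intro e he h
      obtain ⟨i, hi⟩ := Finset.card_pos.1 (by omega : 0 < (J.filter (fun i => ¬ S.Cen e i)).card)
      obtain ⟨hiJ, hie⟩ := Finset.mem_filter.1 hi
      obtain ⟨m, hm, hmi, hml⟩ := hdual i hiJ
      have hiff := fun l => S.cen_mul_iff D xT (hEc e he) hm.2.2 (hsq e he) hm.2.1 l
      have hfil : J.filter (fun l => ¬ S.Cen (e * m) l) =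
          (J.filter (fun l => ¬ S.Cen e l)).erase i := by
        ext l
        simp only [Finset.mem_filter, Finset.mem_erase, hiff l]
        by_cases hl : l = i
        · subst hl; simp [hie, hmi]
        · constructor
          · rintro ⟨hlJ, h'⟩; exact ⟨hl, hlJ, fun h'' => h' (by simp [h'', hml l hlJ hl])⟩
          · rintro ⟨-, hlJ, h'⟩; exact ⟨hlJ, fun h'' => h' (h''.2 (hml l hlJ hl))⟩
      obtain ⟨m', hm', hmem⟩ := ih (e * m) (Es.mul_mem he (hME hm))
        (by rw [hfil, Finset.card_erase_of_mem hi, h]; rfl)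
      exact ⟨m * m', (S.M0 D xT).mul_mem hm hm', by rwa [← mul_assoc]⟩
  have hJZ : ∀ i ∈ J, (D i).states.Nonempty := by
    intro i hi
    obtain ⟨m, hm, hmi, -⟩ := hdual i hi
    obtain ⟨α, hα, hne⟩ := S.outer_of_M0 D xT hm hmi
    exact ((D i).outer_states α hα hne).1
  refine ⟨C, Finset.univ.filter (fun i => (D i).states.Nonempty ∧ ∀ c ∈ C, S.Cen c i),
    ⟨hEel.mono inf_le_left, fun c hc => hEc c (hCcen.1 hc).1, ?_, ?_, ?_, ?_, ?_, ?_⟩⟩
  · rw [Subgroup.eq_bot_iff_forall]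
    rintro c ⟨hc, hcK⟩
    obtain ⟨hcE, hcJ⟩ := hCcen.1 hc
    exact hJ.1 c ⟨hcK, hsq c hcE, hEc c hcE⟩ hcJ
  · intro c hc i hi
    exact (Finset.mem_filter.1 hi).2.2 c hc
  · intro i h1 h2
    exact Finset.mem_filter.2 ⟨Finset.mem_univ i, h1, h2⟩
  · intro i hi; exact (Finset.mem_filter.1 hi).2.1
  · intro m hm h
    refine hJ.1 m hm fun i hi => h i ?_
    exact Finset.mem_filter.2 ⟨Finset.mem_univ i, hJZ i hi, fun c hc => (hCcen.1 hc).2 i hi⟩
  · intro e he2 hec hcomm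
    have hcommE : ∀ y ∈ Es, y * e = e * y := by
      intro y hy
      obtain ⟨m, hm, hmem⟩ := hdec _ y hy rfl
      have h1 := hcomm _ hmem
      have h2 := S.comm0 D xT hm.1 hm.2.2 hec hm.2.1 he2
      have e' : y = y * m * m := by rw [mul_assoc, hm.2.1, mul_one]
      rw [e', mul_assoc (y * m) m e, h2, ← mul_assoc (y * m) e m, ← h1, mul_assoc]
    obtain ⟨hel, hform⟩ := hEel.sup (isElem_zpowers he2) (fun a ha b hb => by
      obtain ⟨k, rfl⟩ := Subgroup.mem_zpowers_iff.1 hb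
      exact ((show Commute a e from hcommE a ha).zpow_right k).eq)
    have hPmem : Es ⊔ Subgroup.zpowers e ∈ P := by
      refine ⟨hel, hME.trans le_sup_left, fun y hy => ?_⟩
      obtain ⟨a, ha, b, hb, rfl⟩ := hform y hy
      refine S.centH_mul D xT (hEc a ha) ?_
      obtain ⟨k, rfl⟩ := Subgroup.mem_zpowers_iff.1 hb
      exact ⟨fun h hh => ((show Commute e h from hec.1 h hh).zpow_left k).eq,
        ((show Commute e _ from hec.2).zpow_left k).eq⟩
    have heE : e ∈ Es := hEs.2 hPmem le_sup_left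
      (Subgroup.mem_sup_right (Subgroup.mem_zpowers e))
    obtain ⟨m, hm, hmem⟩ := hdec _ e heE rfl
    exact ⟨e * m, hmem, m, hm, by rw [mul_assoc, hm.2.1, mul_one]⟩

/-- The weighted count of spanning sets containing `T`. -/
def cnt (Z T : Finset ι) : ZMod 3 :=
  ((Z.powerset.filter (fun s => T ⊆ s ∧ S.Spans D xT s)).card : ZMod 3)

/-- The conditions on the switched factors. -/
structure GoodT (Z T : Finset ι) : Prop where
  sub : T ⊆ Z
  ne_zero : S.cnt D xT Z T ≠ 0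
  outer : ∀ i ∈ T, ∃ α : MulAut (A i), FixesData (D i).Q (D i).x α ∧ α ≠ 1
  separate : ∀ i ∈ T, ∀ l ∈ T, (∀ m ∈ S.M0 D xT, S.Cen m i ↔ S.Cen m l) → i = l
  spans : ∃ s ⊆ Z, Disjoint s T ∧ S.Spans D xT s

theorem cnt_self {Z : Finset ι} (hZ : S.Spans D xT Z) : S.cnt D xT Z Z = 1 := by
  rw [cnt, show Z.powerset.filter (fun s => Z ⊆ s ∧ S.Spans D xT s) = {Z} by
    ext s
    simp only [Finset.mem_filter, Finset.mem_powerset, Finset.mem_singleton]
    refine ⟨fun h => Finset.Subset.antisymm h.1 h.2.1, ?_⟩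
    rintro rfl
    exact ⟨subset_rfl, subset_rfl, hZ⟩]
  simp

theorem cnt_erase {Z T : Finset ι} {i : ι} (hi : i ∈ T) (hiZ : i ∈ Z)
    (h : ∀ s, T.erase i ⊆ s → (S.Spans D xT (insert i s) ↔ S.Spans D xT s)) :
    S.cnt D xT Z (T.erase i) = 2 * S.cnt D xT Z T := by
  set F := Z.powerset.filter (fun s => T.erase i ⊆ s ∧ S.Spans D xT s)
  have h1 : F.filter (fun s => i ∈ s) = Z.powerset.filter (fun s => T ⊆ s ∧ S.Spans D xT s) := by
    ext s
    simp only [F, Finset.mem_filter]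
    constructor
    · rintro ⟨⟨hs, hT, hsp⟩, his⟩
      exact ⟨hs, by rw [← Finset.insert_erase hi]; exact Finset.insert_subset his hT, hsp⟩
    · rintro ⟨hs, hT, hsp⟩
      exact ⟨⟨hs, (Finset.erase_subset i T).trans hT, hsp⟩, hT hi⟩
  have h2 : (F.filter (fun s => ¬ i ∈ s)).card = (F.filter (fun s => i ∈ s)).card := by
    refine Finset.card_nbij' (insert i) (fun s => s.erase i) ?_ ?_ ?_ ?_
    · intro s hs
      simp only [F, Finset.coe_filter, Set.mem_ofPred_eq, Finset.mem_filter,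
        Finset.mem_powerset] at hs ⊢
      exact ⟨⟨Finset.insert_subset hiZ hs.1.1, hs.1.2.1.trans (Finset.subset_insert i s),
        (h s hs.1.2.1).2 hs.1.2.2⟩, Finset.mem_insert_self i s⟩
    · intro s hs
      simp only [F, Finset.coe_filter, Set.mem_ofPred_eq, Finset.mem_filter,
        Finset.mem_powerset] at hs ⊢
      have hT' : T.erase i ⊆ s.erase i := by
        intro l hl
        exact Finset.mem_erase.2 ⟨Finset.ne_of_mem_erase hl, hs.1.2.1 hl⟩
      refine ⟨⟨(Finset.erase_subset i s).trans hs.1.1, hT', (h _ hT').1 ?_⟩,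
        Finset.notMem_erase i s⟩
      rw [Finset.insert_erase hs.2]; exact hs.1.2.2
    · intro s hs
      exact Finset.erase_insert (Finset.mem_filter.1 hs).2
    · intro s hs
      exact Finset.insert_erase (Finset.mem_filter.1 hs).2
  have h3 := Finset.card_filter_add_card_filter_not (s := F) (fun s => i ∈ s)
  rw [h2, h1] at h3
  rw [cnt, cnt]
  show (F.card : ZMod 3) = _
  rw [← h3]; push_cast; ring

theorem exists_goodT {Z : Finset ι} (hZ : S.Spans D xT Z) : ∃ T, S.GoodT D xT Z T := by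
  obtain ⟨T, hT⟩ := (Set.toFinite {t : Finset ι | t ⊆ Z ∧ S.cnt D xT Z t ≠ 0}).exists_minimal
    ⟨Z, subset_rfl, by rw [S.cnt_self D xT hZ]; exact one_ne_zero⟩
  obtain ⟨hTZ, hne⟩ := hT.1
  have hzero : ∀ t, t ⊆ T → t ≠ T → S.cnt D xT Z t = 0 := by
    intro t ht hne'
    by_contra h
    exact hne' (Finset.Subset.antisymm ht (hT.2 ⟨ht.trans hTZ, h⟩ ht))
  have two : (2 : ZMod 3) ≠ 0 := by decide
  have hkey : ∀ i ∈ T, ¬ ∀ s, T.erase i ⊆ s → (S.Spans D xT (insert i s) ↔ S.Spans D xT s) := by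
    intro i hi h
    have e := S.cnt_erase D xT hi (hTZ hi) h
    rw [hzero _ (Finset.erase_subset i T) (fun e' => Finset.notMem_erase i T (e'.symm ▸ hi))] at e
    exact mul_ne_zero two hne e.symm
  refine ⟨T, hTZ, hne, fun i hi => ?_, fun i hi l hl h => ?_, ?_⟩
  · by_contra hno
    refine hkey i hi fun s _ => ⟨fun hs m hm hc => hs m hm fun l hl => ?_,
      fun hs m hm hc => hs m hm fun l hl => hc l (Finset.mem_insert_of_mem hl)⟩
    rcases Finset.mem_insert.1 hl with rfl | hl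
    · by_contra hc'
      exact hno (S.outer_of_M0 D xT hm hc')
    · exact hc l hl
  · by_contra hne'
    refine hkey i hi fun s hs => ⟨fun hs' m hm hc => hs' m hm fun y hy => ?_,
      fun hs' m hm hc => hs' m hm fun y hy => hc y (Finset.mem_insert_of_mem hy)⟩
    rcases Finset.mem_insert.1 hy with rfl | hy
    · exact (h m hm).2 (hc l (hs (Finset.mem_erase.2 ⟨Ne.symm hne', hl⟩)))
    · exact hc y hy
  · by_contra h
    push Not at h
    set F := Z.powerset.filter (fun s => S.Spans D xT s) with hF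
    have e1 : ∀ t, S.cnt D xT Z t = ∑ s ∈ F, if t ⊆ s then (1 : ZMod 3) else 0 := by
      intro t
      rw [Finset.sum_boole, cnt, hF, Finset.filter_filter]
      congr 3
      funext s
      rw [and_comm]
    have e2 : ∑ t ∈ T.powerset, (-1 : ZMod 3) ^ t.card * S.cnt D xT Z t =
        (-1) ^ T.card * S.cnt D xT Z T := by
      refine Finset.sum_eq_single T (fun t ht hne' => ?_)
        (fun h' => absurd (Finset.mem_powerset.2 subset_rfl) h')
      rw [hzero t (Finset.mem_powerset.1 ht) hne', mul_zero]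
    have e3 : ∑ t ∈ T.powerset, (-1 : ZMod 3) ^ t.card * S.cnt D xT Z t = 0 := by
      simp only [e1, Finset.mul_sum]
      rw [Finset.sum_comm]
      refine Finset.sum_eq_zero fun s hs => ?_
      have hst : (T ∩ s).Nonempty := by
        rw [Finset.nonempty_iff_ne_empty]
        intro he
        obtain ⟨hs1, hs2⟩ := Finset.mem_filter.1 hs
        exact h s (Finset.mem_powerset.1 hs1)
          (by rw [Finset.disjoint_iff_inter_eq_empty, Finset.inter_comm]; exact he) hs2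
      simp only [mul_ite, mul_one, mul_zero]
      rw [← Finset.sum_filter]
      have : T.powerset.filter (fun t => t ⊆ s) = (T ∩ s).powerset := by
        ext t
        simp only [Finset.mem_filter, Finset.mem_powerset, Finset.subset_inter_iff]
      rw [this]
      have hz := Finset.sum_powerset_neg_one_pow_card_of_nonempty hst
      have := congrArg (fun z : ℤ => (z : ZMod 3)) hz
      simpa using this
    rw [e3] at e2
    exact mul_ne_zero (pow_ne_zero _ (by decide)) hne e2.symm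

end CompSys

end Vale.Agent.P240
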