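import Vale.Agent.P240.Sep

/-!
# Conjugation on the factors of a normal direct product
-/

set_option linter.unusedSectionVars false

open scoped Classical

noncomputable section

namespace Vale.Agent.P240

/-- A normal subgroup of `X` inside `K` that is a product of centre-free groups `A i`, with
trivial centraliser in `K`. -/
structure CompSys {X : Type*} [Group X] (K : Subgroup X) {ι : Type*} (A : ι → Type*)
    [∀ i, Group (A i)] where
  φ : (Π i, A i) →* X
  inj : Function.Injective φ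
  le : φ.range ≤ K
  norm : φ.range.Normal
  normK : K.Normal
  cent : ∀ k ∈ K, (∀ a, k * φ a = φ a * k) → k = 1
  center : ∀ i, ∀ a : A i, (∀ b, a * b = b * a) → a = 1
  simple : ∀ i, IsSimpleGroup (A i)

namespace CompSys

variable {X : Type*} [Group X] {K : Subgroup X} {ι : Type*} [Fintype ι] {A : ι → Type*}
  [∀ i, Group (A i)] (S : CompSys K A)

/-- Embedding of one factor. -/
def j (i : ι) : A i →* X := S.φ.comp (MonoidHom.mulSingle A i)

theorem j_apply (i : ι) (a : A i) : S.j i a = S.φ (Pi.mulSingle i a) := rfl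

theorem j_inj (i : ι) : Function.Injective (S.j i) :=
  S.inj.comp (Pi.mulSingle_injective i)

/-- The `i`-th factor inside `X`. -/
def L (i : ι) : Subgroup X := (S.j i).range

/-- The element `g` centralises the `i`-th factor. -/
def Cen (g : X) (i : ι) : Prop := ∀ a, g * S.j i a = S.j i a * g

theorem phi_induction {P : X → Prop} (h1 : P 1) (hmul : ∀ a b, P a → P b → P (a * b))
    (f : Π i, A i) (h : ∀ i, P (S.j i (f i))) : P (S.φ f) := by
  have : ∀ s : Finset ι, P (S.φ (fun i => if i ∈ s then f i else 1)) := by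
    intro s
    induction s using Finset.induction_on with
    | empty => simpa [show (fun i : ι => (1 : A i)) = 1 from rfl] using h1
    | insert a t hat ih =>
      have e : (fun i => if i ∈ insert a t then f i else 1) =
          Pi.mulSingle a (f a) * fun i => if i ∈ t then f i else 1 := by
        funext i
        by_cases hi : i = a
        · subst hi; simp [hat]
        · simp [hi]
      rw [e, map_mul]
      exact hmul _ _ (h a) ih
  simpa using this Finset.univ

theorem commute_phi {g : X} (f : Π i, A i) (h : ∀ i, g * S.j i (f i) = S.j i (f i) * g) :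
    g * S.φ f = S.φ f * g :=
  S.phi_induction (P := fun y => g * y = y * g) (by simp)
    (fun a b ha hb => by rw [← mul_assoc, ha, mul_assoc, hb, ← mul_assoc]) f h

theorem eq_one_of_cen {k : X} (hk : k ∈ K) (h : ∀ i, S.Cen k i) : k = 1 :=
  S.cent k hk fun f => S.commute_phi f fun i => h i _

theorem single_mem_of_coord {W : Subgroup X} (hW : ∀ f, cj (S.φ f) W = W) {f : Π i, A i}
    (hf : S.φ f ∈ W) {i : ι} (hi : f i ≠ 1) : ∃ a : A i, a ≠ 1 ∧ S.j i a ∈ W := by
  obtain ⟨b, hb⟩ : ∃ b, f i * b ≠ b * f i := by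
    by_contra h
    push Not at h
    exact hi (S.center i _ h)
  refine ⟨b * f i * b⁻¹ * (f i)⁻¹, fun h => hb ?_, ?_⟩
  · rw [mul_inv_eq_one, mul_inv_eq_iff_eq_mul] at h
    exact h.symm
  · have e : S.j i b * S.φ f * (S.j i b)⁻¹ * (S.φ f)⁻¹ = S.j i (b * f i * b⁻¹ * (f i)⁻¹) := by
      simp only [j_apply, ← map_inv, ← map_mul]
      congr 1
      funext l
      by_cases hl : l = i
      · subst hl; simp
      · simp [hl]
    rw [← e]
    refine W.mul_mem ?_ (W.inv_mem hf)
    have h2 : S.j i b * S.φ f * (S.j i b)⁻¹ ∈ cj (S.φ (Pi.mulSingle i b)) W := by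
      rw [mem_cj]; simpa [mul_assoc, j_apply] using hf
    rwa [hW] at h2

theorem cj_L_normal (g : X) (i : ι) (f : Π i, A i) :
    cj (S.φ f) (cj g (S.L i)) = cj g (S.L i) := by
  have hL : ∀ f, cj (S.φ f) (S.L i) = S.L i := by
    intro f
    have : ∀ f, cj (S.φ f) (S.L i) ≤ S.L i := by
      intro f x hx
      rw [mem_cj] at hx
      obtain ⟨a, ha⟩ := hx
      refine ⟨f i * a * (f i)⁻¹, ?_⟩
      have e : x = S.φ f * S.j i a * (S.φ f)⁻¹ := by rw [ha]; group
      rw [e, j_apply, j_apply, ← map_inv, ← map_mul, ← map_mul]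
      congr 1
      funext l
      by_cases hl : l = i
      · subst hl; simp
      · simp [hl]
    refine le_antisymm (this f) ?_
    have := (cj (S.φ f)).monotone (this f⁻¹)
    rwa [← cj_mul, ← map_mul, mul_inv_cancel, map_one, cj_one] at this
  obtain ⟨f', hf'⟩ : g⁻¹ * S.φ f * g ∈ S.φ.range := by
    have := S.norm.conj_mem _ ⟨f, rfl⟩ g⁻¹
    rwa [inv_inv] at this
  rw [← cj_mul, show S.φ f * g = g * (g⁻¹ * S.φ f * g) by group, ← hf', cj_mul, hL]

theorem exists_L_le {W : Subgroup X} (hW : ∀ f, cj (S.φ f) W = W) (hle : W ≤ S.φ.range)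
    {x : X} (hx : x ∈ W) (hx1 : x ≠ 1) : ∃ i, ∃ a : A i, a ≠ 1 ∧ S.j i a ∈ W := by
  obtain ⟨f, rfl⟩ := hle hx
  have hex : ∃ i, f i ≠ 1 := by
    by_contra h
    push Not at h
    exact hx1 (by rw [show f = 1 from funext h, map_one])
  obtain ⟨i, hi⟩ := hex
  exact ⟨i, S.single_mem_of_coord hW hx hi⟩

theorem cj_L_le_range (g : X) (i : ι) : cj g (S.L i) ≤ S.φ.range := by
  intro x hx
  rw [mem_cj] at hx
  obtain ⟨a, ha⟩ := hx
  have e : x = g * S.j i a * g⁻¹ := by rw [ha]; group
  rw [e]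
  exact S.norm.conj_mem _ ⟨_, rfl⟩ g

theorem L_disjoint {i l : ι} {a : A i} (ha : a ≠ 1) (h : S.j i a ∈ S.L l) : i = l := by
  obtain ⟨b, hb⟩ := h
  by_contra hne
  have := congrFun (S.inj hb) i
  simp [hne] at this
  exact ha this.symm

include S in
theorem exists_ne_one (i : ι) : ∃ a : A i, a ≠ 1 := by
  have := S.simple i
  exact exists_ne 1

theorem L_le_of_mem {W : Subgroup X} (hW : ∀ f, cj (S.φ f) W = W) {i : ι} {a : A i} (ha : a ≠ 1)
    (h : S.j i a ∈ W) : S.L i ≤ W := by
  have := S.simple i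
  have hN : (W.comap (S.j i)).Normal := ⟨fun x hx b => by
    have hmem : S.j i b * S.j i x * (S.j i b)⁻¹ ∈ cj (S.φ (Pi.mulSingle i b)) W := by
      rw [mem_cj]; simpa [mul_assoc, j_apply] using hx
    rw [hW] at hmem
    simpa [Subgroup.mem_comap] using hmem⟩
  rcases hN.eq_bot_or_eq_top with e | e
  · exact absurd ((Subgroup.eq_bot_iff_forall _).1 e a h) ha
  · rintro _ ⟨b, rfl⟩
    have hb : b ∈ W.comap (S.j i) := e ▸ Subgroup.mem_top b
    exact hb

theorem L_ne_bot (i : ι) : ∃ x ∈ S.L i, x ≠ 1 := by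
  obtain ⟨a, ha⟩ := S.exists_ne_one i
  exact ⟨S.j i a, ⟨a, rfl⟩, fun h => ha (S.j_inj i (by rw [h, map_one]))⟩

/-- Conjugation permutes the factors. -/
theorem exists_perm (g : X) (i : ι) : ∃ l, cj g (S.L i) = S.L l := by
  have hne : ∀ (h : X) (m : ι), ∃ l, S.L l ≤ cj h (S.L m) := by
    intro h m
    obtain ⟨x, hx, hx1⟩ := S.L_ne_bot m
    obtain ⟨l, b, hb, hbW⟩ := S.exists_L_le (S.cj_L_normal h m) (S.cj_L_le_range h m)
      (x := h * x * h⁻¹) (by rw [mem_cj]; simpa [mul_assoc] using hx)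
      (fun e => hx1 (by simpa [mul_inv_eq_one] using e))
    exact ⟨l, S.L_le_of_mem (S.cj_L_normal h m) hb hbW⟩
  obtain ⟨l, hl⟩ := hne g i
  have h2 : cj g⁻¹ (S.L l) ≤ S.L i := by
    have := (cj g⁻¹).monotone hl
    rwa [← cj_mul, inv_mul_cancel, cj_one] at this
  obtain ⟨m, hm⟩ := hne g⁻¹ l
  obtain ⟨x, hx, hx1⟩ := S.L_ne_bot m
  obtain ⟨a, rfl⟩ := hx
  have hmi : m = i := S.L_disjoint (fun e => hx1 (by rw [e, map_one])) (h2 (hm ⟨a, rfl⟩))
  refine ⟨l, le_antisymm ?_ hl⟩
  subst hmi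
  have := (cj g).monotone hm
  rwa [← cj_mul, mul_inv_cancel, cj_one] at this

/-- `g` maps the `i`-th factor onto itself. -/
def Fix (g : X) (i : ι) : Prop := cj g (S.L i) = S.L i

theorem fix_mul {g h : X} {i : ι} (hg : S.Fix g i) (hh : S.Fix h i) : S.Fix (g * h) i := by
  rw [Fix, cj_mul, hh, hg]

theorem fix_inv {g : X} {i : ι} (hg : S.Fix g i) : S.Fix g⁻¹ i := by
  have := congrArg (cj g⁻¹) hg
  rw [← cj_mul, inv_mul_cancel, cj_one] at this
  exact this.symm

theorem fix_of_cen {g : X} {i : ι} (h : S.Cen g i) : S.Fix g i :=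
  cj_of_centralizes fun x hx => by obtain ⟨a, rfl⟩ := hx; exact h a

theorem fix_phi (f : Π i, A i) (i : ι) : S.Fix (S.φ f) i := by
  have := S.cj_L_normal 1 i f
  rwa [cj_one] at this

theorem exists_aut {g : X} {i : ι} (hg : S.Fix g i) :
    ∃ α : MulAut (A i), ∀ a, g * S.j i a * g⁻¹ = S.j i (α a) := by
  have hex : ∀ a : A i, ∃ b : A i, g * S.j i a * g⁻¹ = S.j i b := by
    intro a
    have h : g * S.j i a * g⁻¹ ∈ cj g (S.L i) := by
      rw [mem_cj]; exact ⟨a, by group⟩
    rw [hg] at h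
    obtain ⟨b, hb⟩ := h
    exact ⟨b, hb.symm⟩
  choose F hF using hex
  let F' : A i →* A i :=
    { toFun := F
      map_one' := S.j_inj i (by rw [← hF]; simp)
      map_mul' := fun a b => S.j_inj i (by
        rw [map_mul, ← hF, ← hF, ← hF, map_mul]; group) }
  refine ⟨MulEquiv.ofBijective F' ⟨?_, ?_⟩, hF⟩
  · intro a b h
    have e : g * S.j i a * g⁻¹ = g * S.j i b * g⁻¹ := by
      rw [hF, hF]; exact congrArg _ h
    exact S.j_inj i (mul_left_cancel (mul_right_cancel e))
  · intro b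
    obtain ⟨a, ha⟩ := mem_cj.1 (show S.j i b ∈ cj g (S.L i) by rw [hg]; exact ⟨b, rfl⟩)
    exact ⟨a, S.j_inj i (by
      show S.j i (F a) = _
      rw [← hF, ha]; group)⟩

/-- The automorphism induced on a fixed factor. -/
def aut {g : X} {i : ι} (hg : S.Fix g i) : MulAut (A i) := (S.exists_aut hg).choose

theorem aut_spec {g : X} {i : ι} (hg : S.Fix g i) (a : A i) :
    g * S.j i a * g⁻¹ = S.j i (S.aut hg a) := (S.exists_aut hg).choose_spec a

theorem aut_unique {g : X} {i : ι} (hg : S.Fix g i) {α : MulAut (A i)}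
    (h : ∀ a, g * S.j i a * g⁻¹ = S.j i (α a)) : S.aut hg = α :=
  MulEquiv.ext fun a => S.j_inj i (by rw [← S.aut_spec hg, h])

theorem aut_mul {g h : X} {i : ι} (hg : S.Fix g i) (hh : S.Fix h i) :
    S.aut (S.fix_mul hg hh) = S.aut hg * S.aut hh :=
  S.aut_unique _ fun a => by
    rw [MulAut.mul_apply, ← S.aut_spec hg, ← S.aut_spec hh]; group

theorem aut_eq_one_iff {g : X} {i : ι} (hg : S.Fix g i) : S.aut hg = 1 ↔ S.Cen g i := by
  constructor
  · intro h a
    have := S.aut_spec hg a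
    rw [h, MulAut.one_apply, mul_inv_eq_iff_eq_mul] at this
    exact this
  · intro h
    exact S.aut_unique hg fun a => by rw [MulAut.one_apply, h a, mul_assoc, mul_inv_cancel, mul_one]

theorem aut_phi (f : Π i, A i) (i : ι) : S.aut (S.fix_phi f i) = MulAut.conj (f i) :=
  S.aut_unique _ fun a => by
    rw [MulAut.conj_apply, j_apply, j_apply, ← map_inv, ← map_mul, ← map_mul]
    congr 1
    funext l
    by_cases hl : l = i
    · subst hl; simp
    · simp [hl]

theorem aut_congr {g h : X} {i : ι} (e : g = h) (hg : S.Fix g i) (hh : S.Fix h i) :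
    S.aut hg = S.aut hh := by subst e; rfl

/-- Coordinates move with conjugation. -/
theorem coord_of_fix {g : X} {i : ι} (hg : S.Fix g i) {f f' : Π i, A i}
    (h : g * S.φ f * g⁻¹ = S.φ f') : S.aut hg (f i) = f' i := by
  set F : Π i, A i := Function.update f i 1 with hF
  have hdec : f = Pi.mulSingle i (f i) * F := by
    funext l
    by_cases hl : l = i
    · subst hl; simp [hF]
    · simp [hF, hl]
  have hcomm : ∀ a : A i, g * S.φ F * g⁻¹ * S.j i a = S.j i a * (g * S.φ F * g⁻¹) := by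
    intro a
    obtain ⟨b, hb⟩ := mem_cj.1 (show S.j i a ∈ cj g (S.L i) by rw [hg]; exact ⟨a, rfl⟩)
    have hc : S.φ F * S.j i b = S.j i b * S.φ F := by
      rw [j_apply, ← map_mul, ← map_mul]
      congr 1
      funext l
      by_cases hl : l = i
      · subst hl; simp [hF]
      · simp [hl]
    rw [show S.j i a = g * S.j i b * g⁻¹ by rw [hb]; group]
    calc g * S.φ F * g⁻¹ * (g * S.j i b * g⁻¹)
        = g * (S.φ F * S.j i b) * g⁻¹ := by group
      _ = g * (S.j i b * S.φ F) * g⁻¹ := by rw [hc]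
      _ = g * S.j i b * g⁻¹ * (g * S.φ F * g⁻¹) := by group
  obtain ⟨F', hF'⟩ := S.norm.conj_mem (S.φ F) ⟨F, rfl⟩ g
  have hzero : F' i = 1 := S.center i _ fun b => by
    have := hcomm b
    rw [← hF', j_apply, ← map_mul, ← map_mul] at this
    simpa using congrFun (S.inj this) i
  have e : S.φ f' = S.j i (S.aut hg (f i)) * S.φ F' := by
    rw [← h, ← S.aut_spec hg, hF', j_apply]
    conv_lhs => rw [hdec, map_mul]
    group
  rw [j_apply, ← map_mul] at e
  have := congrFun (S.inj e) i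
  simp [hzero] at this
  exact this.symm

end CompSys

end Vale.Agent.P240
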