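import Vale.Agent.P240.Basic

/-!
# From complex to rational coefficients
-/

set_option linter.unusedSectionVars false

open scoped Classical

noncomputable section

namespace Vale.Agent.P240

variable {k k' : Type*} [Field k] [Field k'] {α : Type*} [PartialOrder α]

/-- Applying an additive map to all coefficients. -/
def coef (f : k →+ k') : (Finset α →₀ k) →+ (Finset α →₀ k') :=
  Finsupp.mapRange.addMonoidHom f

theorem coef_apply (f : k →+ k') (z : Finset α →₀ k) (s : Finset α) :
    coef f z s = f (z s) := rfl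

theorem coef_single (f : k →+ k') (s : Finset α) (c : k) :
    coef f (Finsupp.single s c) = Finsupp.single s (f c) := by
  simp [coef]

theorem coef_sign (f : k →+ k') (c : k) (n : ℕ) : f (c * (-1) ^ n) = f c * (-1) ^ n := by
  rcases Nat.even_or_odd n with h | h
  · simp [h.neg_one_pow]
  · simp [h.neg_one_pow]

theorem bd_coef (f : k →+ k') {U : Set α} {n : ℕ} {z : Finset α →₀ k} (hz : z ∈ CC k U n) :
    bd k' α (coef f z) = coef f (bd k α z) := by
  refine CC_induction (P := fun z => bd k' α (coef f z) = coef f (bd k α z)) hz (by simp)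
    (fun x y hx hy => by simp only [map_add, hx, hy]) (fun s _ c => ?_)
  rw [coef_single, bd_single, bd_single, map_sum]
  simp only [coef_single, coef_sign]

theorem coef_mem (f : k →+ k') {U : Set α} {n : ℕ} {z : Finset α →₀ k} (hz : z ∈ CC k U n) :
    coef f z ∈ CC k' U n := by
  refine CC_induction (P := fun z => coef f z ∈ CC k' U n) hz (by simp)
    (fun x y hx hy => by rw [map_add]; exact add_mem hx hy) (fun s hs c => ?_)
  rw [coef_single]
  exact single_mem_CC hs _

/-- Nonzero homology over `ℂ` gives nonzero homology over `ℚ`. -/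
theorem hasReducedHomology_rat {U : Set α} (h : HasReducedHomology ℂ U) :
    HasReducedHomology ℚ U := by
  by_contra hno
  rw [hasReducedHomology_iff] at hno h
  push Not at hno
  obtain ⟨n, hn⟩ := h
  apply hn
  intro z hz hz0
  let b := Module.Basis.ofVectorSpace ℚ ℂ
  let I := z.support.biUnion fun s => (b.repr (z s)).support
  let f : _ → (ℂ →+ ℚ) := fun i => ((Finsupp.lapply i).comp b.repr.toLinearMap).toAddMonoidHom
  let g : _ → (ℚ →+ ℂ) := fun i => (LinearMap.toSpanSingleton ℚ ℂ (b i)).toAddMonoidHom
  have hw : ∀ i, ∃ w ∈ CC ℚ U (n + 1), bd ℚ α w = coef (f i) z := fun i =>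
    hno n _ (coef_mem _ hz) (by rw [bd_coef _ hz, hz0, map_zero])
  choose w hw1 hw2 using hw
  refine ⟨∑ i ∈ I, coef (g i) (w i), Submodule.sum_mem _ fun i _ => coef_mem _ (hw1 i), ?_⟩
  rw [map_sum, Finset.sum_congr rfl fun i _ => by rw [bd_coef (g i) (hw1 i), hw2 i]]
  ext s
  rw [Finsupp.finsetSum_apply]
  simp only [coef_apply]
  show ∑ i ∈ I, (b.repr (z s) i) • b i = z s
  by_cases hs : z s = 0
  · simp [hs]
  · conv_rhs => rw [← b.linearCombination_repr (z s), Finsupp.linearCombination_apply]
    rw [Finsupp.sum]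
    refine (Finset.sum_subset (fun i hi => Finset.mem_biUnion.2
      ⟨s, Finsupp.mem_support_iff.2 hs, hi⟩) fun i _ hi => ?_).symm
    rw [Finsupp.notMem_support_iff.1 hi, zero_smul]

end Vale.Agent.P240
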