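import Vale.Agent.P240.Lefschetz

/-!
# Elementary abelian subgroups, conjugation and coprime lifts
-/

set_option linter.unusedSectionVars false

open scoped Classical

noncomputable section

namespace Vale.Agent.P240

variable {p : ℕ} {G H : Type*} [Group G] [Group H]

/-- Elementary abelian `p`-subgroup, possibly trivial. -/
def IsElem (p : ℕ) {G : Type*} [Group G] (E : Subgroup G) : Prop :=
  (∀ a ∈ E, ∀ b ∈ E, a * b = b * a) ∧ ∀ a ∈ E, a ^ p = 1

/-- The poset `A_p(G)` of nonidentity elementary abelian `p`-subgroups. -/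
def elemAbelianSubgroups (p : ℕ) (G : Type*) [Group G] : Set (Subgroup G) :=
  {E | E ≠ ⊥ ∧ IsElem p E}

theorem IsElem.mono {E F : Subgroup G} (hE : IsElem p E) (h : F ≤ E) : IsElem p F :=
  ⟨fun a ha b hb => hE.1 a (h ha) b (h hb), fun a ha => hE.2 a (h ha)⟩

theorem isElem_bot : IsElem p (⊥ : Subgroup G) :=
  ⟨fun a ha b hb => by rw [Subgroup.mem_bot.1 ha, Subgroup.mem_bot.1 hb],
    fun a ha => by rw [Subgroup.mem_bot.1 ha, one_pow]⟩

theorem IsElem.isPGroup {E : Subgroup G} (hE : IsElem p E) : IsPGroup p E := fun x =>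
  ⟨1, by rw [pow_one]; exact Subtype.ext (by simpa using hE.2 x.1 x.2)⟩

theorem IsElem.map {E : Subgroup G} (hE : IsElem p E) (f : G →* H) : IsElem p (E.map f) := by
  refine ⟨?_, ?_⟩
  · rintro _ ⟨a, ha, rfl⟩ _ ⟨b, hb, rfl⟩
    rw [← map_mul, ← map_mul, hE.1 a ha b hb]
  · rintro _ ⟨a, ha, rfl⟩
    rw [← map_pow, hE.2 a ha, map_one]

/-- Conjugation of subgroups by `g`. -/
def cj (g : G) : Subgroup G ≃o Subgroup G := (MulAut.conj g).mapSubgroup

theorem cj_eq_map (g : G) (E : Subgroup G) : cj g E = E.map (MulAut.conj g).toMonoidHom := rfl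

theorem mem_cj {g x : G} {E : Subgroup G} : x ∈ cj g E ↔ g⁻¹ * x * g ∈ E := by
  rw [cj_eq_map, Subgroup.mem_map]
  constructor
  · rintro ⟨y, hy, rfl⟩
    simpa [mul_assoc] using hy
  · intro h
    exact ⟨_, h, by simp [mul_assoc]⟩

theorem cj_mul (g h : G) (E : Subgroup G) : cj (g * h) E = cj g (cj h E) := by
  ext x; simp [mem_cj, mul_assoc]

theorem cj_one (E : Subgroup G) : cj (1 : G) E = E := by ext x; simp [mem_cj]

theorem cj_of_centralizes {g : G} {E : Subgroup G} (h : ∀ x ∈ E, g * x = x * g) :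
    cj g E = E := by
  ext x
  rw [mem_cj]
  constructor
  · intro hx
    have := h _ hx
    rw [← mul_assoc, ← mul_assoc, mul_inv_cancel, one_mul] at this
    have e : x * g = g⁻¹ * x * g * g := this
    rwa [mul_right_cancel e]
  · intro hx
    rwa [mul_assoc, ← h x hx, ← mul_assoc, inv_mul_cancel, one_mul]

theorem cj_of_mem {g : G} {E : Subgroup G} (h : g ∈ E) : cj g E = E := by
  ext x
  rw [mem_cj]
  exact ⟨fun hx => by simpa [mul_assoc] using E.mul_mem (E.mul_mem h hx) (E.inv_mem h),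
    fun hx => E.mul_mem (E.mul_mem (E.inv_mem h) hx) h⟩

theorem map_cj (f : G →* H) (g : G) (E : Subgroup G) :
    (cj g E).map f = cj (f g) (E.map f) := by
  ext x
  simp only [cj_eq_map, Subgroup.map_map, Subgroup.mem_map]
  constructor
  · rintro ⟨y, hy, rfl⟩; exact ⟨y, hy, by simp⟩
  · rintro ⟨y, hy, rfl⟩; exact ⟨y, hy, by simp⟩

theorem IsElem.cj {E : Subgroup G} (hE : IsElem p E) (g : G) : IsElem p (cj g E) := by
  rw [cj_eq_map]; exact hE.map _

theorem cj_eq_bot {g : G} {E : Subgroup G} : cj g E = ⊥ ↔ E = ⊥ := by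
  conv_lhs => rw [← (cj g).map_bot]
  exact (cj g).injective.eq_iff

theorem cj_mem_elem {E : Subgroup G} (g : G) (hE : E ∈ elemAbelianSubgroups p G) :
    cj g E ∈ elemAbelianSubgroups p G :=
  ⟨fun h => hE.1 (cj_eq_bot.1 h), hE.2.cj g⟩

section Coprime

variable [Finite G] [hp : Fact p.Prime] {N : Subgroup G}

theorem inf_eq_bot_of_coprime (hN : (Nat.card N).Coprime p) {E : Subgroup G}
    (hE : IsPGroup p E) : E ⊓ N = ⊥ := by
  obtain ⟨n, hn⟩ := IsPGroup.iff_card.1 hE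
  refine Subgroup.eq_bot_of_card_eq _ ?_
  have h1 : Nat.card ↥(E ⊓ N) ∣ p ^ n := hn ▸ Subgroup.card_dvd_of_le inf_le_left
  have h2 : Nat.card ↥(E ⊓ N) ∣ Nat.card N := Subgroup.card_dvd_of_le inf_le_right
  have hco : Nat.Coprime (Nat.card N) (p ^ n) := hN.pow_right n
  exact Nat.eq_one_of_dvd_coprimes hco h2 h1

variable [N.Normal]

theorem mk_injOn (hN : (Nat.card N).Coprime p) {E : Subgroup G} (hE : IsPGroup p E) :
    Set.InjOn (QuotientGroup.mk' N) (E : Set G) := by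
  intro a ha b hb h
  have h1 : a⁻¹ * b ∈ E ⊓ N :=
    ⟨E.mul_mem (E.inv_mem ha) hb, QuotientGroup.eq.1 (by simpa using h)⟩
  rw [inf_eq_bot_of_coprime hN hE, Subgroup.mem_bot, inv_mul_eq_one] at h1
  exact h1

theorem card_map_mk (hN : (Nat.card N).Coprime p) {E : Subgroup G} (hE : IsPGroup p E) :
    Nat.card (E.map (QuotientGroup.mk' N)) = Nat.card E := by
  refine (Nat.card_congr (Equiv.ofBijective
    (fun x : E => (⟨QuotientGroup.mk' N x.1, ⟨x.1, x.2, rfl⟩⟩ :
      E.map (QuotientGroup.mk' N))) ⟨?_, ?_⟩)).symm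
  · intro a b h
    exact Subtype.ext (mk_injOn hN hE a.2 b.2 (congrArg Subtype.val h))
  · rintro ⟨_, x, hx, rfl⟩
    exact ⟨⟨x, hx⟩, rfl⟩

theorem map_lt_map_mk (hN : (Nat.card N).Coprime p) {E F : Subgroup G} (hE : IsPGroup p E)
    (h : F < E) : F.map (QuotientGroup.mk' N) < E.map (QuotientGroup.mk' N) := by
  refine lt_of_le_of_ne (Subgroup.map_mono h.le) fun e => h.not_ge ?_
  intro x hx
  have : QuotientGroup.mk' N x ∈ F.map (QuotientGroup.mk' N) := e ▸ ⟨x, hx, rfl⟩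
  obtain ⟨y, hy, hyx⟩ := this
  exact mk_injOn hN hE (h.le hy) hx hyx ▸ hy

theorem le_of_map_le_mk (hN : (Nat.card N).Coprime p) {E F F' : Subgroup G} (hE : IsPGroup p E)
    (hF : F ≤ E) (hF' : F' ≤ E)
    (h : F.map (QuotientGroup.mk' N) ≤ F'.map (QuotientGroup.mk' N)) : F ≤ F' := by
  intro x hx
  obtain ⟨y, hy, hyx⟩ := h ⟨x, hx, rfl⟩
  exact mk_injOn hN hE (hF' hy) (hF hx) hyx ▸ hy

theorem map_mem_elem (hN : (Nat.card N).Coprime p) {E : Subgroup G}
    (hE : E ∈ elemAbelianSubgroups p G) :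
    E.map (QuotientGroup.mk' N) ∈ elemAbelianSubgroups p (G ⧸ N) := by
  refine ⟨fun h => hE.1 ?_, hE.2.map _⟩
  refine le_bot_iff.1 (le_of_map_le_mk (F := E) (F' := ⊥) hN hE.2.isPGroup le_rfl bot_le ?_)
  rw [h, Subgroup.map_bot]

theorem exists_lift (hN : (Nat.card N).Coprime p) {Ebar : Subgroup (G ⧸ N)}
    (hEb : IsElem p Ebar) {P0 : Subgroup G} (hP0 : IsPGroup p P0)
    (hle : P0.map (QuotientGroup.mk' N) ≤ Ebar) :
    ∃ E : Subgroup G, IsElem p E ∧ P0 ≤ E ∧ E.map (QuotientGroup.mk' N) = Ebar := by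
  set f := QuotientGroup.mk' N
  set C := Ebar.comap f with hC
  have hP0C : P0 ≤ C := Subgroup.map_le_iff_le_comap.1 hle
  have hP0' : IsPGroup p (P0.subgroupOf C) :=
    hP0.of_equiv (Subgroup.subgroupOfEquivOfLe hP0C).symm
  obtain ⟨S, hS⟩ := hP0'.exists_le_sylow
  set E := (S : Subgroup C).map C.subtype with hE
  have hEp : IsPGroup p E := S.isPGroup'.map _
  have hEC : E ≤ C := Subgroup.map_subtype_le _
  have hmap : E.map f ≤ Ebar := Subgroup.map_le_iff_le_comap.2 hEC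
  have heq : E.map f = Ebar := by
    obtain ⟨n, hn⟩ := IsPGroup.iff_card.1 hEb.isPGroup
    have hcardC : Nat.card C = Nat.card N * p ^ n := by
      have h1 := C.card_mul_index
      have h2 := Ebar.card_mul_index
      have h3 := Subgroup.card_eq_card_quotient_mul_card_subgroup N
      rw [hC, Subgroup.index_comap_of_surjective _ (QuotientGroup.mk'_surjective N), ← hC,
        h3, ← h2] at h1
      rw [← hn]
      refine Nat.eq_of_mul_eq_mul_right (Nat.pos_of_ne_zero Ebar.index_ne_zero_of_finite) ?_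
      rw [h1]; ring
    have hSc : Nat.card E = p ^ n := by
      rw [hE, Nat.card_congr ((S : Subgroup C).equivMapOfInjective _
        C.subtype_injective).symm.toEquiv, S.card_eq_multiplicity, hcardC,
        Nat.factorization_mul_apply_of_coprime (hN.pow_right n)]
      have h0 : (Nat.card N).factorization p = 0 :=
        Nat.factorization_eq_zero_of_not_dvd fun h =>
          hp.out.not_dvd_one (hN.gcd_eq_one ▸ Nat.dvd_gcd h dvd_rfl)
      rw [h0, Nat.Prime.factorization_pow hp.out, Finsupp.single_eq_same, zero_add]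
    refine Subgroup.eq_of_le_of_card_ge hmap ?_
    rw [hn, card_map_mk hN hEp, hSc]
  refine ⟨E, ⟨?_, ?_⟩, ?_, heq⟩
  · intro a ha b hb
    refine mk_injOn hN hEp (E.mul_mem ha hb) (E.mul_mem hb ha) ?_
    rw [map_mul, map_mul]
    exact hEb.1 _ (hmap ⟨a, ha, rfl⟩) _ (hmap ⟨b, hb, rfl⟩)
  · intro a ha
    refine mk_injOn hN hEp (E.pow_mem ha p) E.one_mem ?_
    rw [map_pow, map_one]
    exact hEb.2 _ (hmap ⟨a, ha, rfl⟩)
  · intro x hx
    exact ⟨⟨x, hP0C hx⟩, hS hx, rfl⟩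

theorem lift_conj (hN : (Nat.card N).Coprime p) {P0 E E' : Subgroup G} (hE : IsElem p E)
    (hE' : IsElem p E') (h0 : P0 ≤ E) (h0' : P0 ≤ E')
    (he : E.map (QuotientGroup.mk' N) = E'.map (QuotientGroup.mk' N)) :
    ∃ v ∈ N, (∀ x ∈ P0, v * x = x * v) ∧ cj v E = E' := by
  set f := QuotientGroup.mk' N
  set C := (E.map f).comap f ⊓ Subgroup.centralizer (P0 : Set G) with hC
  have hEC : E ≤ C := fun x hx => ⟨⟨x, hx, rfl⟩,
    Subgroup.mem_centralizer_iff.2 fun y hy => hE.1 y (h0 hy) x hx⟩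
  have hEC' : E' ≤ C := fun x hx => ⟨by
      show f x ∈ E.map f
      rw [he]; exact ⟨x, hx, rfl⟩,
    Subgroup.mem_centralizer_iff.2 fun y hy => hE'.1 y (h0' hy) x hx⟩
  have sylowOf : ∀ (F : Subgroup G), IsElem p F → F ≤ C → F.map f = E.map f →
      ∃ S : Sylow p C, (S : Subgroup C) = F.subgroupOf C := by
    intro F hF hFC hFm
    obtain ⟨S, hS⟩ := (hF.isPGroup.of_equiv
      (Subgroup.subgroupOfEquivOfLe hFC).symm).exists_le_sylow
    refine ⟨S, le_antisymm ?_ hS⟩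
    intro x hx
    set S' := (S : Subgroup C).map C.subtype
    have hS'p : IsPGroup p S' := S.isPGroup'.map _
    have hFS : F ≤ S' := fun y hy => ⟨⟨y, hFC hy⟩, hS hy, rfl⟩
    have : F = S' := by
      refine le_antisymm hFS (le_of_map_le_mk hN hS'p le_rfl hFS ?_)
      rintro _ ⟨y, hy, rfl⟩
      obtain ⟨z, hz, rfl⟩ := hy
      rw [hFm]
      exact z.2.1
    show x.1 ∈ F
    rw [this]; exact ⟨x, hx, rfl⟩
  obtain ⟨S, hS⟩ := sylowOf E hE hEC rfl
  obtain ⟨S', hS'⟩ := sylowOf E' hE' hEC' he.symm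
  obtain ⟨c, hc⟩ := MulAction.exists_smul_eq C S S'
  have hcE : cj (c : G) E = E' := by
    ext x
    rw [mem_cj]
    constructor
    · intro hx
      have hxC : x ∈ C := by
        have := C.mul_mem (C.mul_mem c.2 (hEC hx)) (C.inv_mem c.2)
        simpa [mul_assoc] using this
      have : (⟨x, hxC⟩ : C) ∈ (S' : Subgroup C) := by
        rw [← hc, Sylow.coe_subgroup_smul, Subgroup.mem_pointwise_smul_iff_inv_smul_mem, hS]
        show ((MulAut.conj c)⁻¹ • (⟨x, hxC⟩ : C) : C).1 ∈ E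
        simpa [MulAut.smul_def] using hx
      rw [hS'] at this
      exact this
    · intro hx
      have : (⟨x, hEC' hx⟩ : C) ∈ (S' : Subgroup C) := by rw [hS']; exact hx
      rw [← hc, Sylow.coe_subgroup_smul, Subgroup.mem_pointwise_smul_iff_inv_smul_mem, hS]
        at this
      have h2 : ((MulAut.conj c)⁻¹ • (⟨x, hEC' hx⟩ : C) : C).1 ∈ E := this
      simpa [MulAut.smul_def] using h2
  obtain ⟨⟨e, he', hce⟩, hc2⟩ := c.2
  refine ⟨(c : G) * e⁻¹, ?_, ?_, ?_⟩
  · have h3 : f ((c : G) * e⁻¹) = 1 := by rw [map_mul, map_inv, ← hce, mul_inv_cancel]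
    exact (QuotientGroup.eq_one_iff _).1 h3
  · intro x hx
    have a1 : x * (c : G) = c * x := Subgroup.mem_centralizer_iff.1 hc2 x hx
    have a2 : x * e⁻¹ = e⁻¹ * x := hE.1 x (h0 hx) _ (E.inv_mem he')
    rw [mul_assoc, ← a2, ← mul_assoc, ← a1, mul_assoc]
  · rw [cj_mul, cj_of_mem (E.inv_mem he'), hcE]

end Coprime

end Vale.Agent.P240
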