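import Vale.Agent.P240.Core

/-!
# The join lemma: main statement
-/

set_option linter.unusedSectionVars false

open scoped Classical
open IsMulCommutative

noncomputable section

namespace Vale.Agent.P240

variable {p : ℕ} [hp : Fact p.Prime] {G : Type*} [Group G] [Finite G]
  {V : Subgroup G} [V.Normal] [IsMulCommutative V]

/-- The greatest element of a chain of elementary abelian subgroups above `C`. -/
def topOf {H : Type*} [Group H] (C : Subgroup H) (τ : Finset (Subgroup H)) : Subgroup H :=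
  C ⊔ τ.sup id

theorem topOf_spec {H : Type*} [Group H] {C : Subgroup H} (hC : IsElem p C)
    {τ : Finset (Subgroup H)} {m : ℕ} (hτ : τ ∈ chainSets (Lk p C) m) :
    IsElem p (topOf C τ) ∧ C ≤ topOf C τ ∧ ↑τ ⊆ Up C (topOf C τ) ∧
      (τ.Nonempty → C < topOf C τ) := by
  refine ⟨?_, le_sup_left, fun x hx => ⟨(hτ.2.1 hx).2,
    le_sup_of_le_right (Finset.le_sup (f := id) hx)⟩, fun ⟨x, hx⟩ =>
    lt_of_lt_of_le (hτ.2.1 hx).2 (le_sup_of_le_right (Finset.le_sup (f := id) hx))⟩
  rcases τ.eq_empty_or_nonempty with he | hne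
  · simpa [topOf, he] using hC
  · have hsub : ↑τ ⊆ elemAbelianSubgroups p H := fun x hx =>
      ⟨fun e => not_lt_bot (e ▸ (hτ.2.1 hx).2), (hτ.2.1 hx).1⟩
    have h := sup_id_isElem hτ.1 hsub
    obtain ⟨x, hx⟩ := hne
    rwa [topOf, sup_eq_right.2 ((hτ.2.1 hx).2.le.trans (Finset.le_sup (f := id) hx))]

theorem Lk_subset {H : Type*} [Group H] {C : Subgroup H} : Lk p C ⊆ elemAbelianSubgroups p H :=
  fun _ hE => ⟨fun e => not_lt_bot (e ▸ hE.2), hE.1⟩

theorem below_subset {L : Subgroup G} (hL : IsElem p L) :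
    Below L ⊆ elemAbelianSubgroups p G := fun _ hF => ⟨hF.1, hL.mono hF.2⟩

variable (p) in
/-- Lift of the top of a chain containing `B`. -/
def liftTop (B : Subgroup G) (τ : Finset (Subgroup (G ⧸ V))) : Subgroup G :=
  if h : ∃ E : Subgroup G, IsElem p E ∧ B ≤ E ∧
      E.map (QuotientGroup.mk' V) = topOf (B.map (QuotientGroup.mk' V)) τ
  then h.choose else ⊥

theorem liftTop_spec (hV : (Nat.card V).Coprime p) {B : Subgroup G} (hB : IsElem p B)
    {τ : Finset (Subgroup (G ⧸ V))} {m : ℕ}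
    (hτ : τ ∈ chainSets (Lk p (B.map (QuotientGroup.mk' V))) m) :
    IsElem p (liftTop p B τ) ∧ B ≤ liftTop p B τ ∧
      (liftTop p B τ).map (QuotientGroup.mk' V) = topOf (B.map (QuotientGroup.mk' V)) τ := by
  obtain ⟨h1, h2, -, -⟩ := topOf_spec (hB.map _) hτ
  obtain ⟨E, e1, e2, e3⟩ := exists_lift hV h1 hB.isPGroup h2
  have hex : ∃ E : Subgroup G, IsElem p E ∧ B ≤ E ∧
      E.map (QuotientGroup.mk' V) = topOf (B.map (QuotientGroup.mk' V)) τ := ⟨E, e1, e2, e3⟩
  simp only [liftTop, dif_pos hex]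
  exact hex.choose_spec

/-- Chains in a face may be moved into the lift of the whole chain. -/
theorem face_move (hV : (Nat.card V).Coprime p) {B : Subgroup G} (hB : IsElem p B)
    {θ : V →* ℂˣ} (hθ : ∀ w : V, Fixed B w → θ w = 1)
    {τ : Finset (Subgroup (G ⧸ V))} {m : ℕ}
    (hτ : τ ∈ chainSets (Lk p (B.map (QuotientGroup.mk' V))) (m + 1)) {a : Subgroup (G ⧸ V)}
    (ha : a ∈ τ) {i : ℕ} {x : Finset (Subgroup G) →₀ ℂ}
    (hx : x ∈ CC ℂ (Below (liftTop p B (τ.erase a))) i) :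
    ∃ y ∈ CC ℂ (Below (liftTop p B τ)) i, eTh θ y = eTh θ x := by
  obtain ⟨l1, l2, l3⟩ := liftTop_spec hV hB hτ
  obtain ⟨k1, k2, k3⟩ := liftTop_spec hV hB (erase_mem_chainSets hτ ha)
  set f := QuotientGroup.mk' V
  set T' := topOf (B.map f) (τ.erase a)
  have hTle : T' ≤ (liftTop p B τ).map f := by
    rw [l3]; exact sup_le_sup_left (Finset.sup_mono (Finset.erase_subset a τ)) _
  obtain ⟨u, hu, hcomm, hcj⟩ := lift_conj hV (P0 := B) k1
    (l1.mono (inf_le_left (b := T'.comap f))) k2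
    (le_inf l2 (fun g hg => le_sup_left (α := Subgroup (G ⧸ V)) ⟨g, hg, rfl⟩))
    (by rw [k3, map_inf_comap V hTle])
  refine ⟨push ℂ (fun F => cj u F) x,
    push_mem_CC (fun _ _ _ _ h => (cj u).strictMono h) ?_ hx, ?_⟩
  · intro F hF
    refine ⟨fun e => hF.1 (cj_eq_bot.1 e), le_trans ((cj u).monotone hF.2) ?_⟩
    rw [hcj]; exact inf_le_left
  · have e := eTh_push θ (⟨u, hu⟩ : V) x
    rw [hθ ⟨u, hu⟩ (fun g hg => (hcomm g hg).symm), Units.val_one, one_smul] at e
    exact e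

theorem exists_carrier (hV : (Nat.card V).Coprime p) {B : Subgroup G} (hB : IsElem p B)
    {θ : V →* ℂˣ} (hθ : ∀ w : V, Fixed B w → θ w = 1) {n : ℕ} (hn : p ^ n ≤ Nat.card B)
    {z : Finset (Subgroup G) →₀ ℂ} (hz : z ∈ CC ℂ (Below B) n)
    (hz0 : eTh θ (bd ℂ (Subgroup G) z) = 0) (m : ℕ) :
    ∃ c : Finset (Subgroup (G ⧸ V)) → (Finset (Subgroup G) →₀ ℂ), c ∅ = z ∧
      ∀ i, i ≤ m → ∀ τ ∈ chainSets (Lk p (B.map (QuotientGroup.mk' V))) i,
        c τ ∈ CC ℂ (Below (liftTop p B τ)) (n + i) ∧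
        bd ℂ (Subgroup G) (eTh θ (c τ)) = (-1 : ℂ) ^ n • eTh θ
          (Finsupp.linearCombination ℂ c (bd ℂ (Subgroup (G ⧸ V)) (Finsupp.single τ 1))) := by
  induction m with
  | zero =>
    refine ⟨fun _ => z, rfl, fun i hi τ hτ => ?_⟩
    obtain rfl : i = 0 := Nat.le_zero.1 hi
    obtain rfl := Finset.card_eq_zero.1 hτ.2.2
    obtain ⟨-, l2, -⟩ := liftTop_spec hV hB hτ
    refine ⟨CC_mono (U := Below B) (U' := Below (liftTop p B ∅)) (fun F hF => ⟨hF.1, hF.2.trans l2⟩) hz, ?_⟩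
    rw [bd_eTh θ hz, hz0]
    simp [bd_single]
  | succ m ih =>
    obtain ⟨c, hc0, hc⟩ := ih
    set f := QuotientGroup.mk' V with hf
    have hlin : ∀ x ∈ CC ℂ (Lk p (B.map f)) m,
        bd ℂ (Subgroup G) (eTh θ (Finsupp.linearCombination ℂ c x)) = (-1 : ℂ) ^ n •
          eTh θ (Finsupp.linearCombination ℂ c (bd ℂ (Subgroup (G ⧸ V)) x)) := by
      intro x hx
      refine CC_induction (P := fun x =>
        bd ℂ (Subgroup G) (eTh θ (Finsupp.linearCombination ℂ c x)) = (-1 : ℂ) ^ n •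
          eTh θ (Finsupp.linearCombination ℂ c (bd ℂ (Subgroup (G ⧸ V)) x))) hx (by simp)
        (fun u v hu hv => by simp only [map_add, smul_add, hu, hv]) (fun σ hσ r => ?_)
      have e : Finsupp.single σ r = r • Finsupp.single σ (1 : ℂ) := by simp
      rw [Finsupp.linearCombination_single, map_smul, map_smul, (hc m le_rfl σ hσ).2,
        smul_comm, e, map_smul, map_smul, map_smul]
    have hstep : ∀ τ ∈ chainSets (Lk p (B.map f)) (m + 1), ∃ x,
        x ∈ CC ℂ (Below (liftTop p B τ)) (n + (m + 1)) ∧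
        bd ℂ (Subgroup G) (eTh θ x) = (-1 : ℂ) ^ n • eTh θ
          (Finsupp.linearCombination ℂ c (bd ℂ (Subgroup (G ⧸ V)) (Finsupp.single τ 1))) := by
      intro τ hτ
      obtain ⟨l1, l2, l3⟩ := liftTop_spec hV hB hτ
      obtain ⟨t1, t2, t3, t4⟩ := topOf_spec (hB.map f) hτ
      choose y hy hey using fun (a : {a // a ∈ τ}) => face_move hV hB hθ hτ a.2
        ((hc m le_rfl _ (erase_mem_chainSets hτ a.2)).1)
      set Y := ∑ a ∈ τ.attach, ((-1 : ℂ) ^ n * (-1 : ℂ) ^ below τ a.1) • y a with hY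
      have hYm : Y ∈ CC ℂ (Below (liftTop p B τ)) (n + m) :=
        Submodule.sum_mem _ fun a _ => Submodule.smul_mem _ _ (hy a)
      have hYe : eTh θ Y = (-1 : ℂ) ^ n • eTh θ
          (Finsupp.linearCombination ℂ c (bd ℂ (Subgroup (G ⧸ V)) (Finsupp.single τ 1))) := by
        rw [hY, map_sum, bd_single, map_sum, map_sum, Finset.smul_sum, ← Finset.sum_attach τ]
        refine Finset.sum_congr rfl fun a _ => ?_
        rw [map_smul, hey, Finsupp.linearCombination_single, map_smul, smul_smul, one_mul]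
      have h0 : eTh θ (bd ℂ (Subgroup G) Y) = 0 := by
        rw [← bd_eTh θ hYm, hYe, map_smul, hlin _ (bd_mem_CC (single_mem_CC hτ 1)),
          bd_bd (single_mem_CC hτ 1)]
        simp
      have hcard : p ^ (n + m) < Nat.card (liftTop p B τ) := by
        have h := card_chain (C := B.map f) t1 t2 hτ.1 (fun x hx => t3 hx)
        rw [hτ.2.2, card_map_mk hV hB.isPGroup, ← l3, card_map_mk hV l1.isPGroup] at h
        refine lt_of_lt_of_le ?_ h
        rw [pow_add]
        exact lt_of_lt_of_le (Nat.mul_lt_mul_of_pos_left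
          (Nat.pow_lt_pow_right hp.out.one_lt (Nat.lt_succ_self m)) (pow_pos hp.out.pos n))
          (Nat.mul_le_mul_right _ hn)
      have hne : liftTop p B τ ≠ ⊥ := fun e => by
        rw [e, Subgroup.card_bot] at hcard
        have := pow_pos hp.out.pos (n + m)
        omega
      obtain ⟨x, hx, hex⟩ := exists_fill hV θ l1 hne (fun w hw => hθ w (hw.anti l2)) hcard hYm h0
      exact ⟨x, hx, hex.trans hYe⟩
    choose x hx1 hx2 using hstep
    refine ⟨fun τ => if h : τ ∈ chainSets (Lk p (B.map f)) (m + 1) then x τ h else c τ, ?_,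
      fun i hi τ hτ => ?_⟩
    · simp only []
      rw [dif_neg (fun h => by simpa using h.2.2), hc0]
    · have hlow : Finsupp.linearCombination ℂ
          (fun τ => if h : τ ∈ chainSets (Lk p (B.map f)) (m + 1) then x τ h else c τ)
          (bd ℂ (Subgroup (G ⧸ V)) (Finsupp.single τ 1)) =
          Finsupp.linearCombination ℂ c (bd ℂ (Subgroup (G ⧸ V)) (Finsupp.single τ 1)) := by
        rw [bd_single, map_sum, map_sum]
        refine Finset.sum_congr rfl fun a ha => ?_
        rw [Finsupp.linearCombination_single, Finsupp.linearCombination_single, dif_neg]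
        intro h
        have h1 := h.2.2
        rw [Finset.card_erase_of_mem ha, hτ.2.2] at h1
        omega
      rcases eq_or_lt_of_le hi with rfl | hlt
      · beta_reduce; rw [dif_pos hτ, hlow]
        exact ⟨hx1 τ hτ, hx2 τ hτ⟩
      · beta_reduce; rw [dif_neg (fun h => by have := h.2.2; rw [hτ.2.2] at this; omega), hlow]
        exact hc i (Nat.le_of_lt_succ hlt) τ hτ

theorem exists_homotopy_to_scalar {B : Subgroup G}
    {P : Finset (Subgroup (G ⧸ V)) → (Finset (Subgroup (G ⧸ V)) →₀ ℂ)} {κ : ℂ}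
    (hC : IsElem p (B.map (QuotientGroup.mk' V)))
    (hP0 : P ∅ = Finsupp.single ∅ κ) (M : ℕ)
    (hP : ∀ i, i ≤ M → ∀ τ ∈ chainSets (Lk p (B.map (QuotientGroup.mk' V))) i,
      P τ ∈ CC ℂ (Up (B.map (QuotientGroup.mk' V))
        (topOf (B.map (QuotientGroup.mk' V)) τ)) i ∧
      bd ℂ (Subgroup (G ⧸ V)) (P τ) =
        Finsupp.linearCombination ℂ P (bd ℂ (Subgroup (G ⧸ V)) (Finsupp.single τ 1))) :
    ∀ m, m ≤ M → ∃ h : Finset (Subgroup (G ⧸ V)) → (Finset (Subgroup (G ⧸ V)) →₀ ℂ),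
      ∀ i, i ≤ m → ∀ τ ∈ chainSets (Lk p (B.map (QuotientGroup.mk' V))) i,
        h τ ∈ CC ℂ (Up (B.map (QuotientGroup.mk' V))
          (topOf (B.map (QuotientGroup.mk' V)) τ)) (i + 1) ∧
        bd ℂ (Subgroup (G ⧸ V)) (h τ) +
          Finsupp.linearCombination ℂ h (bd ℂ (Subgroup (G ⧸ V)) (Finsupp.single τ 1)) =
          P τ - Finsupp.single τ κ := by
  set C := B.map (QuotientGroup.mk' V) with hCdef
  intro m
  induction m with
  | zero =>
    intro _
    refine ⟨fun _ => 0, fun i hi τ hτ => ⟨zero_mem _, ?_⟩⟩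
    obtain rfl : i = 0 := Nat.le_zero.1 hi
    obtain rfl := Finset.card_eq_zero.1 hτ.2.2
    simp [bd_single, hP0]
  | succ m ih =>
    intro hmM
    obtain ⟨h, hh⟩ := ih (Nat.le_of_succ_le hmM)
    have hstep : ∀ τ ∈ chainSets (Lk p C) (m + 1), ∃ x,
        x ∈ CC ℂ (Up C (topOf C τ)) (m + 1 + 1) ∧
        bd ℂ (Subgroup (G ⧸ V)) x +
          Finsupp.linearCombination ℂ h (bd ℂ (Subgroup (G ⧸ V)) (Finsupp.single τ 1)) =
          P τ - Finsupp.single τ κ := by
      intro τ hτ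
      obtain ⟨-, -, t3, t4⟩ := topOf_spec hC hτ
      obtain ⟨p1, p2⟩ := hP (m + 1) hmM τ hτ
      have hτne : τ.Nonempty := Finset.card_pos.1 (by rw [hτ.2.2]; omega)
      have htop : topOf C τ ∈ Up C (topOf C τ) := ⟨t4 hτne, le_rfl⟩
      set D := P τ - Finsupp.single τ κ -
        Finsupp.linearCombination ℂ h (bd ℂ (Subgroup (G ⧸ V)) (Finsupp.single τ 1)) with hD
      have hτU : τ ∈ chainSets (Up C (topOf C τ)) (m + 1) := ⟨hτ.1, t3, hτ.2.2⟩
      have hfm : ∀ x ∈ CC ℂ (↑τ : Set (Subgroup (G ⧸ V))) m,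
          Finsupp.linearCombination ℂ h x ∈ CC ℂ (Up C (topOf C τ)) (m + 1) ∧
          bd ℂ (Subgroup (G ⧸ V)) (Finsupp.linearCombination ℂ h x) +
            Finsupp.linearCombination ℂ h (bd ℂ (Subgroup (G ⧸ V)) x) =
            Finsupp.linearCombination ℂ P x - κ • x := by
        intro x hx
        refine CC_induction (P := fun x =>
          Finsupp.linearCombination ℂ h x ∈ CC ℂ (Up C (topOf C τ)) (m + 1) ∧
          bd ℂ (Subgroup (G ⧸ V)) (Finsupp.linearCombination ℂ h x) +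
            Finsupp.linearCombination ℂ h (bd ℂ (Subgroup (G ⧸ V)) x) =
            Finsupp.linearCombination ℂ P x - κ • x) hx (by simp) ?_ ?_
        · rintro u v ⟨u1, u2⟩ ⟨v1, v2⟩
          refine ⟨by rw [map_add]; exact add_mem u1 v1, ?_⟩
          simp only [map_add, smul_add]
          rw [add_add_add_comm, u2, v2]; abel
        · intro σ hσ r
          obtain ⟨s1, s2⟩ := hh m le_rfl σ ⟨hσ.1, hσ.2.1.trans hτ.2.1, hσ.2.2⟩
          have e : Finsupp.single σ r = r • Finsupp.single σ (1 : ℂ) := by simp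
          refine ⟨?_, ?_⟩
          · rw [Finsupp.linearCombination_single]
            refine Submodule.smul_mem _ _ (CC_mono ?_ s1)
            intro y hy
            exact ⟨hy.1, hy.2.trans (sup_le_sup_left (Finset.sup_mono hσ.2.1) _)⟩
          · rw [Finsupp.linearCombination_single, Finsupp.linearCombination_single, map_smul, e,
              map_smul, map_smul, smul_comm κ r, Finsupp.smul_single κ σ, ← smul_add, smul_eq_mul,
              mul_one, s2, smul_sub]
      have hτ1 : Finsupp.single τ (1 : ℂ) ∈ CC ℂ (↑τ : Set (Subgroup (G ⧸ V))) (m + 1) :=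
        single_mem_CC ⟨hτ.1, subset_rfl, hτ.2.2⟩ 1
      obtain ⟨f1, f2⟩ := hfm _ (bd_mem_CC hτ1)
      have hDm : D ∈ CC ℂ (Up C (topOf C τ)) (m + 1) :=
        sub_mem (sub_mem p1 (single_mem_CC hτU κ)) f1
      have hDc : bd ℂ (Subgroup (G ⧸ V)) D = 0 := by
        rw [bd_bd hτ1, map_zero, add_zero] at f2
        have e : Finsupp.single τ κ = κ • Finsupp.single τ (1 : ℂ) := by simp
        rw [hD, map_sub, map_sub, p2, f2, e, map_smul, sub_self]
      refine ⟨cone ℂ (topOf C τ) D, cone_mem_CC hDm htop (fun y hy => hy.2), ?_⟩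
      have hcone := cone_homotopy hDm (t := topOf C τ) (fun y hy => hy.2)
      rw [hDc, map_zero, add_zero] at hcone
      rw [hcone, hD, sub_add_cancel]
    choose x hx1 hx2 using hstep
    refine ⟨fun τ => if hτ : τ ∈ chainSets (Lk p C) (m + 1) then x τ hτ else h τ,
      fun i hi τ hτ => ?_⟩
    have hlow : Finsupp.linearCombination ℂ
        (fun τ => if hτ : τ ∈ chainSets (Lk p C) (m + 1) then x τ hτ else h τ)
        (bd ℂ (Subgroup (G ⧸ V)) (Finsupp.single τ 1)) =
        Finsupp.linearCombination ℂ h (bd ℂ (Subgroup (G ⧸ V)) (Finsupp.single τ 1)) := by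
      rw [bd_single, map_sum, map_sum]
      refine Finset.sum_congr rfl fun a ha => ?_
      rw [Finsupp.linearCombination_single, Finsupp.linearCombination_single, dif_neg]
      intro h'
      have h1 := h'.2.2
      rw [Finset.card_erase_of_mem ha, hτ.2.2] at h1
      omega
    rcases eq_or_lt_of_le hi with rfl | hlt
    · beta_reduce; rw [dif_pos hτ, hlow]
      exact ⟨hx1 τ hτ, hx2 τ hτ⟩
    · beta_reduce; rw [dif_neg (fun h' => by have := h'.2.2; rw [hτ.2.2] at this; omega), hlow]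
      exact hh i (Nat.le_of_lt_succ hlt) τ hτ

/-- **Join lemma.** -/
theorem hasReducedHomology_of_link (hV : (Nat.card V).Coprime p) {B : Subgroup G}
    (hB : IsElem p B) (hfaith : ∀ d ∈ B, (∀ w : V, d * (w : G) = w * d) → d = 1)
    (h : HasReducedHomology ℂ (Lk p (B.map (QuotientGroup.mk' V)))) :
    HasReducedHomology ℂ (elemAbelianSubgroups p G) := by
  obtain ⟨n, H, b, θ, hBn, hb, hin, hH, hθ⟩ := exists_theta hV hB hfaith
  obtain ⟨z, hz, hzne, hzb⟩ := exists_relCycle (k := ℂ) b hb hin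
  have hz0 : eTh θ (bd ℂ (Subgroup G) z) = 0 := eTh_eq_zero θ fun σ hσ => by
    obtain ⟨j, hj⟩ := hzb σ hσ
    obtain ⟨-, w, hw, hwne⟩ := hH j
    exact ⟨w, fun F hF => hw.anti (hj F hF), hwne⟩
  obtain ⟨σ0, hσ0⟩ := Finsupp.support_nonempty_iff.2 hzne
  have hσ0c := (Finsupp.mem_supported ℂ z).1 hz hσ0
  set f := QuotientGroup.mk' V with hf
  set Bb := B.map f with hBb
  set mp : Subgroup G → Subgroup (G ⧸ V) := fun F => F.map f with hmp
  have hmono : ∀ a ∈ Below B, ∀ c ∈ Below B, a < c → mp a < mp c :=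
    fun a _ c hc h => map_lt_map_mk hV (hB.mono hc.2).isPGroup h
  have hmonoA : ∀ a ∈ elemAbelianSubgroups p G, ∀ c ∈ elemAbelianSubgroups p G, a < c →
      mp a < mp c := fun a _ c hc h => map_lt_map_mk hV hc.2.isPGroup h
  set f0 := σ0.image mp with hf0
  have hfcard : f0.card = n := by
    rw [hf0, Finset.card_image_of_injOn (injOn_of_strictMono hσ0c.1
      (fun a ha c hc => hmono a (hσ0c.2.1 ha) c (hσ0c.2.1 hc))), hσ0c.2.2]
  have hn : p ^ n ≤ Nat.card B := by
    have := card_chain (C := ⊥) hB bot_le hσ0c.1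
      (fun x hx => ⟨bot_lt_iff_ne_bot.2 (hσ0c.2.1 hx).1, (hσ0c.2.1 hx).2⟩)
    rwa [Subgroup.card_bot, one_mul, hσ0c.2.2] at this
  have htop : f0.Nonempty → Bb ∈ f0 := by
    intro hne
    have hne' : σ0.Nonempty := by simpa [hf0] using hne
    obtain ⟨x, hx, hmax⟩ := σ0.exists_maximal hne'
    have hle : ∀ y ∈ σ0, y ≤ x := fun y hy => by
      by_cases hyx : y = x
      · exact le_of_eq hyx
      rcases hσ0c.1 hy hx hyx with h | h
      · exact h
      · exact hmax hy h
    have := card_chain (C := ⊥) (hB.mono (hσ0c.2.1 hx).2) bot_le hσ0c.1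
      (fun y hy => ⟨bot_lt_iff_ne_bot.2 (hσ0c.2.1 hy).1, hle y hy⟩)
    rw [Subgroup.card_bot, one_mul, hσ0c.2.2] at this
    have hxB : x = B := Subgroup.eq_of_le_of_card_ge (hσ0c.2.1 hx).2 (hBn.trans this)
    rw [hf0, hBb, ← hxB]
    exact Finset.mem_image_of_mem _ hx
  let : Fintype V := Fintype.ofFinite V
  set π := piC B θ f0 with hπ
  have hπe : ∀ {i : ℕ} {x : Finset (Subgroup G) →₀ ℂ}, x ∈ CC ℂ (elemAbelianSubgroups p G) i →
      π (eTh θ x) = (Fintype.card V : ℂ) • π x := by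
    intro i x hx
    refine CC_induction (P := fun x => π (eTh θ x) = (Fintype.card V : ℂ) • π x) hx (by simp)
      (fun u v hu hv => by simp only [map_add, smul_add, hu, hv]) (fun σ hσ r => ?_)
    rw [eTh_apply, map_sum]
    have : ∀ v : V, π ((((θ v)⁻¹ : ℂˣ) : ℂ) • push ℂ (fun F => cj (v : G) F)
        (Finsupp.single σ r)) = π (Finsupp.single σ r) := by
      intro v
      rw [map_smul, push_single, hπ, piC_cj hV hB hθ hfcard hBn htop v hσ, smul_smul,
        Units.inv_mul, one_smul]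
    rw [Finset.sum_congr rfl (fun v _ => this v), Finset.sum_const, Finset.card_univ,
      Nat.cast_smul_eq_nsmul]
  have hπbd : ∀ {i : ℕ} {x : Finset (Subgroup G) →₀ ℂ}, x ∈ CC ℂ (elemAbelianSubgroups p G) i →
      π (bd ℂ (Subgroup G) x) = (-1 : ℂ) ^ n • bd ℂ (Subgroup (G ⧸ V)) (π x) := by
    intro i x hx
    refine CC_induction (P := fun x =>
      π (bd ℂ (Subgroup G) x) = (-1 : ℂ) ^ n • bd ℂ (Subgroup (G ⧸ V)) (π x)) hx (by simp)
      (fun u v hu hv => by simp only [map_add, smul_add, hu, hv]) (fun σ hσ r => ?_)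
    rw [show Finsupp.single σ r = r • Finsupp.single σ (1 : ℂ) by simp, map_smul, map_smul,
      map_smul, map_smul, hπ, piC_chainMap hV hB hfcard hBn htop hσ, smul_comm]
  have hπz : π z = z σ0 • Finsupp.single ∅ 1 := by
    have e : z = ∑ s ∈ z.support, Finsupp.single s (z s) := (Finsupp.sum_single z).symm
    conv_lhs => rw [e]
    rw [map_sum, Finset.sum_eq_single σ0]
    · rw [hπ, piC, Finsupp.linearCombination_single]
      have hlow : (σ0.image mp).filter (fun x => x ≤ Bb) = f0 := by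
        rw [Finset.filter_true_of_mem, hf0]
        intro x hx
        obtain ⟨F, hF, rfl⟩ := Finset.mem_image.1 hx
        exact Subgroup.map_mono (hσ0c.2.1 hF).2
      have hall : ∀ x ∈ σ0.image mp, x ≤ Bb := fun x hx => by
        obtain ⟨F, hF, rfl⟩ := Finset.mem_image.1 hx
        exact Subgroup.map_mono (hσ0c.2.1 hF).2
      rw [if_pos ⟨hlow, fun x hx hn' => absurd (hall x hx) hn'⟩,
        Finset.prod_eq_one, one_smul, Finset.filter_false_of_mem (fun x hx h' => h' (hall x hx))]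
      intro F hF
      obtain ⟨hFm, hFe⟩ := Finset.mem_filter.1 hF
      have : F = B := le_antisymm (hσ0c.2.1 hFm).2
        (le_of_map_le_mk hV hB.isPGroup le_rfl (hσ0c.2.1 hFm).2 hFe.ge)
      rw [this]
      have e1 := wt_cj_self hV hB hθ (1 : V)
      rw [Subgroup.coe_one, cj_one, map_one, Units.val_one] at e1
      exact e1
    · intro s hs hne
      have hsc := (Finsupp.mem_supported ℂ z).1 hz hs
      rw [hπ, piC, Finsupp.linearCombination_single, if_neg, smul_zero]
      rintro ⟨h1, -⟩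
      apply hne
      have himg : s.image mp = f0 := by
        rw [← h1, Finset.filter_true_of_mem]
        intro x hx
        obtain ⟨F, hF, rfl⟩ := Finset.mem_image.1 hx
        exact Subgroup.map_mono (hsc.2.1 hF).2
      have hinj : Set.InjOn mp (Below B) := fun a ha c hc e =>
        le_antisymm (le_of_map_le_mk hV hB.isPGroup ha.2 hc.2 (le_of_eq e))
          (le_of_map_le_mk hV hB.isPGroup hc.2 ha.2 (le_of_eq e.symm))
      ext F
      constructor
      · intro hF
        obtain ⟨F', hF', e'⟩ := Finset.mem_image.1 (hf0 ▸ himg ▸ Finset.mem_image_of_mem mp hF)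
        rwa [← hinj (hσ0c.2.1 hF') (hsc.2.1 hF) e']
      · intro hF
        obtain ⟨F', hF', e'⟩ := Finset.mem_image.1
          (himg.symm ▸ hf0 ▸ Finset.mem_image_of_mem mp hF)
        rwa [← hinj (hsc.2.1 hF') (hσ0c.2.1 hF) e']
    · intro h'; exact absurd hσ0 h'
  obtain ⟨d, w, hw, hw0, hwb⟩ := h
  obtain ⟨c, hc0, hc⟩ := exists_carrier hV hB hθ hn hz hz0 d
  set P : Finset (Subgroup (G ⧸ V)) → (Finset (Subgroup (G ⧸ V)) →₀ ℂ) :=
    fun τ => π (eTh θ (c τ)) with hPdef
  have hcA : ∀ i, i ≤ d → ∀ τ ∈ chainSets (Lk p Bb) i,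
      c τ ∈ CC ℂ (elemAbelianSubgroups p G) (n + i) := fun i hi τ hτ =>
    CC_mono (below_subset (liftTop_spec hV hB hτ).1) (hc i hi τ hτ).1
  have hP : ∀ i, i ≤ d → ∀ τ ∈ chainSets (Lk p Bb) i,
      P τ ∈ CC ℂ (Up Bb (topOf Bb τ)) i ∧ bd ℂ (Subgroup (G ⧸ V)) (P τ) =
        Finsupp.linearCombination ℂ P (bd ℂ (Subgroup (G ⧸ V)) (Finsupp.single τ 1)) := by
    intro i hi τ hτ
    obtain ⟨l1, -, l3⟩ := liftTop_spec hV hB hτ
    refine ⟨?_, ?_⟩
    · show π (eTh θ (c τ)) ∈ _
      rw [hπe (hcA i hi τ hτ)]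
      refine Submodule.smul_mem _ _ ?_
      have := piC_mem hV (B := B) (θ := θ) (f0 := f0) (below_subset l1)
        (W := Up Bb (topOf Bb τ)) (fun F hF hlt => ⟨hlt, l3 ▸ Subgroup.map_mono hF.2⟩)
        (hc i hi τ hτ).1
      rwa [hfcard, Nat.add_sub_cancel_left] at this
    · have hk := hπbd (eTh_mem θ (fun v F hF => cj_mem_elem (v : G) hF) (hcA i hi τ hτ))
      rw [(hc i hi τ hτ).2, map_smul] at hk
      have hk' : bd ℂ (Subgroup (G ⧸ V)) (π (eTh θ (c τ))) = π (eTh θ
          (Finsupp.linearCombination ℂ c (bd ℂ (Subgroup (G ⧸ V)) (Finsupp.single τ 1)))) :=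
        (smul_right_injective _ (pow_ne_zero n (by norm_num : (-1 : ℂ) ≠ 0)) hk).symm
      simp only [hPdef, hk', bd_single, map_sum, Finsupp.linearCombination_single, map_smul]
  set κ : ℂ := (Fintype.card V : ℂ) * z σ0 with hκ
  have hκne : κ ≠ 0 :=
    mul_ne_zero (Nat.cast_ne_zero.2 Fintype.card_ne_zero) (Finsupp.mem_support_iff.1 hσ0)
  have hP0 : P ∅ = Finsupp.single ∅ κ := by
    simp only [hPdef, hc0]
    rw [hπe (CC_mono (below_subset hB) hz), hπz, smul_smul, Finsupp.smul_single, smul_eq_mul,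
      mul_one]
  obtain ⟨hh, hhspec⟩ := exists_homotopy_to_scalar (hB.map f) hP0 d hP d le_rfl
  have hlink : ∀ {i : ℕ} {τ : Finset (Subgroup (G ⧸ V))}, τ ∈ chainSets (Lk p Bb) i →
      Up Bb (topOf Bb τ) ⊆ Lk p Bb := fun hτ F hF =>
    ⟨(topOf_spec (hB.map f) hτ).1.mono hF.2, hF.1⟩
  have hLid : Finsupp.linearCombination ℂ hh w ∈ CC ℂ (Lk p Bb) (d + 1) ∧
      bd ℂ (Subgroup (G ⧸ V)) (Finsupp.linearCombination ℂ hh w) +
        Finsupp.linearCombination ℂ hh (bd ℂ (Subgroup (G ⧸ V)) w) =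
      Finsupp.linearCombination ℂ P w - κ • w ∧
      Finsupp.linearCombination ℂ P w = π (eTh θ (Finsupp.linearCombination ℂ c w)) ∧
      Finsupp.linearCombination ℂ c w ∈ CC ℂ (elemAbelianSubgroups p G) (n + d) ∧
      bd ℂ (Subgroup G) (eTh θ (Finsupp.linearCombination ℂ c w)) = (-1 : ℂ) ^ n •
        eTh θ (Finsupp.linearCombination ℂ c (bd ℂ (Subgroup (G ⧸ V)) w)) := by
    refine CC_induction (P := fun w =>
      Finsupp.linearCombination ℂ hh w ∈ CC ℂ (Lk p Bb) (d + 1) ∧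
      bd ℂ (Subgroup (G ⧸ V)) (Finsupp.linearCombination ℂ hh w) +
        Finsupp.linearCombination ℂ hh (bd ℂ (Subgroup (G ⧸ V)) w) =
      Finsupp.linearCombination ℂ P w - κ • w ∧
      Finsupp.linearCombination ℂ P w = π (eTh θ (Finsupp.linearCombination ℂ c w)) ∧
      Finsupp.linearCombination ℂ c w ∈ CC ℂ (elemAbelianSubgroups p G) (n + d) ∧
      bd ℂ (Subgroup G) (eTh θ (Finsupp.linearCombination ℂ c w)) = (-1 : ℂ) ^ n •
        eTh θ (Finsupp.linearCombination ℂ c (bd ℂ (Subgroup (G ⧸ V)) w))) hw (by simp) ?_ ?_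
    · rintro x y ⟨x1, x2, x3, x4, x5⟩ ⟨y1, y2, y3, y4, y5⟩
      refine ⟨by rw [map_add]; exact add_mem x1 y1, ?_, by simp only [map_add, x3, y3],
        by rw [map_add]; exact add_mem x4 y4, by simp only [map_add, smul_add, x5, y5]⟩
      simp only [map_add, smul_add]
      rw [add_add_add_comm, x2, y2]; abel
    · intro τ hτ r
      obtain ⟨s1, s2⟩ := hhspec d le_rfl τ hτ
      have e : Finsupp.single τ r = r • Finsupp.single τ (1 : ℂ) := by simp
      refine ⟨?_, ?_, ?_, ?_, ?_⟩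
      · rw [Finsupp.linearCombination_single]
        exact Submodule.smul_mem _ _ (CC_mono (hlink hτ) s1)
      · rw [Finsupp.linearCombination_single, Finsupp.linearCombination_single, map_smul, e,
          map_smul, map_smul, smul_comm κ r, Finsupp.smul_single κ τ, ← smul_add, smul_eq_mul,
          mul_one, s2, smul_sub]
      · simp only [Finsupp.linearCombination_single, map_smul, hPdef]
      · rw [Finsupp.linearCombination_single]
        exact Submodule.smul_mem _ _ (hcA d le_rfl τ hτ)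
      · rw [Finsupp.linearCombination_single, map_smul, map_smul, (hc d le_rfl τ hτ).2,
          smul_comm, e, map_smul, map_smul, map_smul]
  obtain ⟨l1, l2, l3, l4, l5⟩ := hLid
  refine ⟨n + d, eTh θ (Finsupp.linearCombination ℂ c w),
    eTh_mem θ (fun v F hF => cj_mem_elem (v : G) hF) l4, ?_, fun u hu e => ?_⟩
  · rw [l5, hw0, map_zero, map_zero, smul_zero]
  rw [hw0, map_zero, add_zero] at l2
  rw [l3, ← e, hπbd hu] at l2
  have hπu : π u ∈ CC ℂ (Lk p Bb) (d + 1) := by
    have := piC_mem hV (B := B) (θ := θ) (f0 := f0) (subset_refl (elemAbelianSubgroups p G))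
      (W := Lk p Bb) (fun F hF hlt => ⟨hF.2.map f, hlt⟩) hu
    rwa [hfcard, Nat.add_assoc, Nat.add_sub_cancel_left] at this
  refine hwb (κ⁻¹ • ((-1 : ℂ) ^ n • π u - Finsupp.linearCombination ℂ hh w))
    (Submodule.smul_mem _ _ (sub_mem (Submodule.smul_mem _ _ hπu) l1)) ?_
  rw [map_smul, map_sub, map_smul, l2, sub_sub_cancel, smul_smul, inv_mul_cancel₀ hκne, one_smul]

end Vale.Agent.P240
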