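import Vale.Agent.P240.Basic

/-!
# Lefschetz numbers and a congruence for fixed subposets
-/

set_option linter.unusedSectionVars false

open scoped Classical

noncomputable section

namespace Vale.Agent.P240

variable {k : Type*} [Field k] {α : Type*} [PartialOrder α] [Fintype α]

/-- All chains in `U`, including the empty one. -/
def allChains (U : Set α) : Finset (Finset α) :=
  Finset.univ.filter (fun s => IsChain (· ≤ ·) (s : Set α) ∧ ↑s ⊆ U)

theorem mem_allChains {U : Set α} {s : Finset α} :
    s ∈ allChains U ↔ IsChain (· ≤ ·) (s : Set α) ∧ ↑s ⊆ U := by simp [allChains]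

/-- Minus the reduced Euler characteristic of the order complex of `U`. -/
def Chi (U : Set α) : ℤ := ∑ s ∈ allChains U, (-1) ^ s.card

/-- Projection onto the span of the chains of `U`. -/
def projCh (k : Type*) [Field k] (U : Set α) : (Finset α →₀ k) →ₗ[k] (Finset α →₀ k) :=
  Finsupp.linearCombination k
    (fun s => if s ∈ allChains U then Finsupp.single s 1 else 0)

theorem projCh_single (U : Set α) (s : Finset α) (c : k) :
    projCh k U (Finsupp.single s c) =
      if s ∈ allChains U then Finsupp.single s c else 0 := by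
  by_cases h : s ∈ allChains U <;> simp [projCh, h]

/-- The part supported on sets with `n` elements. -/
def level (k : Type*) [Field k] (α : Type*) (n : ℕ) :
    (Finset α →₀ k) →ₗ[k] (Finset α →₀ k) :=
  Finsupp.linearCombination k (fun s => if s.card = n then Finsupp.single s 1 else 0)

theorem level_single (n : ℕ) (s : Finset α) (c : k) :
    level k α n (Finsupp.single s c) = if s.card = n then Finsupp.single s c else 0 := by
  by_cases h : s.card = n <;> simp [level, h]

theorem sum_level (z : Finset α →₀ k) :
    ∑ n ∈ Finset.range (Fintype.card α + 1), level k α n z = z := by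
  induction z using Finsupp.induction_linear with
  | zero => simp
  | add x y hx hy => simp only [map_add, Finset.sum_add_distrib, hx, hy]
  | single s c =>
    simp only [level_single]
    rw [Finset.sum_ite_eq, if_pos]
    exact Finset.mem_range.2 (Nat.lt_succ_of_le (Finset.card_le_univ s))

theorem level_bd (n : ℕ) (z : Finset α →₀ k) :
    level k α n (bd k α z) = bd k α (level k α (n + 1) z) := by
  induction z using Finsupp.induction_linear with
  | zero => simp
  | add x y hx hy => simp only [map_add, hx, hy]
  | single s c =>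
    rw [level_single, bd_single, map_sum]
    by_cases h : s.card = n + 1
    · rw [if_pos h, bd_single]
      refine Finset.sum_congr rfl fun a ha => ?_
      rw [level_single, if_pos (by rw [Finset.card_erase_of_mem ha]; omega)]
    · rw [if_neg h, map_zero]
      refine Finset.sum_eq_zero fun a ha => ?_
      rw [level_single, if_neg]
      have := Finset.card_erase_add_one ha
      omega

theorem level_projCh_mem (U : Set α) (n : ℕ) (z : Finset α →₀ k) :
    level k α n (projCh k U z) ∈ CC k U n := by
  induction z using Finsupp.induction_linear with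
  | zero => simp
  | add x y hx hy => simp only [map_add]; exact add_mem hx hy
  | single s c =>
    rw [projCh_single]
    split_ifs with h
    · rw [level_single]
      split_ifs with h'
      · exact single_mem_CC ⟨(mem_allChains.1 h).1, (mem_allChains.1 h).2, h'⟩ c
      · exact zero_mem _
    · simp

theorem projCh_of_mem_CC {U : Set α} {n : ℕ} {z : Finset α →₀ k} (hz : z ∈ CC k U n) :
    projCh k U z = z :=
  CC_induction (P := fun z => projCh k U z = z) hz (by simp)
    (fun x y hx hy => by rw [map_add, hx, hy])
    (fun s hs c => by rw [projCh_single, if_pos (mem_allChains.2 ⟨hs.1, hs.2.1⟩)])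

theorem projCh_projCh (U : Set α) (z : Finset α →₀ k) :
    projCh k U (projCh k U z) = projCh k U z := by
  induction z using Finsupp.induction_linear with
  | zero => simp
  | add x y hx hy => simp only [map_add, hx, hy]
  | single s c =>
    rw [projCh_single]
    split_ifs with h
    · rw [projCh_single, if_pos h]
    · simp

theorem projCh_bd_projCh (U : Set α) (z : Finset α →₀ k) :
    projCh k U (bd k α (projCh k U z)) = bd k α (projCh k U z) := by
  induction z using Finsupp.induction_linear with
  | zero => simp
  | add x y hx hy => simp only [map_add, hx, hy]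
  | single s c =>
    rw [projCh_single]
    split_ifs with h
    · rw [bd_single, map_sum]
      refine Finset.sum_congr rfl fun a ha => ?_
      rw [projCh_single, if_pos]
      exact mem_allChains.2 ⟨(mem_allChains.1 h).1.mono (by
        intro x hx; exact (Finset.mem_erase.1 hx).2),
        fun x hx => (mem_allChains.1 h).2 (Finset.mem_erase.1 hx).2⟩
    · simp

theorem bd_bd_projCh (U : Set α) (z : Finset α →₀ k) :
    bd k α (bd k α (projCh k U z)) = 0 := by
  induction z using Finsupp.induction_linear with
  | zero => simp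
  | add x y hx hy => simp only [map_add, hx, hy, add_zero]
  | single s c =>
    rw [projCh_single]
    split_ifs with h
    · exact bd_bd_single (mem_allChains.1 h).1 c
    · simp

theorem exists_preimage_of_acyclic {U : Set α} (h : ∀ n, Van k U n) {z : Finset α →₀ k}
    (hz : projCh k U z = z) (h0 : bd k α z = 0) :
    ∃ w, bd k α (projCh k U w) = z := by
  have hn : ∀ n, ∃ w, bd k α (projCh k U w) = level k α n z := by
    intro n
    have hm : level k α n z ∈ CC k U n := by rw [← hz]; exact level_projCh_mem U n z
    have hb : bd k α (level k α n z) = 0 := by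
      rcases n with _ | m
      · exact bd_CC_zero hm
      · rw [← level_bd, h0, map_zero]
    obtain ⟨w, hw, e⟩ := h n _ hm hb
    exact ⟨w, by rw [projCh_of_mem_CC hw, e]⟩
  choose w hw using hn
  refine ⟨∑ n ∈ Finset.range (Fintype.card α + 1), w n, ?_⟩
  simp only [map_sum, hw, sum_level]

theorem exists_retraction {V : Type*} [AddCommGroup V] [Module k V] (p : Submodule k V) :
    ∃ q : V →ₗ[k] p, q ∘ₗ p.subtype = LinearMap.id :=
  LinearMap.exists_leftInverse_of_injective p.subtype p.ker_subtype

/-- A contracting homotopy for an acyclic chain complex. -/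
theorem exists_homotopy {U : Set α} (h : ∀ n, Van k U n) :
    ∃ H : (Finset α →₀ k) →ₗ[k] (Finset α →₀ k),
      (bd k α ∘ₗ projCh k U) ∘ₗ H + H ∘ₗ (bd k α ∘ₗ projCh k U) = projCh k U := by
  set P := projCh k U with hP
  set D := bd k α ∘ₗ P with hD
  have : Module.Free k (LinearMap.range D) := Module.Free.of_basis (Module.Basis.ofVectorSpace k (LinearMap.range D))
  have : Module.Projective k (LinearMap.range D) := Module.Projective.of_free
  obtain ⟨s, hs⟩ := LinearMap.exists_rightInverse_of_surjective D.rangeRestrict
    (LinearMap.range_rangeRestrict D)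
  obtain ⟨q, hq⟩ := exists_retraction (LinearMap.range D)
  set σ := P ∘ₗ s ∘ₗ q with hσ
  have hPP : ∀ c, P (P c) = P c := projCh_projCh U
  have hDP : ∀ c, D (P c) = D c := fun c => by simp only [hD, LinearMap.comp_apply, hPP]
  have hPD : ∀ c, P (D c) = D c := fun c => projCh_bd_projCh U c
  have hDD : ∀ c, D (D c) = 0 := fun c => by
    simp only [hD, LinearMap.comp_apply]
    rw [show P (bd k α (P c)) = bd k α (P c) from projCh_bd_projCh U c]
    exact bd_bd_projCh U c
  have hDσ : ∀ c, D (σ (D c)) = D c := fun c => by
    have e1 : q (D c) = D.rangeRestrict c := by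
      have := LinearMap.congr_fun hq (D.rangeRestrict c)
      simpa using this
    have e2 := LinearMap.congr_fun hs (D.rangeRestrict c)
    simp only [hσ, LinearMap.comp_apply, hDP, e1]
    simpa using congrArg Subtype.val e2
  refine ⟨σ ∘ₗ (P - σ ∘ₗ D), LinearMap.ext fun c => ?_⟩
  simp only [LinearMap.add_apply, LinearMap.comp_apply, LinearMap.sub_apply]
  have hu : P (P c - σ (D c)) = P c - σ (D c) := by
    rw [map_sub, hPP]; simp only [hσ, LinearMap.comp_apply, hPP]
  have hbu : bd k α (P c - σ (D c)) = 0 := by
    calc bd k α (P c - σ (D c)) = D (P c - σ (D c)) := by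
          conv_lhs => rw [← hu]
          rfl
      _ = 0 := by rw [map_sub, hDP, hDσ, sub_self]
  obtain ⟨w, hw⟩ := exists_preimage_of_acyclic h hu hbu
  have hw' : D w = P c - σ (D c) := hw
  rw [hPD, hDD, map_zero, sub_zero, ← hw', hDσ, hw']
  abel

/-- The signed permutation operator induced by an automorphism. -/
def signedPush (k : Type*) [Field k] (g : α ≃o α) :
    (Finset α →₀ k) →ₗ[k] (Finset α →₀ k) :=
  Finsupp.linearCombination k (fun s => Finsupp.single (s.image g) ((-1 : k) ^ s.card))

theorem signedPush_single (g : α ≃o α) (s : Finset α) (c : k) :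
    signedPush k g (Finsupp.single s c) =
      Finsupp.single (s.image g) (c * (-1 : k) ^ s.card) := by
  simp [signedPush]

theorem bd_signedPush (g : α ≃o α) (z : Finset α →₀ k) :
    bd k α (signedPush k g z) = - signedPush k g (bd k α z) := by
  induction z using Finsupp.induction_linear with
  | zero => simp
  | add x y hx hy => simp only [map_add, hx, hy, neg_add]
  | single s c =>
    rw [signedPush_single, bd_single, bd_single, map_sum, ← Finset.sum_neg_distrib,
      Finset.sum_image (g.injective.injOn)]
    refine Finset.sum_congr rfl fun a ha => ?_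
    rw [signedPush_single, ← Finsupp.single_neg, Finset.image_erase g.injective]
    congr 1
    have hb : below (s.image g) (g a) = below s a := by
      unfold below
      rw [Finset.filter_image, Finset.card_image_of_injective _ g.injective]
      simp [g.lt_iff_lt]
    rw [hb, ← Finset.card_erase_add_one ha, pow_succ]
    ring

theorem below_lt_of_lt {s : Finset α} {a b : α} (ha : a ∈ s) (h : a < b) :
    below s a < below s b := by
  refine Finset.card_lt_card ((Finset.ssubset_iff_of_subset ?_).2 ⟨a, ?_, ?_⟩)
  · intro x hx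
    simp only [Finset.mem_filter] at hx ⊢
    exact ⟨hx.1, hx.2.trans h⟩
  · simp [ha, h]
  · simp

theorem fixed_pointwise {g : α ≃o α} {s : Finset α} (hs : IsChain (· ≤ ·) (s : Set α))
    (h : s.image g = s) {a : α} (ha : a ∈ s) : g a = a := by
  have hga : g a ∈ s := h ▸ Finset.mem_image_of_mem g ha
  have hb : below s (g a) = below s a := by
    conv_lhs => rw [← h]
    unfold below
    rw [Finset.filter_image, Finset.card_image_of_injective _ g.injective]
    simp [g.lt_iff_lt]
  by_contra hne
  rcases hs hga ha hne with h' | h'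
  · exact (below_lt_of_lt hga (lt_of_le_of_ne h' hne)).ne hb
  · exact (below_lt_of_lt ha (lt_of_le_of_ne h' (Ne.symm hne))).ne hb.symm

/-- The Lefschetz number of an automorphism of an acyclic order complex vanishes. -/
theorem chi_fixed_eq_zero [CharZero k] {U : Set α} (h : ∀ n, Van k U n) (g : α ≃o α)
    (hg : ∀ a, g a ∈ U ↔ a ∈ U) : Chi {a | a ∈ U ∧ g a = a} = 0 := by
  obtain ⟨H, hH⟩ := exists_homotopy h
  set P := projCh k U with hP
  set D := bd k α ∘ₗ P with hD
  set G := signedPush k g with hG
  have hPG : ∀ c, P (G c) = G (P c) := by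
    intro c
    induction c using Finsupp.induction_linear with
    | zero => simp
    | add x y hx hy => simp only [map_add, hx, hy]
    | single s c =>
      have hiff : s.image g ∈ allChains U ↔ s ∈ allChains U := by
        simp only [mem_allChains, Finset.coe_image]
        constructor
        · rintro ⟨h1, h2⟩
          refine ⟨fun a ha b hb hne => ?_, fun a ha => (hg a).1 (h2 ⟨a, ha, rfl⟩)⟩
          have := h1 ⟨a, ha, rfl⟩ ⟨b, hb, rfl⟩ (g.injective.ne hne)
          simpa using this
        · rintro ⟨h1, h2⟩
          refine ⟨?_, ?_⟩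
          · rintro _ ⟨a, ha, rfl⟩ _ ⟨b, hb, rfl⟩ hne
            have := h1 ha hb (fun e => hne (e ▸ rfl))
            simpa using this
          · rintro _ ⟨a, ha, rfl⟩; exact (hg a).2 (h2 ha)
      by_cases hs : s ∈ allChains U
      · rw [hG, signedPush_single, hP, projCh_single, projCh_single, if_pos hs,
          if_pos (hiff.2 hs), signedPush_single]
      · rw [hG, signedPush_single, hP, projCh_single, projCh_single, if_neg hs,
          if_neg (mt hiff.1 hs), map_zero]
  have hanti : D ∘ₗ G = - (G ∘ₗ D) := LinearMap.ext fun c => by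
    change bd k α (P (G c)) = -(G (bd k α (P c)))
    rw [hPG]
    exact bd_signedPush g _
  have htr : LinearMap.trace k _ (G ∘ₗ P) = 0 := by
    clear_value D
    have e : G ∘ₗ P = (G ∘ₗ D) ∘ₗ H + (G ∘ₗ H) ∘ₗ D := by
      rw [← hH, LinearMap.comp_add, LinearMap.comp_assoc, LinearMap.comp_assoc]
    have e2 : LinearMap.trace k _ ((G ∘ₗ H) ∘ₗ D) = LinearMap.trace k _ (D ∘ₗ (G ∘ₗ H)) :=
      LinearMap.trace_comp_comm' _ _
    have e3 : D ∘ₗ (G ∘ₗ H) = -((G ∘ₗ D) ∘ₗ H) :=
      LinearMap.ext fun c => LinearMap.congr_fun hanti (H c)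
    rw [e, map_add, e2, e3]
    exact (congrArg (_ + ·) (map_neg (LinearMap.trace k (Finset α →₀ k)) _)).trans
      (add_neg_cancel _)
  rw [LinearMap.trace_eq_matrix_trace k Finsupp.basisSingleOne] at htr
  have hdiag : ∀ s : Finset α,
      LinearMap.toMatrix Finsupp.basisSingleOne Finsupp.basisSingleOne (G ∘ₗ P) s s =
        if s ∈ allChains {a | a ∈ U ∧ g a = a} then (-1 : k) ^ s.card else 0 := by
    intro s
    rw [LinearMap.toMatrix_apply, Finsupp.basisSingleOne_repr, Finsupp.coe_basisSingleOne]
    simp only [LinearMap.comp_apply, LinearEquiv.refl_apply]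
    by_cases hs : s ∈ allChains {a | a ∈ U ∧ g a = a}
    · obtain ⟨h1, h2⟩ := mem_allChains.1 hs
      have himg : s.image g = s :=
        (Finset.image_congr (fun a ha => (h2 ha).2)).trans Finset.image_id
      rw [if_pos hs, hP, projCh_single,
        if_pos (mem_allChains.2 ⟨h1, fun a ha => (h2 ha).1⟩), hG, signedPush_single, himg,
        Finsupp.single_eq_same, one_mul]
    · rw [if_neg hs, hP, projCh_single]
      split_ifs with hsU
      · rw [hG, signedPush_single, Finsupp.single_eq_of_ne]
        intro e
        obtain ⟨h1, h2⟩ := mem_allChains.1 hsU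
        exact hs (mem_allChains.2 ⟨h1, fun a ha => ⟨h2 ha, fixed_pointwise h1 e.symm ha⟩⟩)
      · simp
  rw [Matrix.trace] at htr
  simp only [Matrix.diag_apply, hdiag, ← Finset.sum_filter, Finset.filter_univ_mem] at htr
  have : ((Chi {a | a ∈ U ∧ g a = a} : ℤ) : k) = 0 := by
    simp only [Chi, Int.cast_sum, Int.cast_pow, Int.cast_neg, Int.cast_one]
    exact htr
  exact_mod_cast this

/-- Euler characteristics modulo `q` only see the fixed points of a `q`-group. -/
theorem chi_modEq_fixed {q : ℕ} [Fact q.Prime] {Q : Type*} [Group Q] [Finite Q]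
    (hQ : IsPGroup q Q) [MulAction Q α] (hmono : ∀ (x : Q) (a b : α), a ≤ b → x • a ≤ x • b)
    {U : Set α} (hU : ∀ (x : Q), ∀ a ∈ U, x • a ∈ U) :
    ((Chi U : ℤ) : ZMod q) = ((Chi {a | a ∈ U ∧ ∀ x : Q, x • a = a} : ℤ) : ZMod q) := by
  set U' : Set α := {a | a ∈ U ∧ ∀ x : Q, x • a = a} with hU'
  let T : ℕ → Type _ := fun n => {s : Finset α // s ∈ allChains U ∧ s.card = n}
  have hact : ∀ (x : Q) (s : Finset α), s ∈ allChains U →
      s.image (x • ·) ∈ allChains U := by
    intro x s hs
    obtain ⟨h1, h2⟩ := mem_allChains.1 hs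
    refine mem_allChains.2 ⟨?_, ?_⟩
    · rw [Finset.coe_image]
      rintro _ ⟨a, ha, rfl⟩ _ ⟨b, hb, rfl⟩ hne
      rcases h1 ha hb (fun e => hne (e ▸ rfl)) with h | h
      · exact Or.inl (hmono x a b h)
      · exact Or.inr (hmono x b a h)
    · rw [Finset.coe_image]; rintro _ ⟨a, ha, rfl⟩; exact hU x a (h2 ha)
  let oi : Q → (α ≃o α) := fun x =>
    { toEquiv := MulAction.toPerm x
      map_rel_iff' := fun {a b} => ⟨fun h => by
        have := hmono x⁻¹ _ _ h
        simpa using this, hmono x a b⟩ }
  have key : ∀ n, (((allChains U).filter (fun s => s.card = n)).card : ZMod q) =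
      (((allChains U').filter (fun s => s.card = n)).card : ZMod q) := by
    intro n
    let inst : MulAction Q (T n) :=
      { smul := fun x s => ⟨s.1.image (x • ·), hact x _ s.2.1, by
          rw [Finset.card_image_of_injective _ (MulAction.injective x), s.2.2]⟩
        one_smul := fun s => Subtype.ext
          (by change s.1.image (fun a => (1 : Q) • a) = s.1; simp)
        mul_smul := fun x y s => Subtype.ext (by
          change s.1.image (fun a => (x * y) • a) = (s.1.image (y • ·)).image (x • ·)
          rw [Finset.image_image]; simp [Function.comp_def, mul_smul]) }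
    have e := hQ.card_modEq_card_fixedPoints (T n)
    rw [← ZMod.natCast_eq_natCast_iff] at e
    have e1 : Nat.card (T n) = ((allChains U).filter (fun s => s.card = n)).card := by
      rw [← Nat.card_eq_finsetCard]
      exact Nat.card_congr (Equiv.subtypeEquivRight (fun s => by simp))
    have e2 : Nat.card (MulAction.fixedPoints Q (T n)) =
        ((allChains U').filter (fun s => s.card = n)).card := by
      rw [← Nat.card_eq_finsetCard]
      refine Nat.card_congr
        { toFun := fun s => ⟨s.1.1, ?_⟩
          invFun := fun s => ⟨⟨s.1, ?_, (Finset.mem_filter.1 s.2).2⟩, ?_⟩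
          left_inv := fun s => rfl
          right_inv := fun s => rfl }
      · refine Finset.mem_filter.2 ⟨mem_allChains.2 ⟨(mem_allChains.1 s.1.2.1).1,
          fun a ha => ⟨(mem_allChains.1 s.1.2.1).2 ha, fun x => ?_⟩⟩, s.1.2.2⟩
        exact fixed_pointwise (g := oi x) (mem_allChains.1 s.1.2.1).1
          (congrArg Subtype.val (s.2 x)) ha
      · obtain ⟨h1, h2⟩ := mem_allChains.1 (Finset.mem_filter.1 s.2).1
        exact mem_allChains.2 ⟨h1, fun a ha => (h2 ha).1⟩
      · intro x
        obtain ⟨h1, h2⟩ := mem_allChains.1 (Finset.mem_filter.1 s.2).1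
        exact Subtype.ext
          ((Finset.image_congr (fun a ha => (h2 ha).2 x)).trans Finset.image_id)
    rw [e1, e2] at e
    exact e
  have expand : ∀ V : Set α, ((Chi V : ℤ) : ZMod q) =
      ∑ n ∈ Finset.range (Fintype.card α + 1),
        (((allChains V).filter (fun s => s.card = n)).card : ZMod q) * (-1) ^ n := by
    intro V
    simp only [Chi, Int.cast_sum, Int.cast_pow, Int.cast_neg, Int.cast_one]
    rw [← Finset.sum_fiberwise_of_maps_to (g := Finset.card)
      (t := Finset.range (Fintype.card α + 1))
      (fun s _ => Finset.mem_range.2 (Nat.lt_succ_of_le (Finset.card_le_univ s)))]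
    refine Finset.sum_congr rfl fun n _ => ?_
    rw [Finset.sum_congr rfl (fun s hs => by rw [(Finset.mem_filter.1 hs).2]),
      Finset.sum_const, nsmul_eq_mul]
  rw [expand, expand]
  exact Finset.sum_congr rfl fun n _ => by rw [key n]

/-- Evaluation of `Chi` by the Moebius recursion. -/
theorem chi_eq_sum {U : Set α} (μ : α → ℤ)
    (hμ : ∀ x ∈ U, μ x + 1 + ∑ y ∈ Finset.univ.filter (fun y => y ∈ U ∧ y < x), μ y = 0) :
    Chi U = 1 + ∑ x ∈ Finset.univ.filter (fun x => x ∈ U), μ x := by
  set U0 := U with hU0
  suffices hmain : ∀ (N : ℕ) (V : Set α), (Finset.univ.filter (fun x => x ∈ V)).card = N → V ⊆ U0 →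
      (∀ x ∈ V, ∀ y ∈ U0, y < x → y ∈ V) →
      Chi V = 1 + ∑ x ∈ Finset.univ.filter (fun x => x ∈ V), μ x from
    hmain _ U rfl subset_rfl (fun x _ y hy _ => hy)
  intro N
  induction N using Nat.strong_induction_on with
  | _ N ih =>
    intro V hN hVU hdown
    have hdec : allChains V = insert ∅ ((Finset.univ.filter (fun x => x ∈ V)).biUnion
        (fun x => (allChains {y | y ∈ V ∧ y < x}).image (insert x))) := by
      ext s
      simp only [Finset.mem_insert, Finset.mem_biUnion, Finset.mem_filter, Finset.mem_univ,
        true_and, Finset.mem_image, mem_allChains]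
      constructor
      · rintro ⟨h1, h2⟩
        by_cases hs : s = ∅
        · exact Or.inl hs
        obtain ⟨x, hx, hmax⟩ := s.exists_maximal (Finset.nonempty_iff_ne_empty.2 hs)
        refine Or.inr ⟨x, h2 hx, s.erase x, ⟨h1.mono (by
          intro y hy; exact (Finset.mem_erase.1 hy).2), ?_⟩, Finset.insert_erase hx⟩
        intro y hy
        obtain ⟨hne, hy⟩ := Finset.mem_erase.1 hy
        refine ⟨h2 hy, ?_⟩
        rcases h1 hy hx hne with h | h
        · exact lt_of_le_of_ne h hne
        · exact lt_of_le_of_ne (hmax hy h) hne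
      · rintro (rfl | ⟨x, hx, t, ⟨h1, h2⟩, rfl⟩)
        · simp [IsChain]
        · refine ⟨?_, ?_⟩
          · rw [Finset.coe_insert]
            exact h1.insert fun b hb _ => Or.inr (h2 hb).2.le
          · rw [Finset.coe_insert]
            exact Set.insert_subset hx fun y hy => (h2 hy).1
    have hdisj : ((Finset.univ.filter (fun x => x ∈ V)) : Set α).PairwiseDisjoint
        (fun x => (allChains {y | y ∈ V ∧ y < x}).image (insert x)) := by
      intro x _ x' _ hne
      rw [Function.onFun, Finset.disjoint_left]
      simp only [Finset.mem_image, mem_allChains]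
      rintro s ⟨t, ⟨_, ht⟩, rfl⟩ ⟨t', ⟨_, ht'⟩, e⟩
      have hx' : x' ∈ insert x t := e ▸ Finset.mem_insert_self x' t'
      have hx : x ∈ insert x' t' := e.symm ▸ Finset.mem_insert_self x t
      simp only [Finset.mem_insert, hne, Ne.symm hne, false_or] at hx hx'
      exact lt_asymm (ht hx').2 (ht' hx).2
    rw [Chi, hdec, Finset.sum_insert, Finset.sum_biUnion hdisj]
    · simp only [Finset.card_empty, pow_zero]
      congr 1
      refine Finset.sum_congr rfl fun x hx => ?_
      have hxV : x ∈ V := (Finset.mem_filter.1 hx).2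
      have hin : ∀ t ∈ allChains {y | y ∈ V ∧ y < x}, x ∉ t :=
        fun t ht hxt => lt_irrefl x ((mem_allChains.1 ht).2 hxt).2
      rw [Finset.sum_image (fun t ht t' ht' e => by
        have := congrArg (fun u => Finset.erase u x) e
        simpa [Finset.erase_insert (hin t ht), Finset.erase_insert (hin t' ht')] using this)]
      have hstep : ∀ t ∈ allChains {y | y ∈ V ∧ y < x},
          ((-1 : ℤ) ^ (insert x t).card) = -((-1) ^ t.card) := by
        intro t ht
        rw [Finset.card_insert_of_notMem (hin t ht), pow_succ]; ring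
      rw [Finset.sum_congr rfl hstep, Finset.sum_neg_distrib]
      have hlt : (Finset.univ.filter (fun y => y ∈ {y | y ∈ V ∧ y < x})).card < N := by
        rw [← hN]
        refine Finset.card_lt_card ((Finset.ssubset_iff_of_subset ?_).2 ⟨x, hx, by simp⟩)
        intro y hy
        simp at hy ⊢
        exact hy.1
      have e := ih _ hlt {y | y ∈ V ∧ y < x} (by congr) (fun y hy => hVU hy.1)
        (fun y hy z hz hzy => ⟨hdown y hy.1 z hz hzy, hzy.trans hy.2⟩)
      rw [Chi] at e
      have hfe : ∑ y ∈ Finset.univ.filter (fun y => y ∈ U0 ∧ y < x), μ y =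
          ∑ y ∈ Finset.univ.filter (fun y => y ∈ {y | y ∈ V ∧ y < x}), μ y := by
        refine Finset.sum_congr ?_ (fun _ _ => rfl)
        ext y
        simp only [Finset.mem_filter, Finset.mem_univ, true_and, Set.mem_ofPred_eq]
        exact ⟨fun h => ⟨hdown x hxV y h.1 h.2, h.2⟩, fun h => ⟨hVU h.1, h.2⟩⟩
      rw [e]
      have := hμ x (hVU hxV)
      rw [hfe] at this
      have key : ∀ a b c : ℤ, a + 1 + b = 0 → c = b → -(1 + c) = a := by intros; omega
      refine key _ _ _ this ?_
      exact Finset.sum_congr (Finset.ext fun _ => by simp) fun _ _ => rfl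
    · simp only [Finset.mem_biUnion, Finset.mem_image, not_exists, not_and]
      intro x _ t _ e
      exact Finset.insert_ne_empty x t e

/-- Evaluation of `Chi` on a poset with its least element removed. -/
theorem chi_sdiff_bot {Y : Set α} {b : α} (hb : b ∈ Y) (hle : ∀ y ∈ Y, b ≤ y) (μ : α → ℤ)
    (h1 : μ b = 1)
    (hμ : ∀ x ∈ Y, x ≠ b → ∑ y ∈ Finset.univ.filter (fun y => y ∈ Y ∧ y ≤ x), μ y = 0) :
    Chi {y | y ∈ Y ∧ y ≠ b} = ∑ y ∈ Finset.univ.filter (fun y => y ∈ Y), μ y := by
  have hrec : ∀ x ∈ {y | y ∈ Y ∧ y ≠ b}, μ x + 1 +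
      ∑ y ∈ Finset.univ.filter (fun y => y ∈ {y | y ∈ Y ∧ y ≠ b} ∧ y < x), μ y = 0 := by
    rintro x ⟨hx, hxb⟩
    have e := hμ x hx hxb
    have hsplit : Finset.univ.filter (fun y => y ∈ Y ∧ y ≤ x) =
        insert x (insert b
          (Finset.univ.filter (fun y => y ∈ {y | y ∈ Y ∧ y ≠ b} ∧ y < x))) := by
      ext y
      simp only [Finset.mem_filter, Finset.mem_univ, true_and, Finset.mem_insert,
        Set.mem_ofPred_eq]
      constructor
      · rintro ⟨hy, hyx⟩
        by_cases h : y = x
        · exact Or.inl h
        by_cases h' : y = b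
        · exact Or.inr (Or.inl h')
        exact Or.inr (Or.inr ⟨⟨hy, h'⟩, lt_of_le_of_ne hyx h⟩)
      · rintro (rfl | rfl | ⟨⟨hy, _⟩, hyx⟩)
        · exact ⟨hx, le_rfl⟩
        · exact ⟨hb, hle x hx⟩
        · exact ⟨hy, hyx.le⟩
    rw [hsplit, Finset.sum_insert (by simp [hxb]), Finset.sum_insert (by simp), h1] at e
    linarith
  rw [chi_eq_sum μ (fun x hx => by convert hrec x hx)]
  have : Finset.univ.filter (fun y => y ∈ Y) =
      insert b (Finset.univ.filter (fun y => y ∈ {y | y ∈ Y ∧ y ≠ b})) := by
    ext y
    simp only [Finset.mem_filter, Finset.mem_univ, true_and, Finset.mem_insert,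
      Set.mem_ofPred_eq]
    exact ⟨fun h => (em (y = b)).imp_right (fun h' => ⟨h, h'⟩),
      fun h => h.elim (fun e => e ▸ hb) And.left⟩
  rw [this, Finset.sum_insert (by simp), h1]
  exact congrArg (1 + ·) (Finset.sum_congr (Finset.ext fun _ => by simp) fun _ _ => rfl)

end Vale.Agent.P240
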