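import Vale.Agent.P240.Choice

/-!
# The fixed points of the acting group on the link
-/

set_option linter.unusedSectionVars false

open scoped Classical

noncomputable section

namespace Vale.Agent.P240

/-- The Moebius function from the trivial subgroup. -/
def mu0 {X : Type*} [Group X] [Finite X] (U : Subgroup X) : ℤ :=
  if U = ⊥ then 1 else
    -∑ U' ∈ ((Set.toFinite {U' : Subgroup X | U' < U}).toFinset).attach,
      mu0 (U' : Subgroup X)
termination_by Nat.card U
decreasing_by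
  have h := (Set.Finite.mem_toFinset _).1 U'.2
  by_contra hle
  exact h.ne (Subgroup.eq_of_le_of_card_ge h.le (Nat.le_of_not_lt hle))

theorem sum_mu0 {X : Type*} [Group X] [Fintype (Subgroup X)] [Finite X] (M : Subgroup X) :
    ∑ U ∈ Finset.univ.filter (fun U : Subgroup X => U ≤ M), mu0 U =
      if M = ⊥ then 1 else 0 := by
  by_cases h : M = ⊥
  · subst h
    rw [if_pos rfl, show Finset.univ.filter (fun U : Subgroup X => U ≤ ⊥) = {⊥} by ext U; simp,
      Finset.sum_singleton, mu0, if_pos rfl]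
  · rw [if_neg h]
    have e : Finset.univ.filter (fun U : Subgroup X => U ≤ M) =
        insert M (Set.toFinite {U' : Subgroup X | U' < M}).toFinset := by
      ext U; simp [le_iff_eq_or_lt]
    rw [e, Finset.sum_insert (by simp)]
    conv_lhs => rw [mu0, if_neg h, Finset.sum_attach]
    ring

namespace CompSys

variable {X : Type*} [Group X] [Finite X] {K : Subgroup X} {ι : Type*} [Fintype ι]
  {A : ι → Type*} [∀ i, Group (A i)] [∀ i, Finite (A i)] (S : CompSys K A)
  (D : ∀ i, SepData (A i)) (xT : ∀ i, A i) {C : Subgroup X} {Z T : Finset ι}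

theorem centH0_of_fixes {g : X} (hf : ∀ i, S.Fix g i)
    (h : ∀ i, FixesData (D i).Q (D i).x (S.aut (hf i))) : S.CentH D xT ∅ g := by
  refine ⟨fun y hy => ?_, S.commute_phi _ fun i => ?_⟩
  · obtain ⟨f, hf', rfl⟩ := hy
    refine S.commute_phi f fun i => ?_
    have a := (mem_qsub D).1 hf' i
    simp only [Finset.notMem_empty, if_false] at a
    have e := S.aut_spec (hf i) (f i)
    rw [(h i).2.2 _ a, mul_inv_eq_iff_eq_mul] at e
    exact e
  · have e := S.aut_spec (hf i) (D i).x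
    rw [(h i).2.1, mul_inv_eq_iff_eq_mul] at e
    simpa [xf] using e

theorem L_inj {i l : ι} (h : S.L i = S.L l) : i = l := by
  obtain ⟨a, ha⟩ := S.exists_ne_one i
  exact S.L_disjoint ha (h ▸ ⟨a, rfl⟩)

theorem comm_of_fixesData {i : ι} {α β : MulAut (A i)} (hα : FixesData (D i).Q (D i).x α)
    (hβ : FixesData (D i).Q (D i).x β) : α * β = β * α := by
  by_cases h1 : α = 1
  · rw [h1, one_mul, mul_one]
  by_cases h2 : β = 1
  · rw [h2, one_mul, mul_one]
  rw [(D i).outer_unique _ _ hα hβ h1 h2]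

/-- An involution swapping two switched factors transports centralisation. -/
theorem cen_transport (hxT : GoodXT D xT) (hT : S.GoodT D xT Z T) {e : X} (he2 : e * e = 1)
    (he : S.CentH D xT T e) {i l : ι} (hil : cj e (S.L i) = S.L l)
    {m : X} (hm : m ∈ S.M0 D xT) (hmi : S.Cen m i) : S.Cen m l := by
  set n0 := e * m * e⁻¹ with hn0
  have hmK := hm.1
  have hnK : n0 ∈ K := S.normK.conj_mem _ hmK e
  have hn2 : n0 * n0 = 1 := by
    rw [hn0, show e * m * e⁻¹ * (e * m * e⁻¹) = e * (m * m) * e⁻¹ by group, hm.2.1]; group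
  have hnF : ∀ k, S.Fix n0 k := by
    intro k
    obtain ⟨k', hk'⟩ := S.exists_perm e⁻¹ k
    rw [Fix, hn0, cj_mul, cj_mul, hk', S.fix0 D xT hm.2.2 k', ← hk', ← cj_mul, mul_inv_cancel,
      cj_one]
  have hout : ∀ k, k ∉ T → FixesData (D k).Q (D k).x (S.aut (hnF k)) := by
    intro k hk
    have hek := S.fix_of_cent D he.1 hk
    have fe := S.fixesData_of_cent D xT he.1 he.2 he2 hk
    have fm := S.fixesData0 D xT hm.2.2 hm.2.1 k
    have hconj : S.aut (hnF k) = S.aut hek * S.aut (S.fix0 D xT hm.2.2 k) * S.aut hek := by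
      refine S.aut_unique _ fun a => ?_
      rw [MulAut.mul_apply, MulAut.mul_apply, ← S.aut_spec hek, ← S.aut_spec (S.fix0 D xT hm.2.2 k),
        ← S.aut_spec hek, hn0, inv_eq_of_mul_eq_one_right he2,
        inv_eq_of_mul_eq_one_right hm.2.1]
      simp only [mul_inv_rev, inv_eq_of_mul_eq_one_right he2,
        inv_eq_of_mul_eq_one_right hm.2.1]
      group
    rw [hconj, comm_of_fixesData D fe fm, mul_assoc, fe.1, mul_one]
    exact fm
  have hadj : ∀ k, ∃ c : A k, FixesData (D k).Q (D k).x (MulAut.conj c * S.aut (hnF k)) ∧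
      (k ∉ T → c = 1) ∧ (S.aut (hnF k) = 1 → c = 1) := by
    intro k
    by_cases hk : k ∈ T ∧ S.aut (hnF k) ≠ 1
    · have h2 : S.aut (hnF k) * S.aut (hnF k) = 1 := by
        rw [← S.aut_mul (hnF k) (hnF k), S.aut_eq_one_iff]
        intro a; simp [hn2]
      obtain ⟨c, hc⟩ := (hxT.2 k (hT.outer k hk.1)).2.2 _ h2
      exact ⟨c, hc, fun h => absurd hk.1 h, fun h => absurd h hk.2⟩
    · refine ⟨1, ?_, fun _ => rfl, fun _ => rfl⟩
      rw [map_one, one_mul]
      by_cases hkT : k ∈ T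
      · have : S.aut (hnF k) = 1 := by by_contra h; exact hk ⟨hkT, h⟩
        rw [this]
        exact ⟨one_mul 1, rfl, fun q _ => rfl⟩
      · exact hout k hkT
  choose c hc hc1 hc2 using hadj
  set m' := S.φ c * n0 with hm'
  have hm'F : ∀ k, S.Fix m' k := fun k => S.fix_mul (S.fix_phi c k) (hnF k)
  have haut : ∀ k, S.aut (hm'F k) = MulAut.conj (c k) * S.aut (hnF k) := fun k => by
    rw [← S.aut_phi c k, ← S.aut_mul (S.fix_phi c k) (hnF k)]
  have hm'K : m' ∈ K := K.mul_mem (S.le ⟨c, rfl⟩) hnK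
  have hm'2 : m' * m' = 1 := S.eq_one_of_cen (K.mul_mem hm'K hm'K) fun k => by
    rw [← S.aut_eq_one_iff (S.fix_mul (hm'F k) (hm'F k)), S.aut_mul (hm'F k) (hm'F k), haut k]
    exact (hc k).1
  have hm'c : S.CentH D xT ∅ m' :=
    S.centH0_of_fixes D xT hm'F fun k => by rw [haut k]; exact hc k
  have hm'M : m' ∈ S.M0 D xT := ⟨hm'K, hm'2, hm'c⟩
  obtain ⟨s, hsZ, hsT, hs⟩ := hT.spans
  have heq : m' = m := by
    have := hs (m' * m) ((S.M0 D xT).mul_mem hm'M hm) fun k hk => ?_
    · rw [mul_eq_one_iff_eq_inv, inv_eq_of_mul_eq_one_right hm.2.1] at this; exact this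
    have hkT : k ∉ T := Finset.disjoint_left.1 hsT hk
    have hek := S.fix_of_cent D he.1 hkT
    have fe := S.fixesData_of_cent D xT he.1 he.2 he2 hkT
    have fm := S.fixesData0 D xT hm.2.2 hm.2.1 k
    rw [← S.aut_eq_one_iff (S.fix_mul (hm'F k) (S.fix0 D xT hm.2.2 k)),
      S.aut_mul (hm'F k) (S.fix0 D xT hm.2.2 k), haut k, hc1 k hkT, map_one, one_mul]
    have hconj : S.aut (hnF k) = S.aut hek * S.aut (S.fix0 D xT hm.2.2 k) * S.aut hek := by
      refine S.aut_unique _ fun a => ?_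
      rw [MulAut.mul_apply, MulAut.mul_apply, ← S.aut_spec hek, ← S.aut_spec (S.fix0 D xT hm.2.2 k),
        ← S.aut_spec hek, hn0]
      simp only [mul_inv_rev, inv_eq_of_mul_eq_one_right he2,
        inv_eq_of_mul_eq_one_right hm.2.1]
      group
    rw [hconj, comm_of_fixesData D fe fm, mul_assoc (S.aut (S.fix0 D xT hm.2.2 k)), fe.1, mul_one]
    exact fm.1
  have hn0l : S.aut (hnF l) = 1 := by
    rw [S.aut_eq_one_iff]
    intro a
    obtain ⟨b, hb⟩ : e⁻¹ * S.j l a * e ∈ S.L i := by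
      rw [← mem_cj, hil]; exact ⟨a, rfl⟩
    have e1 : S.j l a = e * S.j i b * e⁻¹ := by rw [hb]; group
    rw [e1, hn0]
    calc e * m * e⁻¹ * (e * S.j i b * e⁻¹) = e * (m * S.j i b) * e⁻¹ := by group
      _ = e * (S.j i b * m) * e⁻¹ := by rw [hmi b]
      _ = e * S.j i b * e⁻¹ * (e * m * e⁻¹) := by group
  rw [← heq, ← S.aut_eq_one_iff (hm'F l), haut l, hc2 l hn0l, hn0l, map_one, one_mul]

/-- An involution centralising the acting group is in the unswitched situation. -/
theorem centH0_of_invol (hxT : GoodXT D xT) (hT : S.GoodT D xT Z T) {e : X} (he2 : e * e = 1)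
    (he : S.CentH D xT T e) : S.CentH D xT ∅ e ∧ ∀ i ∈ T, S.Cen e i := by
  have hfix : ∀ i, S.Fix e i := by
    intro i
    obtain ⟨l, hl⟩ := S.exists_perm e i
    by_cases hiT : i ∈ T
    · have hback : cj e (S.L l) = S.L i := by rw [← hl, ← cj_mul, he2, cj_one]
      by_cases hlT : l ∈ T
      · have := hT.separate i hiT l hlT fun m hm =>
          ⟨S.cen_transport D xT hxT hT he2 he hl hm, S.cen_transport D xT hxT hT he2 he hback hm⟩
        subst this
        exact hl
      · have := S.L_inj ((S.fix_of_cent D he.1 hlT).symm.trans hback)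
        exact absurd (this ▸ hiT) hlT
    · exact S.fix_of_cent D he.1 hiT
  have hcen : ∀ i ∈ T, S.Cen e i := by
    intro i hi
    rw [← S.aut_eq_one_iff (hfix i)]
    refine (hxT.2 i (hT.outer i hi)).2.1 _ ?_ ?_
    · rw [← S.aut_mul (hfix i) (hfix i), S.aut_eq_one_iff]
      intro a; simp [he2]
    · have := S.coord_of_fix (hfix i) (f := xf D xT T) (f' := xf D xT T)
        (by rw [show e * S.φ (xf D xT T) = S.φ (xf D xT T) * e from he.2, mul_assoc,
          mul_inv_cancel, mul_one])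
      simpa [xf, hi] using this
  exact ⟨S.centH0_of_centH D xT he hcen, hcen⟩

theorem Hg_odd (hxT : GoodXT D xT) : Odd (Nat.card (S.Hg D xT T)) := by
  have hcomm : ∀ (a : S.Qg D T) (b : Subgroup.zpowers (S.xg D xT T)),
      Commute ((S.Qg D T).subtype a) ((Subgroup.zpowers (S.xg D xT T)).subtype b) := fun a b => by
    show Commute (a : X) (b : X)
    obtain ⟨k, hk⟩ := Subgroup.mem_zpowers_iff.1 b.2
    rw [← hk]
    exact ((show Commute (a : X) (S.xg D xT T) from
      (S.xg_comm_Qg D xT a.2).symm).zpow_right k)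
  set F := MonoidHom.noncommCoprod (S.Qg D T).subtype
    (Subgroup.zpowers (S.xg D xT T)).subtype hcomm with hF
  have hr : F.range = S.Hg D xT T := by
    rw [hF, MonoidHom.noncommCoprod_range, Subgroup.range_subtype, Subgroup.range_subtype]; rfl
  have hdvd : Nat.card (S.Hg D xT T) ∣
      Nat.card (S.Qg D T) * Nat.card (Subgroup.zpowers (S.xg D xT T)) := by
    rw [← hr, ← Nat.card_prod]
    exact Subgroup.card_range_dvd F
  refine Odd.of_dvd_nat (Nat.odd_mul.2 ⟨?_, ?_⟩) hdvd
  · refine Odd.of_dvd_nat ?_ (Subgroup.card_map_dvd (qsub D T) S.φ)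
    have h3 : IsPGroup 3 (qsub D T) := by
      intro f
      have h : ∀ i, ∃ k : ℕ, ((f : Π i, A i) i) ^ 3 ^ k = 1 := by
        intro i
        have a := (mem_qsub D).1 f.2 i
        split_ifs at a with hi
        · exact ⟨0, by simp [a]⟩
        · obtain ⟨k, hk⟩ := (D i).Q_three ⟨_, a⟩
          exact ⟨k, by simpa using congrArg Subtype.val hk⟩
      choose k hk using h
      refine ⟨Finset.univ.sup k, Subtype.ext (funext fun i => ?_)⟩
      obtain ⟨d, hd⟩ := Nat.exists_eq_add_of_le (Finset.le_sup (f := k) (Finset.mem_univ i))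
      simp [hd, pow_add, pow_mul, hk i]
    have : Fact (Nat.Prime 3) := ⟨Nat.prime_three⟩
    obtain ⟨n, hn⟩ := IsPGroup.iff_card.1 h3
    rw [hn]; exact Odd.pow (by decide)
  · rw [Nat.card_zpowers]
    have hd : orderOf (S.xg D xT T) ∣ ∏ i, orderOf (xf D xT T i) := by
      refine orderOf_dvd_of_pow_eq_one ?_
      rw [xg, ← map_pow, show xf D xT T ^ (∏ i, orderOf (xf D xT T i)) = 1 from funext fun i => ?_,
        map_one]
      rw [Pi.pow_apply, Pi.one_apply, ← orderOf_dvd_iff_pow_eq_one]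
      exact Finset.dvd_prod_of_mem _ (Finset.mem_univ i)
    refine Odd.of_dvd_nat ?_ hd
    refine Finset.prod_induction _ Odd (fun a b ha hb => ha.mul hb) odd_one fun i _ => ?_
    simp only [xf]
    split_ifs
    · exact hxT.1 i
    · exact (D i).x_odd

/-- The poset of invariant elementary abelian subgroups containing `C`. -/
def fixedSet (C : Subgroup X) (T : Finset ι) : Set (Subgroup X) :=
  {E | IsElem 2 E ∧ C ≤ E ∧ cj (S.xg D xT T) E = E ∧ ∀ q ∈ S.Qg D T, cj q E = E}

theorem cj_Hg {E : Subgroup X} (hE : E ∈ S.fixedSet D xT C T) {h : X} (hh : h ∈ S.Hg D xT T) :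
    cj h E = E := by
  let P : Subgroup X :=
    { carrier := {g | cj g E = E}
      one_mem' := cj_one E
      mul_mem' := fun {a b} ha hb => by
        show cj (a * b) E = E
        rw [cj_mul, show cj b E = E from hb, show cj a E = E from ha]
      inv_mem' := fun {a} ha => by
        show cj a⁻¹ E = E
        conv_lhs => rw [← show cj a E = E from ha]
        rw [← cj_mul, inv_mul_cancel, cj_one] }
  have : S.Hg D xT T ≤ P :=
    sup_le (fun q hq => hE.2.2.2 q hq) ((Subgroup.zpowers_le).2 hE.2.2.1)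
  exact this hh

theorem exists_centralized {E : Subgroup X} (hxT : GoodXT D xT) (hE : E ∈ S.fixedSet D xT C T)
    {e : X} (he : e ∈ E) :
    ∃ c ∈ E, S.CentH D xT T c ∧ e * c⁻¹ ∈ E ⊓ S.φ.range := by
  have hcomm : IsMulCommutative E := ⟨⟨fun a b => Subtype.ext (hE.1.1 _ a.2 _ b.2)⟩⟩
  let : CommGroup E := { (inferInstance : Group E) with mul_comm := hcomm.is_comm.comm }
  let : Fintype (S.Hg D xT T) := Fintype.ofFinite _
  have hmem : ∀ (h : S.Hg D xT T) (y : E), (h : X) * y * (h : X)⁻¹ ∈ E := by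
    intro h y
    have h' : (h : X) * y * (h : X)⁻¹ ∈ cj (h : X) E := by rw [mem_cj]; simp [mul_assoc]
    rwa [S.cj_Hg D xT hE h.2] at h'
  let act' : S.Hg D xT T → E →* E := fun h =>
    { toFun := fun y => ⟨(h : X) * y * (h : X)⁻¹, hmem h y⟩
      map_one' := by apply Subtype.ext; simp
      map_mul' := fun a b => by apply Subtype.ext; simp [mul_assoc] }
  set c : E := ∏ h, act' h ⟨e, he⟩ with hc
  have hfix : ∀ g : S.Hg D xT T, (g : X) * c = c * g := by
    intro g
    have e1 : act' g c = c := by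
      rw [hc, map_prod]
      exact Fintype.prod_equiv (Equiv.mulLeft g) _ _ fun h => by
        apply Subtype.ext; simp [act', mul_assoc]
    have := congrArg Subtype.val e1
    simp only [act', MonoidHom.coe_mk, OneHom.coe_mk, mul_inv_eq_iff_eq_mul] at this
    exact this
  refine ⟨c, c.2, ⟨fun h hh => (hfix ⟨h, Subgroup.mem_sup_left hh⟩).symm,
    (hfix ⟨_, Subgroup.mem_sup_right (Subgroup.mem_zpowers _)⟩).symm⟩, ?_⟩
  obtain ⟨k, hk⟩ := S.Hg_odd D xT (T := T) hxT
  have hpow : (⟨e, he⟩ : E) ^ (Nat.card (S.Hg D xT T)) = ⟨e, he⟩ := by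
    rw [hk, pow_succ, pow_mul]
    have : (⟨e, he⟩ : E) ^ 2 = 1 := Subtype.ext (by simpa using hE.1.2 e he)
    rw [this, one_pow, one_mul]
  have hdec : (⟨e, he⟩ : E) * c⁻¹ = ∏ h, (act' h ⟨e, he⟩ * (⟨e, he⟩ : E)⁻¹)⁻¹ := by
    rw [Finset.prod_inv_distrib, Finset.prod_mul_distrib, Finset.prod_const, ← hc,
      Finset.card_univ, inv_pow, ← Nat.card_eq_fintype_card, hpow, mul_inv_rev, inv_inv]
  refine ⟨E.mul_mem he (E.inv_mem c.2), ?_⟩
  have h1 : ((⟨e, he⟩ : E) * c⁻¹ : E) ∈ S.φ.range.subgroupOf E := by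
    rw [hdec]
    refine Subgroup.prod_mem _ fun h _ => Subgroup.inv_mem _ ?_
    rw [Subgroup.mem_subgroupOf]
    show (h : X) * e * (h : X)⁻¹ * e⁻¹ ∈ S.φ.range
    have hh : (h : X) ∈ S.φ.range := by
      have : S.Hg D xT T ≤ S.φ.range :=
        sup_le (Subgroup.map_le_range _ _) ((Subgroup.zpowers_le).2 ⟨_, rfl⟩)
      exact this h.2
    rw [show (h : X) * e * (h : X)⁻¹ * e⁻¹ = (h : X) * (e * (h : X)⁻¹ * e⁻¹) by group]
    exact S.φ.range.mul_mem hh (S.norm.conj_mem _ (S.φ.range.inv_mem hh) e)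
  rw [Subgroup.mem_subgroupOf] at h1
  exact h1

/-- Projection to one coordinate of an invariant subgroup. -/
theorem coord_mem {E : Subgroup X} (hxT : GoodXT D xT) (hT : S.GoodT D xT Z T)
    (hE : E ∈ S.fixedSet D xT C T) {f : Π i, A i} (hf : S.φ f ∈ E) (i : ι) :
    f i ∈ E.comap (S.j i) ∧ (i ∈ T → f i = 1) ∧
      (E.comap (S.j i) = ⊥ ∨ E.comap (S.j i) ∈ (D i).states) := by
  set P : Subgroup (A i) := (E.comap S.φ).map (Pi.evalMonoidHom A i) with hP
  have hPel : IsElem 2 P := by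
    refine ⟨?_, ?_⟩
    · rintro _ ⟨g, hg, rfl⟩ _ ⟨g', hg', rfl⟩
      have := hE.1.1 _ hg _ hg'
      rw [← map_mul, ← map_mul] at this
      exact congrFun (S.inj this) i
    · rintro _ ⟨g, hg, rfl⟩
      have := hE.1.2 _ hg
      rw [← map_pow, ← S.φ.map_one] at this
      exact congrFun (S.inj this) i
  have hPinv : ∀ y : Π i, A i, cj (S.φ y) E = E → cj (y i) P = P := by
    intro y hy
    have hle : ∀ y : Π i, A i, cj (S.φ y) E = E → cj (y i) P ≤ P := by
      intro y hy a ha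
      obtain ⟨g, hg, he⟩ := mem_cj.1 ha
      refine ⟨y * g * y⁻¹, ?_, ?_⟩
      · show S.φ (y * g * y⁻¹) ∈ E
        rw [← hy, mem_cj, map_mul, map_mul, map_inv]
        simpa [mul_assoc] using hg
      · show y i * g i * (y i)⁻¹ = a
        rw [show g i = (y i)⁻¹ * a * y i from he]; group
    refine le_antisymm (hle y hy) ?_
    have h' : cj (S.φ y⁻¹) E = E := by
      conv_lhs => rw [← hy]
      rw [← cj_mul, ← map_mul, inv_mul_cancel, map_one, cj_one]
    have := (cj (y i)).monotone (hle y⁻¹ h')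
    rwa [← cj_mul, Pi.inv_apply, mul_inv_cancel, cj_one] at this
  have hfP : f i ∈ P := ⟨f, hf, rfl⟩
  have hxP := hPinv (xf D xT T) hE.2.2.1
  by_cases hiT : i ∈ T
  · simp only [xf, if_pos hiT] at hxP
    have hbot := (hxT.2 i (hT.outer i hiT)).1 P hPel hxP
    have hcb : E.comap (S.j i) = ⊥ := by
      rw [eq_bot_iff, ← hbot]
      intro a ha
      exact ⟨Pi.mulSingle i a, ha, by simp⟩
    rw [hbot, Subgroup.mem_bot] at hfP
    exact ⟨by rw [hfP]; exact Subgroup.one_mem _, fun _ => hfP, Or.inl hcb⟩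
  simp only [xf, if_neg hiT] at hxP
  have hinvP : InvData (D i).Q (D i).x P := by
    refine ⟨hxP, fun q hq => ?_⟩
    have := hPinv (Pi.mulSingle i q) (hE.2.2.2 _ (S.j_mem_Qg D hiT hq))
    simpa using this
  have hsub : E.comap (S.j i) ≤ P := fun a ha => ⟨Pi.mulSingle i a, ha, by simp⟩
  have hcinv : InvData (D i).Q (D i).x (E.comap (S.j i)) := by
    have hle : ∀ y : Π i, A i, cj (S.φ y) E = E →
        cj (y i) (E.comap (S.j i)) = E.comap (S.j i) := by
      intro y hy
      ext a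
      rw [mem_cj, Subgroup.mem_comap, Subgroup.mem_comap]
      conv_rhs => rw [← hy, mem_cj]
      rw [j_apply, j_apply, ← map_inv, ← map_mul, ← map_mul]
      have : Pi.mulSingle i ((y i)⁻¹ * a * y i) = y⁻¹ * Pi.mulSingle i a * y := by
        funext l
        by_cases hl : l = i
        · subst hl; simp
        · simp [hl]
      rw [this]
    refine ⟨?_, fun q hq => ?_⟩
    · have := hle (xf D xT T) hE.2.2.1
      simpa [xf, hiT] using this
    · have := hle (Pi.mulSingle i q) (hE.2.2.2 _ (S.j_mem_Qg D hiT hq))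
      simpa using this
  rcases (D i).states_complete _ (hPel.mono hsub) hcinv with hc | hc
  · rcases (D i).states_complete P hPel hinvP with hp | hp
    · rw [hp, Subgroup.mem_bot] at hfP
      exact ⟨by rw [hfP]; exact Subgroup.one_mem _, fun h => absurd h hiT, Or.inl hc⟩
    · exfalso
      obtain ⟨-, -, -, q, hq, w, hw, hne⟩ := (D i).states_spec P hp
      obtain ⟨g, hg, rfl⟩ := hw
      have hmem : S.j i (q * g i * q⁻¹ * (g i)⁻¹) ∈ E := by
        have e1 : S.j i q * S.φ g * (S.j i q)⁻¹ ∈ E := by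
          rw [← hE.2.2.2 _ (S.j_mem_Qg D hiT hq), mem_cj]
          simpa [mul_assoc] using hg
        have e2 := E.mul_mem e1 (E.inv_mem hg)
        convert e2 using 1
        simp only [j_apply, ← map_inv, ← map_mul]
        congr 1
        funext l
        by_cases hl : l = i
        · subst hl; simp
        · simp [hl]
      have h1 : q * g i * q⁻¹ * (g i)⁻¹ ∈ E.comap (S.j i) := hmem
      rw [hc, Subgroup.mem_bot, mul_inv_eq_one, mul_inv_eq_iff_eq_mul] at h1
      exact hne h1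
  · rcases (D i).states_complete P hPel hinvP with hp | hp
    · exact absurd (le_bot_iff.1 (hp ▸ hsub)) ((D i).states_spec _ hc).2.1
    · refine ⟨?_, fun h => absurd h hiT, Or.inr hc⟩
      rw [(D i).states_antichain _ hc _ hp hsub]
      exact hfP

theorem mem_of_coords {E : Subgroup X} {f : Π i, A i} (h : ∀ i, f i ∈ E.comap (S.j i)) :
    S.φ f ∈ E :=
  S.phi_induction (P := fun y => y ∈ E) E.one_mem (fun _ _ => E.mul_mem) f h

/-- The admissible states of each factor. -/
def choices (Z T : Finset ι) (i : ι) : Finset (Subgroup (A i)) :=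
  insert ⊥ (if i ∈ Z ∧ i ∉ T then (D i).states else ∅)

/-- The subgroup of `M0` centralising the factors in `R`. -/
def MR (R : Finset ι) : Subgroup X :=
  S.M0 D xT ⊓ Subgroup.centralizer {y | ∃ i ∈ R, y ∈ S.L i}

theorem mem_MR {R : Finset ι} {m : X} :
    m ∈ S.MR D xT R ↔ m ∈ S.M0 D xT ∧ ∀ i ∈ R, S.Cen m i := by
  rw [MR, Subgroup.mem_inf, Subgroup.mem_centralizer_iff]
  refine and_congr_right fun _ => ⟨fun h i hi a => (h _ ⟨i, hi, a, rfl⟩).symm, ?_⟩
  rintro h _ ⟨i, hi, a, rfl⟩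
  exact (h i hi a).symm

theorem MR_eq_bot {R : Finset ι} : S.MR D xT R = ⊥ ↔ S.Spans D xT R := by
  rw [Subgroup.eq_bot_iff_forall]
  exact ⟨fun h m hm hc => h m ((S.mem_MR D xT).2 ⟨hm, hc⟩),
    fun h m hm => h m ((S.mem_MR D xT).1 hm).1 ((S.mem_MR D xT).1 hm).2⟩

/-- The factors where a state is present. -/
def supp (s : ∀ i, Subgroup (A i)) : Finset ι := Finset.univ.filter (fun i => s i ≠ ⊥)

/-- The subgroup built from states and a subgroup of `M0`. -/
def build (C : Subgroup X) (s : ∀ i, Subgroup (A i)) (U : Subgroup X) : Subgroup X :=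
  C ⊔ (Subgroup.pi Set.univ s).map S.φ ⊔ U

theorem fixedSet_data (hxT : GoodXT D xT) (hB : S.GoodB D xT C Z) (hT : S.GoodT D xT Z T)
    {E : Subgroup X} (hE : E ∈ S.fixedSet D xT C T) :
    (∀ i, E.comap (S.j i) ∈ choices D Z T i) ∧
    E ⊓ S.M0 D xT ≤ S.MR D xT (T ∪ supp (fun i => E.comap (S.j i))) ∧
    S.build C (fun i => E.comap (S.j i)) (E ⊓ S.M0 D xT) = E := by
  have hstate : ∀ i, E.comap (S.j i) ≠ ⊥ → i ∉ T ∧ E.comap (S.j i) ∈ (D i).states ∧ i ∈ Z ∧
      ∀ c ∈ E, S.CentH D xT ∅ c → c * c = 1 → S.Cen c i := by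
    intro i hi
    obtain ⟨a, ha, ha1⟩ := (Subgroup.bot_or_exists_ne_one _).resolve_left hi
    have hco := S.coord_mem D xT hxT hT hE (f := Pi.mulSingle i a) ha i
    have hiT : i ∉ T := fun h => ha1 (by simpa using hco.2.1 h)
    have hst := hco.2.2.resolve_left hi
    have hcen : ∀ c ∈ E, S.CentH D xT ∅ c → c * c = 1 → S.Cen c i := by
      intro c hc hcc hc2
      by_contra hne
      obtain ⟨w, hw, hne'⟩ := ((D i).outer_states _ (S.fixesData0 D xT hcc hc2 i)
        (fun h => hne ((S.aut_eq_one_iff _).1 h))).2 _ hst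
      apply hne'
      apply S.j_inj i
      rw [← S.aut_spec (S.fix0 D xT hcc i), hE.1.1 c hc _ hw, mul_assoc, mul_inv_cancel, mul_one]
    refine ⟨hiT, hst, hB.mem_Z i ⟨_, hst⟩ fun c hc => ?_, hcen⟩
    exact hcen c (hE.2.1 hc) (hB.cent c hc)
      (by have := hB.elem.2 c hc; rwa [pow_two] at this)
  have hchoice : ∀ i, E.comap (S.j i) ∈ choices D Z T i := by
    intro i
    by_cases hi : E.comap (S.j i) = ⊥
    · rw [hi]; exact Finset.mem_insert_self _ _
    · obtain ⟨h1, h2, h3, -⟩ := hstate i hi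
      exact Finset.mem_insert_of_mem (by rw [if_pos ⟨h3, h1⟩]; exact h2)
  have hMT : E ⊓ S.M0 D xT ≤ S.MR D xT (T ∪ supp (fun i => E.comap (S.j i))) := by
    rintro m ⟨hmE, hmM⟩
    refine (S.mem_MR D xT).2 ⟨hmM, fun i hi => ?_⟩
    rcases Finset.mem_union.1 hi with hi | hi
    · have hg := S.fix0 D xT hmM.2.2 i
      rw [← S.aut_eq_one_iff hg]
      refine (hxT.2 i (hT.outer i hi)).2.1 _ (S.fixesData0 D xT hmM.2.2 hmM.2.1 i).1 ?_
      have hconj : S.xg D xT T * m * (S.xg D xT T)⁻¹ ∈ E := by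
        rw [← hE.2.2.1, mem_cj]
        simpa [mul_assoc] using hmE
      obtain ⟨f, hf⟩ := S.norm.conj_mem (S.xg D xT T)⁻¹ (S.φ.range.inv_mem ⟨_, rfl⟩) m
      have hco := (S.coord_mem D xT hxT hT hE (f := xf D xT T * f) (by
        rw [map_mul, hf]
        have h2 := E.mul_mem hconj (E.inv_mem hmE)
        simpa [xg, mul_assoc] using h2) i).2.1 hi
      have hcf := S.coord_of_fix hg (f := (xf D xT T)⁻¹) (f' := f)
        (by rw [map_inv, hf]; rfl)
      rw [Pi.inv_apply, map_inv] at hcf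
      rw [Pi.mul_apply, mul_eq_one_iff_eq_inv, ← hcf, inv_inv] at hco
      simpa [xf, hi] using hco.symm
    · exact (hstate i (Finset.mem_filter.1 hi).2).2.2.2 m hmE hmM.2.2 hmM.2.1
  refine ⟨hchoice, hMT, le_antisymm ?_ ?_⟩
  · refine sup_le (sup_le hE.2.1 ?_) inf_le_left
    rintro _ ⟨f, hf, rfl⟩
    exact S.mem_of_coords fun i => Subgroup.mem_pi _ |>.1 hf i (Set.mem_univ i)
  · intro e he
    obtain ⟨c, hcE, hcH, hw⟩ := S.exists_centralized D xT hxT hE he
    have hc2 : c * c = 1 := by have := hE.1.2 c hcE; rwa [pow_two] at this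
    obtain ⟨hc0, -⟩ := S.centH0_of_invol D xT hxT hT hc2 hcH
    obtain ⟨c0, hc0m, m, hm, rfl⟩ := hB.maximal c hc2 hc0 fun y hy => hE.1.1 _ hcE _ (hE.2.1 hy)
    have hmE : m ∈ E := by
      have := E.mul_mem (E.inv_mem (hE.2.1 hc0m)) hcE
      rwa [inv_mul_cancel_left] at this
    obtain ⟨f, hf⟩ := hw.2
    have e1 : e = S.φ f * (c0 * m) := by rw [hf]; group
    rw [e1]
    refine Subgroup.mul_mem _ ?_ (Subgroup.mul_mem _
      (Subgroup.mem_sup_left (Subgroup.mem_sup_left hc0m)) (Subgroup.mem_sup_right ⟨hmE, hm⟩))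
    refine Subgroup.mem_sup_left (Subgroup.mem_sup_right ⟨f, ?_, rfl⟩)
    rw [Subgroup.coe_pi]
    intro i _
    exact (S.coord_mem D xT hxT hT hE (f := f) (hf ▸ hw.1) i).1

theorem build_data (hB : S.GoodB D xT C Z) (hT : S.GoodT D xT Z T)
    {s : ∀ i, Subgroup (A i)} (hs : ∀ i, s i ∈ choices D Z T i) {U : Subgroup X}
    (hU : U ≤ S.MR D xT (T ∪ supp s)) :
    S.build C s U ∈ S.fixedSet D xT C T ∧
      (∀ i, (S.build C s U).comap (S.j i) = s i) ∧ S.build C s U ⊓ S.M0 D xT = U := by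
  have hsel : ∀ i, IsElem 2 (s i) ∧ InvData (D i).Q (D i).x (s i) ∧
      (s i ≠ ⊥ → i ∈ Z ∧ i ∉ T) := by
    intro i
    rcases Finset.mem_insert.1 (hs i) with h | h
    · rw [h]
      exact ⟨isElem_bot, ⟨(cj _).map_bot, fun q _ => (cj _).map_bot⟩, fun h' => absurd rfl h'⟩
    · split_ifs at h with hz
      · obtain ⟨a, -, b, -⟩ := (D i).states_spec _ h
        exact ⟨a, b, fun _ => hz⟩
      · exact absurd h (Finset.notMem_empty _)
  have hTcase : ∀ i ∈ T, s i = ⊥ := fun i hi => by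
    by_contra h; exact ((hsel i).2.2 h).2 hi
  set W := (Subgroup.pi Set.univ s).map S.φ with hW
  have hWmem : ∀ {f}, f ∈ Subgroup.pi Set.univ s ↔ ∀ i, f i ∈ s i := by
    intro f
    rw [Subgroup.mem_pi]
    exact ⟨fun h i => h i (Set.mem_univ i), fun h i _ => h i⟩
  have hWel : IsElem 2 W := by
    refine IsElem.map ⟨?_, ?_⟩ _
    · intro f hf g hg; funext i; exact (hsel i).1.1 _ (hWmem.1 hf i) _ (hWmem.1 hg i)
    · intro f hf; funext i; exact (hsel i).1.2 _ (hWmem.1 hf i)
  have hUM : U ≤ S.M0 D xT := fun m hm => ((S.mem_MR D xT).1 (hU hm)).1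
  have hCU : ∀ a ∈ C, ∀ b ∈ U, a * b = b * a := fun a ha b hb =>
    (S.comm0 D xT (hUM hb).1 (hUM hb).2.2 (hB.cent a ha) (hUM hb).2.1
      (by have := hB.elem.2 a ha; rwa [pow_two] at this)).symm
  have hWcomm : ∀ g : X, (∀ i, s i ≠ ⊥ → S.Cen g i) → ∀ w ∈ W, g * w = w * g := by
    rintro g hg _ ⟨f, hf, rfl⟩
    refine S.commute_phi f fun i => ?_
    by_cases h : s i = ⊥
    · have := hWmem.1 hf i
      rw [h, Subgroup.mem_bot] at this
      simp [this]
    · exact hg i h _
  have hCW : ∀ a ∈ C, ∀ b ∈ W, a * b = b * a := fun a ha =>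
    hWcomm a fun i hi => hB.cenZ a ha i ((hsel i).2.2 hi).1
  have hUW : ∀ a ∈ U, ∀ b ∈ W, a * b = b * a := fun a ha =>
    hWcomm a fun i hi => ((S.mem_MR D xT).1 (hU ha)).2 i
      (Finset.mem_union_right _ (Finset.mem_filter.2 ⟨Finset.mem_univ i, hi⟩))
  obtain ⟨hCWel, hCWf⟩ := hB.elem.sup hWel hCW
  obtain ⟨hel, hform⟩ := hCWel.sup (S.M0_elem D xT |>.mono hUM) (fun a ha b hb => by
    obtain ⟨c, hc, w, hw, rfl⟩ := hCWf a ha
    rw [mul_assoc, ← hUW b hb w hw, ← mul_assoc, hCU c hc b hb, mul_assoc])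
  have hCcent : ∀ c ∈ C, S.CentH D xT T c := fun c hc =>
    S.centH_of_centH0 D xT (hB.cent c hc) fun i hi => hB.cenZ c hc i (hT.sub hi)
  have hUcent : ∀ m ∈ U, S.CentH D xT T m := fun m hm =>
    S.centH_of_centH0 D xT (hUM hm).2.2 fun i hi =>
      ((S.mem_MR D xT).1 (hU hm)).2 i (Finset.mem_union_left _ hi)
  have hWinv : ∀ y : Π i, A i, (∀ i, cj (y i) (s i) = s i) → cj (S.φ y) W = W := by
    intro y hy
    ext x
    rw [mem_cj]
    constructor
    · rintro ⟨f, hf, he⟩
      refine ⟨y * f * y⁻¹, hWmem.2 fun i => ?_, ?_⟩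
      · rw [← hy i, mem_cj]
        simpa [mul_assoc] using hWmem.1 hf i
      · rw [map_mul, map_mul, map_inv, he]; group
    · rintro ⟨f, hf, rfl⟩
      refine ⟨y⁻¹ * f * y, hWmem.2 fun i => ?_, by simp⟩
      have := hWmem.1 hf i
      rw [← hy i, mem_cj] at this
      simpa using this
  have hfix : ∀ g : X, cj g W = W → (∀ a ∈ C, g * a = a * g) → (∀ a ∈ U, g * a = a * g) →
      cj g (S.build C s U) = S.build C s U := by
    intro g h1 h2 h3
    rw [build, ← hW, cj_eq_map, Subgroup.map_sup, Subgroup.map_sup, ← cj_eq_map, ← cj_eq_map,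
      ← cj_eq_map, h1, cj_of_centralizes h2, cj_of_centralizes h3]
  have hmemfix : S.build C s U ∈ S.fixedSet D xT C T := by
    refine ⟨hel, le_sup_of_le_left le_sup_left, ?_, ?_⟩
    · refine hfix _ (hWinv _ fun i => ?_) (fun a ha => ((hCcent a ha).2).symm)
        (fun a ha => ((hUcent a ha).2).symm)
      simp only [xf]
      split_ifs with hi
      · rw [hTcase i hi]; exact (cj _).map_bot
      · exact (hsel i).2.1.1
    · rintro q ⟨f, hf, rfl⟩
      refine hfix _ (hWinv _ fun i => ?_) (fun a ha => ((hCcent a ha).1 _ ⟨f, hf, rfl⟩).symm)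
        (fun a ha => ((hUcent a ha).1 _ ⟨f, hf, rfl⟩).symm)
      have a := (mem_qsub D).1 hf i
      split_ifs at a with hi
      · rw [a, cj_one]
      · exact (hsel i).2.1.2 _ a
  refine ⟨hmemfix, fun i => le_antisymm ?_ ?_, le_antisymm ?_
    (le_inf (fun m hm => Subgroup.mem_sup_right hm) hUM)⟩
  · intro a ha
    obtain ⟨y, hy, m, hm, he⟩ := hform _ ha
    obtain ⟨c, hc, w, ⟨f, hf, rfl⟩, rfl⟩ := hCWf y hy
    set d : Π l, A l := Pi.mulSingle i a * f⁻¹ with hd
    have e1 : S.φ d = c * m := by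
      rw [hd, map_mul, map_inv, show S.φ (Pi.mulSingle i a) = S.j i a from rfl, he,
        mul_assoc c, ← hUW m hm (S.φ f) ⟨f, hf, rfl⟩, ← mul_assoc, mul_assoc (c * m),
        mul_inv_cancel, mul_one]
    have hcm : c * m ∈ S.build C s U := Subgroup.mul_mem _
      (Subgroup.mem_sup_left (Subgroup.mem_sup_left hc)) (Subgroup.mem_sup_right hm)
    have h2 : c * m * (c * m) = 1 := by have := hel.2 _ hcm; rwa [pow_two] at this
    have h0 := S.centH_mul D xT (hB.cent c hc) (hUM hm).2.2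
    have hd1 : d i = 1 := by
      refine (D i).no_involution ?_ ?_ ?_
      · rw [← e1, ← map_mul, ← S.φ.map_one] at h2
        exact congrFun (S.inj h2) i
      · have h := h0.2
        rw [← e1, xg, ← map_mul, ← map_mul] at h
        have := congrFun (S.inj h) i
        simpa [xf] using this.symm
      · intro q hq
        have h := h0.1 _ (S.j_mem_Qg D (Finset.notMem_empty i) hq)
        rw [← e1, j_apply, ← map_mul, ← map_mul] at h
        have := congrFun (S.inj h) i
        simpa using this.symm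
    rw [hd, Pi.mul_apply, Pi.inv_apply, Pi.mulSingle_eq_same, mul_inv_eq_one] at hd1
    rw [hd1]; exact hWmem.1 hf i
  · intro a ha
    refine Subgroup.mem_sup_left (Subgroup.mem_sup_right ⟨Pi.mulSingle i a, hWmem.2 fun l => ?_,
      rfl⟩)
    by_cases hl : l = i
    · subst hl; simpa using ha
    · simp [hl]
  · rintro x ⟨hx, hxM⟩
    obtain ⟨y, hy, m, hm, rfl⟩ := hform x hx
    obtain ⟨c, hc, w, ⟨f, hf, rfl⟩, rfl⟩ := hCWf y hy
    have hc2 : c * c = 1 := by have := hB.elem.2 c hc; rwa [pow_two] at this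
    have ew : S.φ f = c * (c * S.φ f * m) * m := by
      rw [show c * (c * S.φ f * m) * m = c * c * S.φ f * (m * m) by group, hc2, (hUM hm).2.1]
      group
    have hf0 : S.CentH D xT ∅ (S.φ f) := by
      rw [ew]
      exact S.centH_mul D xT (S.centH_mul D xT (hB.cent c hc) hxM.2.2) (hUM hm).2.2
    have hf1 : f = 1 := by
      funext i
      refine (D i).no_involution ?_ ?_ ?_
      · have := (hsel i).1.2 _ (hWmem.1 hf i); rwa [pow_two] at this
      · have h := hf0.2
        rw [xg, ← map_mul, ← map_mul] at h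
        have := congrFun (S.inj h) i
        simpa [xf] using this.symm
      · intro q hq
        have h := hf0.1 _ (S.j_mem_Qg D (Finset.notMem_empty i) hq)
        rw [j_apply, ← map_mul, ← map_mul] at h
        have := congrFun (S.inj h) i
        simpa using this.symm
    subst hf1
    rw [map_one, mul_one] at hxM ⊢
    have hc1 : c = 1 := by
      have hcK : c ∈ C ⊓ K := ⟨hc, by
        have := K.mul_mem hxM.1 (K.inv_mem (hUM hm).1)
        rwa [mul_assoc, mul_inv_cancel, mul_one] at this⟩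
      rwa [hB.trivK, Subgroup.mem_bot] at hcK
    rw [hc1, one_mul]; exact hm

end CompSys

end Vale.Agent.P240
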