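import Vale.Agent.P240.Link

/-!
# The link above `B` is not acyclic
-/

set_option linter.unusedSectionVars false

open scoped Classical

noncomputable section

namespace Vale.Agent.P240

namespace CompSys

variable {X : Type*} [Group X] [Finite X] {K : Subgroup X} {ι : Type*} [Fintype ι]
  {A : ι → Type*} [∀ i, Group (A i)] [∀ i, Finite (A i)] (S : CompSys K A)
  (D : ∀ i, SepData (A i)) (xT : ∀ i, A i) {C : Subgroup X} {Z T : Finset ι}

/-- Sign of a state. -/
def sgn {i : ι} (W : Subgroup (A i)) : ℤ := if W = ⊥ then 1 else -1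

/-- The weight of a member of the fixed set. -/
def mu (E : Subgroup X) : ℤ := (∏ i, sgn (E.comap (S.j i))) * mu0 (E ⊓ S.M0 D xT)

theorem MR_anti {R R' : Finset ι} (h : R ⊆ R') : S.MR D xT R' ≤ S.MR D xT R := fun m hm => by
  obtain ⟨h1, h2⟩ := (S.mem_MR D xT).1 hm
  exact (S.mem_MR D xT).2 ⟨h1, fun i hi => h2 i (h hi)⟩

theorem build_mono {s s' : ∀ i, Subgroup (A i)} (h : ∀ i, s i ≤ s' i) {U U' : Subgroup X}
    (hU : U ≤ U') : S.build C s U ≤ S.build C s' U' := by
  refine sup_le_sup (sup_le_sup le_rfl (Subgroup.map_mono fun f hf => ?_)) hU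
  rw [Subgroup.mem_pi] at hf ⊢
  exact fun i hi => h i (hf i hi)

theorem build_bot {s : ∀ i, Subgroup (A i)} (h : ∀ i, s i = ⊥) : S.build C s ⊥ = C := by
  have : Subgroup.pi Set.univ s = ⊥ := by
    rw [Subgroup.eq_bot_iff_forall]
    intro f hf
    funext i
    have := (Subgroup.mem_pi _).1 hf i (Set.mem_univ i)
    rw [h i, Subgroup.mem_bot] at this
    exact this
  rw [build, this, Subgroup.map_bot, sup_bot_eq, sup_bot_eq]

theorem mu_build (hB : S.GoodB D xT C Z) (hT : S.GoodT D xT Z T)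
    {s : ∀ i, Subgroup (A i)} (hs : ∀ i, s i ∈ choices D Z T i) {U : Subgroup X}
    (hU : U ≤ S.MR D xT (T ∪ supp s)) :
    S.mu D xT (S.build C s U) = (∏ i, sgn (s i)) * mu0 U := by
  obtain ⟨-, h2, h3⟩ := S.build_data D xT hB hT hs hU
  simp only [mu, h2, h3]

variable [Fintype (Subgroup X)]

/-- Sums of weights below a member vanish. -/
theorem sum_below (hxT : GoodXT D xT) (hB : S.GoodB D xT C Z) (hT : S.GoodT D xT Z T)
    {E : Subgroup X} (hE : E ∈ S.fixedSet D xT C T) (hne : E ≠ C) :
    ∑ F ∈ Finset.univ.filter (fun F => F ∈ S.fixedSet D xT C T ∧ F ≤ E), S.mu D xT F = 0 := by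
  obtain ⟨hch, hMT, hbuild⟩ := S.fixedSet_data D xT hxT hB hT hE
  set s : ∀ i, Subgroup (A i) := fun i => E.comap (S.j i) with hs
  set U := E ⊓ S.M0 D xT with hU
  have hsub : ∀ F, F ∈ S.fixedSet D xT C T → F ≤ E → ∀ i,
      F.comap (S.j i) = ⊥ ∨ F.comap (S.j i) = s i := by
    intro F hF hle i
    obtain ⟨hchF, -, -⟩ := S.fixedSet_data D xT hxT hB hT hF
    by_cases hb : F.comap (S.j i) = ⊥
    · exact Or.inl hb
    right
    have hFst : F.comap (S.j i) ∈ (D i).states := by
      rcases Finset.mem_insert.1 (hchF i) with h | h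
      · exact absurd h hb
      · split_ifs at h
        · exact h
        · exact absurd h (Finset.notMem_empty _)
    have hle' : F.comap (S.j i) ≤ s i := Subgroup.comap_mono hle
    rcases Finset.mem_insert.1 (hch i) with h | h
    · exact absurd (le_bot_iff.1 (h ▸ hle')) hb
    · split_ifs at h
      · exact (D i).states_antichain _ hFst _ h hle'
      · exact absurd h (Finset.notMem_empty _)
  set P : Finset ((∀ i, Subgroup (A i)) × Subgroup X) :=
    (Fintype.piFinset fun i => ({⊥, s i} : Finset (Subgroup (A i)))) ×ˢ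
      Finset.univ.filter (fun V => V ≤ U) with hP
  have hPmem : ∀ q ∈ P, (∀ i, q.1 i ∈ choices D Z T i) ∧ (∀ i, q.1 i ≤ s i) ∧ q.2 ≤ U ∧
      q.2 ≤ S.MR D xT (T ∪ supp q.1) := by
    rintro ⟨s', V⟩ hq
    obtain ⟨h1, h2⟩ := Finset.mem_product.1 hq
    dsimp only at h1 h2 ⊢
    rw [Fintype.mem_piFinset] at h1
    simp only [Finset.mem_insert, Finset.mem_singleton] at h1
    have hV := (Finset.mem_filter.1 h2).2
    refine ⟨fun i => ?_, fun i => ?_, hV, hV.trans (hMT.trans (S.MR_anti D xT ?_))⟩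
    · rcases h1 i with h | h <;> rw [h]
      · exact Finset.mem_insert_self _ _
      · exact hch i
    · rcases h1 i with h | h <;> rw [h]
      exact bot_le
    · refine Finset.union_subset_union subset_rfl fun i hi => ?_
      refine Finset.mem_filter.2 ⟨Finset.mem_univ i, fun h => (Finset.mem_filter.1 hi).2 ?_⟩
      rcases h1 i with h' | h'
      · exact h'
      · exact h'.trans h
  have hsum : ∑ F ∈ Finset.univ.filter (fun F => F ∈ S.fixedSet D xT C T ∧ F ≤ E),
      S.mu D xT F = ∑ q ∈ P, (∏ i, sgn (q.1 i)) * mu0 q.2 := by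
    refine Finset.sum_nbij' (fun F => ((fun i => F.comap (S.j i)), F ⊓ S.M0 D xT))
      (fun q => S.build C q.1 q.2) ?_ ?_ ?_ ?_ ?_
    · intro F hF
      obtain ⟨hF1, hF2⟩ := (Finset.mem_filter.1 hF).2
      refine Finset.mem_product.2 ⟨Fintype.mem_piFinset.2 fun i => ?_,
        Finset.mem_filter.2 ⟨Finset.mem_univ _, inf_le_inf_right _ hF2⟩⟩
      rcases hsub F hF1 hF2 i with h | h <;> simp [h]
    · intro q hq
      obtain ⟨h1, h2, h3, h4⟩ := hPmem q hq
      refine Finset.mem_filter.2 ⟨Finset.mem_univ _, (S.build_data D xT hB hT h1 h4).1, ?_⟩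
      calc S.build C q.1 q.2 ≤ S.build C s U := S.build_mono h2 h3
        _ = E := hbuild
    · intro F hF
      exact (S.fixedSet_data D xT hxT hB hT (Finset.mem_filter.1 hF).2.1).2.2
    · intro q hq
      obtain ⟨h1, -, -, h4⟩ := hPmem q hq
      obtain ⟨-, e1, e2⟩ := S.build_data D xT hB hT h1 h4
      exact Prod.ext (funext e1) e2
    · intro F _; rfl
  rw [hsum, hP, Finset.sum_product]
  simp only [← Finset.mul_sum]
  rw [sum_mu0]
  by_cases hUb : U = ⊥
  · rw [if_pos hUb]
    simp only [mul_one]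
    rw [← Finset.prod_univ_sum (fun i => ({⊥, s i} : Finset (Subgroup (A i)))) (fun i W => sgn W)]
    obtain ⟨i, hi⟩ : ∃ i, s i ≠ ⊥ := by
      by_contra h
      push Not at h
      apply hne
      rw [← hbuild, hUb]
      exact S.build_bot h
    refine Finset.prod_eq_zero (Finset.mem_univ i) ?_
    rw [Finset.sum_pair (Ne.symm hi)]
    simp [sgn, hi]
  · rw [if_neg hUb]
    simp

/-- The total weight of the fixed set is the spanning count modulo three. -/
theorem sum_total (hxT : GoodXT D xT) (hB : S.GoodB D xT C Z) (hT : S.GoodT D xT Z T) :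
    ((∑ F ∈ Finset.univ.filter (fun F => F ∈ S.fixedSet D xT C T), S.mu D xT F : ℤ) : ZMod 3) =
      S.cnt D xT Z T := by
  set P := (Fintype.piFinset (choices D Z T)).sigma
    (fun s => Finset.univ.filter (fun V => V ≤ S.MR D xT (T ∪ supp s))) with hP
  have hsum : ∑ F ∈ Finset.univ.filter (fun F => F ∈ S.fixedSet D xT C T), S.mu D xT F =
      ∑ q ∈ P, (∏ i, sgn (q.1 i)) * mu0 q.2 := by
    refine Finset.sum_nbij' (fun F => ⟨fun i => F.comap (S.j i), F ⊓ S.M0 D xT⟩)
      (fun q => S.build C q.1 q.2) ?_ ?_ ?_ ?_ ?_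
    · intro F hF
      obtain ⟨h1, h2, -⟩ := S.fixedSet_data D xT hxT hB hT (Finset.mem_filter.1 hF).2
      exact Finset.mem_sigma.2 ⟨Fintype.mem_piFinset.2 h1,
        Finset.mem_filter.2 ⟨Finset.mem_univ _, h2⟩⟩
    · intro q hq
      obtain ⟨h1, h2⟩ := Finset.mem_sigma.1 hq
      exact Finset.mem_filter.2 ⟨Finset.mem_univ _, (S.build_data D xT hB hT
        (Fintype.mem_piFinset.1 h1) (Finset.mem_filter.1 h2).2).1⟩
    · intro F hF
      exact (S.fixedSet_data D xT hxT hB hT (Finset.mem_filter.1 hF).2).2.2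
    · rintro ⟨s, V⟩ hq
      obtain ⟨h1, h2⟩ := Finset.mem_sigma.1 hq
      obtain ⟨-, e1, e2⟩ := S.build_data D xT hB hT
        (Fintype.mem_piFinset.1 h1) (Finset.mem_filter.1 h2).2
      exact Sigma.ext (funext e1) (heq_of_eq e2)
    · intro F _; rfl
  rw [hsum, hP, Finset.sum_sigma]
  simp only [← Finset.mul_sum]
  simp only [sum_mu0, S.MR_eq_bot D xT]
  rw [Int.cast_sum]
  have hsuppZ : ∀ s ∈ Fintype.piFinset (choices D Z T), supp s ∈ (Z \ T).powerset := by
    intro s hs
    rw [Finset.mem_powerset]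
    intro i hi
    have h := Fintype.mem_piFinset.1 hs i
    rcases Finset.mem_insert.1 h with h | h
    · exact absurd h (Finset.mem_filter.1 hi).2
    · split_ifs at h with hz
      · exact Finset.mem_sdiff.2 hz
      · exact absurd h (Finset.notMem_empty _)
  rw [← Finset.sum_fiberwise_of_maps_to hsuppZ]
  have hfib : ∀ J ∈ (Z \ T).powerset,
      ∑ s ∈ (Fintype.piFinset (choices D Z T)).filter (fun s => supp s = J),
        (((∏ i, sgn (s i)) * (if S.Spans D xT (T ∪ supp s) then 1 else 0) : ℤ) : ZMod 3) =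
      if S.Spans D xT (T ∪ J) then 1 else 0 := by
    intro J hJ
    rw [Finset.mem_powerset] at hJ
    have hfilt : (Fintype.piFinset (choices D Z T)).filter (fun s => supp s = J) =
        Fintype.piFinset (fun i => if i ∈ J then (D i).states else {⊥}) := by
      ext s
      simp only [Finset.mem_filter, Fintype.mem_piFinset]
      constructor
      · rintro ⟨hc, he⟩ i
        by_cases hi : i ∈ J
        · rw [if_pos hi]
          have hne : s i ≠ ⊥ := by
            rw [← he, supp, Finset.mem_filter] at hi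
            exact hi.2
          rcases Finset.mem_insert.1 (hc i) with h | h
          · exact absurd h hne
          · rwa [if_pos (Finset.mem_sdiff.1 (hJ hi))] at h
        · rw [if_neg hi, Finset.mem_singleton]
          by_contra hne
          exact hi (he ▸ Finset.mem_filter.2 ⟨Finset.mem_univ i, hne⟩)
      · intro h
        refine ⟨fun i => ?_, ?_⟩
        · by_cases hi : i ∈ J
          · have := h i
            rw [if_pos hi] at this
            exact Finset.mem_insert_of_mem (by rw [if_pos (Finset.mem_sdiff.1 (hJ hi))]; exact this)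
          · have := h i
            rw [if_neg hi, Finset.mem_singleton] at this
            rw [this]; exact Finset.mem_insert_self _ _
        · ext i
          simp only [supp, Finset.mem_filter, Finset.mem_univ, true_and]
          have := h i
          by_cases hi : i ∈ J
          · rw [if_pos hi] at this
            exact iff_of_true ((D i).states_spec _ this).2.1 hi
          · rw [if_neg hi, Finset.mem_singleton] at this
            exact iff_of_false (fun h' => h' this) hi
    rw [Finset.sum_congr rfl (fun s hs => by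
      rw [(Finset.mem_filter.1 hs).2] : ∀ s ∈ (Fintype.piFinset (choices D Z T)).filter
        (fun s => supp s = J), (((∏ i, sgn (s i)) *
          (if S.Spans D xT (T ∪ supp s) then 1 else 0) : ℤ) : ZMod 3) =
        (((∏ i, sgn (s i)) * (if S.Spans D xT (T ∪ J) then 1 else 0) : ℤ) : ZMod 3)),
      hfilt, ← Int.cast_sum, ← Finset.sum_mul,
      ← Finset.prod_univ_sum (fun i => if i ∈ J then (D i).states else {⊥}) (fun i W => sgn W)]
    rw [Int.cast_mul, Int.cast_prod, Finset.prod_eq_one, one_mul]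
    · split_ifs <;> simp
    intro i _
    by_cases hi : i ∈ J
    · rw [if_pos hi, Finset.sum_congr rfl (fun W hW => show sgn W = (-1 : ℤ) by
        simp [sgn, ((D i).states_spec W hW).2.1])]
      have hne := hB.states_Z i (Finset.mem_sdiff.1 (hJ hi)).1
      have hcard : (D i).states.card = 2 :=
        (D i).states_card.resolve_left (Finset.card_ne_zero.2 hne)
      rw [Finset.sum_const, hcard]
      decide
    · rw [if_neg hi, Finset.sum_singleton]
      simp [sgn]
  rw [Finset.sum_congr rfl hfib, Finset.sum_boole, cnt]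
  congr 1
  refine Finset.card_nbij' (fun J => T ∪ J) (fun s => s \ T) ?_ ?_ ?_ ?_
  · intro J hJ
    simp only [Finset.coe_filter, Set.mem_ofPred_eq, Finset.mem_powerset] at hJ ⊢
    exact ⟨Finset.union_subset hT.sub (hJ.1.trans Finset.sdiff_subset),
      Finset.subset_union_left, hJ.2⟩
  · intro s hs
    simp only [Finset.coe_filter, Set.mem_ofPred_eq, Finset.mem_powerset] at hs ⊢
    refine ⟨Finset.sdiff_subset_sdiff hs.1 subset_rfl, ?_⟩
    rw [Finset.union_sdiff_of_subset hs.2.1]
    exact hs.2.2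
  · intro J hJ
    simp only [Finset.coe_filter, Set.mem_ofPred_eq, Finset.mem_powerset] at hJ
    ext i
    simp only [Finset.mem_sdiff, Finset.mem_union]
    exact ⟨fun h => h.1.resolve_left h.2,
      fun h => ⟨Or.inr h, (Finset.mem_sdiff.1 (hJ.1 h)).2⟩⟩
  · intro s hs
    simp only [Finset.coe_filter, Set.mem_ofPred_eq, Finset.mem_powerset] at hs
    exact Finset.union_sdiff_of_subset hs.2.1

theorem mu_self (hB : S.GoodB D xT C Z) (hT : S.GoodT D xT Z T) :
    C ∈ S.fixedSet D xT C T ∧ S.mu D xT C = 1 := by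
  have hC : S.build C (fun _ => ⊥) ⊥ = C := S.build_bot fun _ => rfl
  have h := S.build_data D xT hB hT (s := fun _ => ⊥) (U := ⊥)
    (fun i => Finset.mem_insert_self _ _) bot_le
  have hmu := S.mu_build D xT hB hT (s := fun _ => ⊥) (U := ⊥)
    (fun i => Finset.mem_insert_self _ _) bot_le
  rw [hC] at h hmu
  refine ⟨h.1, hmu.trans ?_⟩
  have : mu0 (⊥ : Subgroup X) = 1 := by rw [mu0, if_pos rfl]
  simp [sgn, this]

include S D in
/-- There is a faithful position for `B` whose link is not acyclic. -/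
theorem exists_link_homology :
    ∃ B : Subgroup X, IsElem 2 B ∧ B ⊓ K = ⊥ ∧ HasReducedHomology ℂ (Lk 2 B) := by
  let : Fintype (Subgroup X) := Fintype.ofFinite _
  obtain ⟨xT, hxT⟩ := exists_goodXT D
  obtain ⟨C, Z, hB⟩ := S.exists_goodB D xT
  obtain ⟨T, hT⟩ := S.exists_goodT D xT hB.spansZ
  refine ⟨C, hB.elem, hB.trivK, ?_⟩
  by_contra hno
  rw [hasReducedHomology_iff] at hno
  push Not at hno
  set g := cj (S.xg D xT T) with hg
  have hCfix : ∀ y : X, (∀ c ∈ C, y * c = c * y) → cj y C = C := fun y h => cj_of_centralizes h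
  have hCH : ∀ c ∈ C, S.CentH D xT T c := fun c hc =>
    S.centH_of_centH0 D xT (hB.cent c hc) fun i hi => hB.cenZ c hc i (hT.sub hi)
  have hstab : ∀ y : X, cj y C = C → ∀ E ∈ Lk 2 C, cj y E ∈ Lk 2 C := fun y hy E hE =>
    ⟨hE.1.cj y, hy ▸ (cj y).strictMono hE.2⟩
  have hgC : cj (S.xg D xT T) C = C := hCfix _ fun c hc => (hCH c hc).2.symm
  have h0 : Chi {a | a ∈ Lk 2 C ∧ g a = a} = 0 := by
    refine chi_fixed_eq_zero (k := ℂ) hno g fun E => ⟨fun h => ?_, hstab _ hgC E⟩
    have h' := hstab (S.xg D xT T)⁻¹ (by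
      conv_lhs => rw [← hgC]
      rw [← cj_mul, inv_mul_cancel, cj_one]) _ h
    rwa [hg, ← cj_mul, inv_mul_cancel, cj_one] at h'
  let : MulAction (S.Qg D T) (Subgroup X) :=
    { smul := fun q E => cj (q : X) E
      one_smul := fun E => cj_one E
      mul_smul := fun q q' E => cj_mul (q : X) (q' : X) E }
  have h3 : IsPGroup 3 (S.Qg D T) := by
    refine IsPGroup.map ?_ S.φ
    intro f
    have h : ∀ i, ∃ k : ℕ, ((f : Π i, A i) i) ^ 3 ^ k = 1 := by
      intro i
      have a := (mem_qsub D).1 f.2 i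
      split_ifs at a with hi
      · exact ⟨0, by simp [a]⟩
      · obtain ⟨k, hk⟩ := (D i).Q_three ⟨_, a⟩
        exact ⟨k, by simpa using congrArg Subtype.val hk⟩
    choose k hk using h
    refine ⟨Finset.univ.sup k, Subtype.ext (funext fun i => ?_)⟩
    obtain ⟨d, hd⟩ := Nat.exists_eq_add_of_le (Finset.le_sup (f := k) (Finset.mem_univ i))
    simp [hd, pow_add, pow_mul, hk i]
  have : Fact (Nat.Prime 3) := ⟨Nat.prime_three⟩
  have hcong := chi_modEq_fixed h3 (U := {a | a ∈ Lk 2 C ∧ g a = a})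
    (fun q a b h => (cj (q : X)).monotone h)
    (fun q a ha => ⟨hstab _ (hCfix _ fun c hc => ((hCH c hc).1 _ q.2).symm) a ha.1, by
      show cj (S.xg D xT T) (cj (q : X) a) = cj (q : X) a
      rw [← cj_mul, S.xg_comm_Qg D xT q.2, cj_mul, show cj (S.xg D xT T) a = a from ha.2]⟩)
  have hset : {a | a ∈ {a | a ∈ Lk 2 C ∧ g a = a} ∧ ∀ q : S.Qg D T, q • a = a} =
      {y | y ∈ S.fixedSet D xT C T ∧ y ≠ C} := by
    ext E
    constructor
    · rintro ⟨⟨hE, hEg⟩, hq⟩
      exact ⟨⟨hE.1, hE.2.le, hEg, fun q hq' => hq ⟨q, hq'⟩⟩, hE.2.ne'⟩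
    · rintro ⟨⟨h1, h2, h3', h4⟩, hne⟩
      exact ⟨⟨⟨h1, lt_of_le_of_ne h2 (Ne.symm hne)⟩, h3'⟩, fun q => h4 q q.2⟩
  rw [h0, hset] at hcong
  obtain ⟨hCm, hCmu⟩ := S.mu_self D xT hB hT
  rw [chi_sdiff_bot hCm (fun y hy => hy.2.1) (S.mu D xT) hCmu
    (fun x hx hne => by
      convert S.sum_below D xT hxT hB hT hx hne)] at hcong
  have htot := S.sum_total D xT hxT hB hT
  apply hT.ne_zero
  rw [← htot]
  simpa using hcong.symm

end CompSys

end Vale.Agent.P240
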