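import Vale.Agent.P240.Comps

/-!
# Removing factors from a system by passing to their centraliser
-/

set_option linter.unusedSectionVars false

open scoped Classical

noncomputable section

namespace Vale.Agent.P240

namespace CompSys

variable {X : Type} [Group X] {K : Subgroup X} {ι : Type} [Fintype ι]
  {A : ι → Type} [∀ i, Group (A i)] (S : CompSys K A)

/-- The centraliser of the factors in `R`. -/
def cenOf (R : ι → Prop) : Subgroup X where
  carrier := {g | ∀ i, R i → S.Cen g i}
  one_mem' := fun _ _ a => by rw [one_mul, mul_one]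
  mul_mem' := fun {g h} hg hh i hi a => by
    rw [mul_assoc, hh i hi a, ← mul_assoc, hg i hi a, mul_assoc]
  inv_mem' := fun {g} hg i hi a => by
    rw [inv_mul_eq_iff_eq_mul, ← mul_assoc, hg i hi a, mul_assoc, mul_inv_cancel, mul_one]

/-- Inside the centraliser of the factors in `R` the other factors form a system. -/
def restrictSys (R : ι → Prop) :
    CompSys (K.subgroupOf (S.cenOf R)) (fun i : {i // ¬ R i} => A i) :=
  let ext' : (Π i : {i // ¬ R i}, A i) →* Π i, A i :=
    { toFun := fun a i => if h : ¬ R i then a ⟨i, h⟩ else 1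
      map_one' := by funext i; by_cases h : R i <;> simp [h]
      map_mul' := fun a b => by funext i; by_cases h : R i <;> simp [h] }
  have hextR : ∀ a i, R i → ext' a i = 1 := fun a i hi => dif_neg (not_not.2 hi)
  have hext : ∀ (a : Π i : {i // ¬ R i}, A i) (i : {i // ¬ R i}), ext' a i = a i :=
    fun a i => dif_pos i.2
  have hmem : ∀ f : Π i, A i, (∀ i, R i → f i = 1) → S.φ f ∈ S.cenOf R := fun f hf i hi a => by
    rw [S.j_apply, ← map_mul, ← map_mul]
    congr 1
    funext l
    by_cases hl : l = i
    · subst hl; simp [hf l hi]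
    · simp [hl]
  let φ1 : (Π i : {i // ¬ R i}, A i) →* S.cenOf R :=
    (S.φ.comp ext').codRestrict (S.cenOf R) fun a => hmem _ (hextR a)
  have hrange : ∀ f, (∀ i, R i → f i = 1) → ∀ h : S.φ f ∈ S.cenOf R,
      (⟨S.φ f, h⟩ : S.cenOf R) ∈ φ1.range := by
    intro f hf h
    refine ⟨fun i => f i, Subtype.ext (congrArg S.φ (funext fun i => ?_))⟩
    show (if h : ¬ R i then f i else 1) = f i
    by_cases hi : R i
    · rw [dif_neg (not_not.2 hi), hf i hi]
    · rw [dif_pos hi]
  { φ := φ1
    inj := fun a b h => funext fun i => by
      rw [← hext a i, ← hext b i,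
        S.inj (show S.φ (ext' a) = S.φ (ext' b) from congrArg Subtype.val h)]
    le := by rintro _ ⟨a, rfl⟩; exact S.le ⟨_, rfl⟩
    norm := by
      refine ⟨?_⟩
      rintro _ ⟨a, rfl⟩ g
      obtain ⟨f, hf⟩ := S.norm.conj_mem (S.φ (ext' a)) ⟨_, rfl⟩ (g : X)
      have hfY : S.φ f ∈ S.cenOf R := by rw [hf]; exact (g * φ1 a * g⁻¹).2
      have hf1 : ∀ i, R i → f i = 1 := fun i hi => S.center i _ fun b => by
        have := hfY i hi b
        rw [S.j_apply, ← map_mul, ← map_mul] at this
        simpa using congrFun (S.inj this) i
      convert hrange f hf1 hfY using 1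
      exact Subtype.ext hf.symm
    normK := S.normK.comap _
    cent := fun y hy hcomm => Subtype.ext <| S.eq_one_of_cen hy fun i => by
      by_cases hi : R i
      · exact y.2 i hi
      · intro a
        have h := congrArg Subtype.val
          (hcomm (Pi.mulSingle (⟨i, hi⟩ : {i // ¬ R i}) a))
        have e : ext' (Pi.mulSingle (⟨i, hi⟩ : {i // ¬ R i}) a) = Pi.mulSingle i a := by
          funext l
          show (if h : ¬ R l then _ else 1) = _
          by_cases hl : R l
          · rw [dif_neg (not_not.2 hl), Pi.mulSingle_eq_of_ne]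
            exact fun e => hi (e ▸ hl)
          · rw [dif_pos hl]
            by_cases hli : l = i
            · subst hli; simp
            · rw [Pi.mulSingle_eq_of_ne (fun e => hli (congrArg Subtype.val e)),
                Pi.mulSingle_eq_of_ne hli]
        change (y : X) * S.φ (ext' _) = S.φ (ext' _) * y at h
        rw [e] at h
        exact h
    center := fun i => S.center i
    simple := fun i => S.simple i }

end CompSys

end Vale.Agent.P240
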