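import Mathlib

/-!
# Solvable normal subgroups
-/

set_option linter.unusedSectionVars false

noncomputable section

namespace Vale.Agent.P240

variable {G : Type*} [Group G]

/-- A perfect subgroup of a solvable subgroup is trivial. -/
theorem perfect_eq_bot {H S : Subgroup G} [Group.IsSolvable S] (hle : H ≤ S) (h : ⁅H, H⁆ = H) :
    H = ⊥ := by
  have hd : ∀ n, H ≤ (derivedSeries S n).map S.subtype := by
    intro n
    induction n with
    | zero => rwa [derivedSeries_zero, ← MonoidHom.range_eq_map, Subgroup.range_subtype]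
    | succ n ih =>
      rw [derivedSeries_succ, Subgroup.map_commutator]
      exact h.symm.le.trans (Subgroup.commutator_mono ih ih)
  obtain ⟨n, hn⟩ := ‹Group.IsSolvable S›.solvable
  have := hd n
  rw [hn, Subgroup.map_bot] at this
  exact le_bot_iff.1 this

theorem isSolvable_map {G' : Type*} [Group G'] (f : G →* G') (S : Subgroup G) [Group.IsSolvable S] :
    Group.IsSolvable (S.map f) :=
  Group.isSolvable_of_surjective (f.subgroupMap_surjective S)

/-- Commutators of elements of a subgroup commute with that subgroup. -/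
def ClassTwo (W : Subgroup G) : Prop :=
  ∀ a ∈ W, ∀ b ∈ W, ∀ c ∈ W, a * b * a⁻¹ * b⁻¹ * c = c * (a * b * a⁻¹ * b⁻¹)

theorem ClassTwo.commutator_central {W : Subgroup G} (hW : ClassTwo W) :
    ⁅W, W⁆ ≤ Subgroup.centralizer (W : Set G) := by
  rw [Subgroup.commutator_le]
  intro a ha b hb
  rw [Subgroup.mem_centralizer_iff]
  intro c hc
  exact (hW a ha b hb c hc).symm

/-- A class two normal subgroup has odd order when there are no normal two-subgroups. -/
theorem ClassTwo.odd [Finite G] {W : Subgroup G} [W.Normal] (hW : ClassTwo W)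
    (hO2 : ∀ N : Subgroup G, N.Normal → IsPGroup 2 N → N = ⊥) : ¬ 2 ∣ Nat.card W := by
  have : Fact (Nat.Prime 2) := ⟨Nat.prime_two⟩
  have hnil : Group.IsNilpotent W := by
    refine Group.of_quotient_center_nilpotent ?_
    have hc : ∀ a b : W ⧸ Subgroup.center W, a * b = b * a := by
      intro a b
      induction a using QuotientGroup.induction_on with
      | _ a =>
      induction b using QuotientGroup.induction_on with
      | _ b =>
      rw [← QuotientGroup.mk_mul, ← QuotientGroup.mk_mul, QuotientGroup.eq]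
      rw [Subgroup.mem_center_iff]
      intro c
      have h := hW _ (b⁻¹ : W).2 _ (a⁻¹ : W).2 c c.2
      apply Subtype.ext
      simpa [mul_assoc] using h.symm
    let : CommGroup (W ⧸ Subgroup.center W) :=
      { (inferInstance : Group (W ⧸ Subgroup.center W)) with mul_comm := hc }
    exact CommGroup.isNilpotent
  obtain ⟨P⟩ : Nonempty (Sylow 2 W) := inferInstance
  have hPn : (P : Subgroup W).Normal := inferInstance
  have hPc : (P : Subgroup W).Characteristic := P.characteristic_of_normal hPn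
  have hbot : (P : Subgroup W).map W.subtype = ⊥ :=
    hO2 _ inferInstance (P.isPGroup'.map W.subtype)
  intro hd
  have hP1 : (P : Subgroup W) = ⊥ := (Subgroup.map_eq_bot_iff_of_injective _ W.subtype_injective).1 hbot
  obtain ⟨x, hx⟩ := exists_prime_orderOf_dvd_card' 2 hd
  have hz : IsPGroup 2 (Subgroup.zpowers x) :=
    IsPGroup.of_card (n := 1) (by rw [Nat.card_zpowers, hx, pow_one])
  obtain ⟨Q, hQ⟩ := hz.exists_le_sylow
  have hQP : (Q : Subgroup W) = P := by
    obtain ⟨g, hg⟩ := MulAction.exists_smul_eq W P Q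
    rw [← hg, Sylow.smul_eq_of_normal]
  rw [hQP, hP1, le_bot_iff, Subgroup.zpowers_eq_bot] at hQ
  rw [hQ, orderOf_one] at hx
  exact absurd hx (by norm_num)

/-- The maximal class two normal subgroup of a solvable normal subgroup contains its centraliser. -/
theorem centralizer_le_of_max [Finite G] {S W : Subgroup G} [S.Normal] [Group.IsSolvable S]
    [W.Normal] (hWS : W ≤ S) (hW : ClassTwo W)
    (hmax : ∀ W' : Subgroup G, W'.Normal → W' ≤ S → ClassTwo W' → W ≤ W' → W' = W) :
    Subgroup.centralizer (W : Set G) ⊓ S ≤ W := by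
  set C := Subgroup.centralizer (W : Set G) ⊓ S with hC
  by_contra hnot
  set Z := W ⊓ C with hZ
  have hZC : Z < C := lt_of_le_of_ne inf_le_right fun e => hnot (inf_eq_right.1 e)
  let cand : Set (Subgroup G) := {M | M.Normal ∧ Z < M ∧ M ≤ C}
  obtain ⟨M, ⟨hMn, hZM, hMC⟩, hmin⟩ := Set.Finite.exists_minimal (s := cand) (Set.toFinite _)
    ⟨C, inferInstance, hZC, le_rfl⟩
  have := hMn
  have hcZ : ⁅M, M⁆ ≤ Z := by
    by_contra hc
    have hle : ⁅M, M⁆ ⊔ Z ≤ M := sup_le (Subgroup.commutator_le_right M M) hZM.le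
    have hlt : Z < ⁅M, M⁆ ⊔ Z :=
      lt_of_le_of_ne le_sup_right fun e => hc (by rw [e]; exact le_sup_left)
    have heq : M ≤ ⁅M, M⁆ ⊔ Z := hmin ⟨inferInstance, hlt, hle.trans hMC⟩ hle
    set f := QuotientGroup.mk' Z with hf
    have hperf : ⁅M.map f, M.map f⁆ = M.map f := by
      rw [← Subgroup.map_commutator]
      refine le_antisymm (Subgroup.map_mono (Subgroup.commutator_le_right M M)) ?_
      refine (Subgroup.map_mono heq).trans ?_
      rw [Subgroup.map_sup, hf, QuotientGroup.map_mk'_self, sup_bot_eq]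
    have := isSolvable_map f S
    have hbot := perfect_eq_bot (S := S.map f)
      (Subgroup.map_mono (hMC.trans inf_le_right)) hperf
    rw [Subgroup.map_eq_bot_iff, hf, QuotientGroup.ker_mk'] at hbot
    exact not_lt_of_ge hbot hZM
  have hMW : ∀ m ∈ M, ∀ w ∈ W, w * m = m * w := fun m hm w hw =>
    Subgroup.mem_centralizer_iff.1 (hMC hm).1 w hw
  have hcl : ClassTwo (W ⊔ M) := by
    intro a ha b hb c hc
    obtain ⟨w, hw, m, hm, rfl⟩ := Subgroup.mem_sup_of_normal_right.1 ha
    obtain ⟨w', hw', m', hm', rfl⟩ := Subgroup.mem_sup_of_normal_right.1 hb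
    obtain ⟨u, hu, n, hn, rfl⟩ := Subgroup.mem_sup_of_normal_right.1 hc
    have hcm : ∀ x ∈ W, ∀ y ∈ M, Commute x y := fun x hx y hy => hMW y hy x hx
    set cw := w * w' * w⁻¹ * w'⁻¹ with hcw
    set cm := m * m' * m⁻¹ * m'⁻¹ with hcm'
    have hcwW : cw ∈ W := by
      simp only [hcw]
      exact W.mul_mem (W.mul_mem (W.mul_mem hw hw') (W.inv_mem hw)) (W.inv_mem hw')
    have hcmZ : cm ∈ Z := hcZ (Subgroup.commutator_mem_commutator hm hm')
    have hcmM : cm ∈ M := hZM.le hcmZ
    have e : w * m * (w' * m') * (w * m)⁻¹ * (w' * m')⁻¹ = cw * cm := by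
      have e1 : m * w' = w' * m := (hcm w' hw' m hm).eq.symm
      have e2 : Commute (m * m' * m⁻¹) w⁻¹ :=
        (hcm _ (W.inv_mem hw) _ (M.mul_mem (M.mul_mem hm hm') (M.inv_mem hm))).symm
      have e3 : Commute (m * m' * m⁻¹ * m'⁻¹) w'⁻¹ := (hcm _ (W.inv_mem hw') _ hcmM).symm
      calc w * m * (w' * m') * (w * m)⁻¹ * (w' * m')⁻¹
          = w * (m * w') * m' * m⁻¹ * w⁻¹ * m'⁻¹ * w'⁻¹ := by group
        _ = w * w' * ((m * m' * m⁻¹) * w⁻¹) * m'⁻¹ * w'⁻¹ := by rw [e1]; group
        _ = w * w' * w⁻¹ * ((m * m' * m⁻¹ * m'⁻¹) * w'⁻¹) := by rw [e2.eq]; group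
        _ = cw * cm := by rw [e3.eq, hcw, hcm']; group
    rw [e]
    have h1 : Commute cw u := hW w hw w' hw' u hu
    have h2 : Commute cw n := hcm _ hcwW n hn
    have h3 : Commute cm u := (hcm u hu cm hcmM).symm
    have h4 : Commute cm n := hcm cm hcmZ.1 n hn
    exact ((h1.mul_right h2).mul_left (h3.mul_right h4)).eq
  have hle : M ≤ W := by
    rw [← hmax (W ⊔ M) inferInstance (sup_le hWS (hMC.trans inf_le_right)) hcl le_sup_left]
    exact le_sup_right
  exact not_lt_of_ge (le_inf hle hMC) hZM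

end Vale.Agent.P240
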