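import Vale.Agent.P240.Alternating

/-!
# Separation data for the alternating groups of degree five and seven
-/

set_option linter.unusedSectionVars false

open Equiv Equiv.Perm

noncomputable section

namespace Vale.Agent.P240

section General

variable {Ω : Type*} [Fintype Ω] [DecidableEq Ω]

theorem closure_comm {A : Type*} [Group A] {T : Set A} (h : ∀ a ∈ T, ∀ b ∈ T, a * b = b * a) :
    ∀ a ∈ Subgroup.closure T, ∀ b ∈ Subgroup.closure T, a * b = b * a := by
  have h1 : Subgroup.closure T ≤ Subgroup.centralizer (Subgroup.closure T : Subgroup A) := by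
    rw [Subgroup.centralizer_closure, Subgroup.closure_le]
    intro a ha
    rw [SetLike.mem_coe, Subgroup.mem_centralizer_iff]
    exact fun b hb => h b hb a ha
  exact fun a ha b hb => (Subgroup.mem_centralizer_iff.1 (h1 ha) b hb).symm

theorem closure_three {A : Type*} [Group A] {T : Set A} (h : ∀ a ∈ T, ∀ b ∈ T, a * b = b * a)
    (h3 : ∀ a ∈ T, a ^ 3 = 1) : IsPGroup 3 (Subgroup.closure T) := by
  rintro ⟨g, hg⟩
  refine ⟨1, Subtype.ext ?_⟩
  show g ^ 3 ^ 1 = 1
  rw [pow_one]
  induction hg using Subgroup.closure_induction with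
  | mem a ha => exact h3 a ha
  | one => exact one_pow _
  | mul a b ha hb iha ihb =>
    rw [(show Commute a b from closure_comm h a ha b hb).mul_pow, iha, ihb, one_mul]
  | inv a _ iha => rw [inv_pow, iha, inv_one]

/-- The permutation realising an involutory automorphism squares to one. -/
theorem sq_eq_one_of_aut (h4 : 4 ≤ Fintype.card Ω) {α : MulAut (alternatingGroup Ω)}
    {σ : Perm Ω}
    (hσ : ∀ z : alternatingGroup Ω, ((α z : alternatingGroup Ω) : Perm Ω) = σ * z * σ⁻¹)
    (h2 : α * α = 1) : σ * σ = 1 := by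
  refine eq_one_of_commutes h4 fun z => ?_
  have e : ((α (α z) : alternatingGroup Ω) : Perm Ω) = z := by
    rw [← MulAut.mul_apply, h2]; rfl
  rw [hσ, hσ] at e
  calc σ * σ * (z : Perm Ω) = σ * (σ * (z : Perm Ω) * σ⁻¹) * σ⁻¹ * (σ * σ) := by group
    _ = (z : Perm Ω) * (σ * σ) := by rw [e]

theorem comm_of_fixed {α : MulAut (alternatingGroup Ω)} {σ : Perm Ω}
    (hσ : ∀ z : alternatingGroup Ω, ((α z : alternatingGroup Ω) : Perm Ω) = σ * z * σ⁻¹)
    {z : alternatingGroup Ω} (hz : α z = z) : σ * (z : Perm Ω) = z * σ := by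
  have e := hσ z
  rw [hz] at e
  calc σ * (z : Perm Ω) = σ * (z : Perm Ω) * σ⁻¹ * σ := by group
    _ = z * σ := by rw [← e]

theorem aut_eq_one {α : MulAut (alternatingGroup Ω)} {σ : Perm Ω}
    (hσ : ∀ z : alternatingGroup Ω, ((α z : alternatingGroup Ω) : Perm Ω) = σ * z * σ⁻¹)
    (h : σ = 1) : α = 1 :=
  MulEquiv.ext fun z => Subtype.ext (by rw [hσ z, h]; simp)

/-- Combinatorial data for two elementary abelian states of order four. -/
structure TwoStates (T : Set (alternatingGroup Ω)) where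
  S : Fin 2 → List (Perm Ω)
  y : Fin 2 → alternatingGroup Ω
  y_mem : ∀ s, y s ∈ T
  ne : ∀ s, ∃ a : alternatingGroup Ω, (a : Perm Ω) ∈ S s
  notone : ∀ s, (1 : Perm Ω) ∉ S s
  closed : ∀ s, ∀ a ∈ 1 :: S s, ∀ b ∈ 1 :: S s, a * b ∈ 1 :: S s ∧ a * b = b * a ∧ a * a = 1
  trans : ∀ s, ∀ a ∈ S s, ∀ b ∈ S s, b = a ∨ b = (y s : Perm Ω) * a * (y s : Perm Ω)⁻¹ ∨
    b = (y s * y s : Perm Ω) * a * (y s * y s : Perm Ω)⁻¹
  moves : ∀ s, ∀ a ∈ S s, (y s : Perm Ω) * a ≠ a * y s
  norm : ∀ t ∈ T, ∀ s, ∀ a ∈ 1 :: S s, (t : Perm Ω) * a * (t : Perm Ω)⁻¹ ∈ 1 :: S s ∧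
    (t : Perm Ω)⁻¹ * a * (t : Perm Ω) ∈ 1 :: S s
  sep : ∀ a ∈ S 0, ∀ b ∈ S 1, a * b ≠ b * a
  inv : ∀ a : alternatingGroup Ω, a * a = 1 →
    (∀ t ∈ T, a * (t * a * t⁻¹) = t * a * t⁻¹ * a) →
    a = 1 ∨ (a : Perm Ω) ∈ S 0 ∨ (a : Perm Ω) ∈ S 1

namespace TwoStates

variable {T : Set (alternatingGroup Ω)} (D : TwoStates T)

theorem mul_self_mem {s : Fin 2} {a : Perm Ω} (h : a ∈ 1 :: D.S s) : a * a = 1 :=
  (D.closed s a h a h).2.2

/-- The state. -/
def V (s : Fin 2) : Subgroup (alternatingGroup Ω) where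
  carrier := {g | (g : Perm Ω) ∈ 1 :: D.S s}
  one_mem' := List.mem_cons_self
  mul_mem' := fun {a b} ha hb => (D.closed s _ ha _ hb).1
  inv_mem' := fun {a} ha => by
    show ((a⁻¹ : alternatingGroup Ω) : Perm Ω) ∈ 1 :: D.S s
    rw [Subgroup.coe_inv, inv_eq_of_mul_eq_one_right (D.mul_self_mem ha)]
    exact ha

theorem mem_V {s : Fin 2} {g : alternatingGroup Ω} :
    g ∈ D.V s ↔ g = 1 ∨ (g : Perm Ω) ∈ D.S s := by
  show (g : Perm Ω) ∈ 1 :: D.S s ↔ _
  rw [List.mem_cons, OneMemClass.coe_eq_one]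

theorem V_ne_bot (s : Fin 2) : D.V s ≠ ⊥ := by
  obtain ⟨a, ha⟩ := D.ne s
  intro e
  have h : a ∈ D.V s := D.mem_V.2 (Or.inr ha)
  rw [e, Subgroup.mem_bot] at h
  rw [h] at ha
  exact D.notone s ha

theorem V_elem (s : Fin 2) : IsElem 2 (D.V s) := by
  refine ⟨fun a ha b hb => Subtype.ext (D.closed s _ ha _ hb).2.1, fun a ha => Subtype.ext ?_⟩
  rw [Subgroup.coe_pow, pow_two]
  exact D.mul_self_mem ha

theorem V_inv {g : alternatingGroup Ω} (hg : g ∈ Subgroup.closure T) (s : Fin 2) :
    cj g (D.V s) = D.V s := by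
  induction hg using Subgroup.closure_induction with
  | mem t ht =>
    ext z
    rw [mem_cj]
    refine ⟨fun h => ?_, fun h => (D.norm t ht s _ h).2⟩
    have h' := (D.norm t ht s _ h).1
    have e : (t : Perm Ω) * ((t⁻¹ * z * t : alternatingGroup Ω) : Perm Ω) * (t : Perm Ω)⁻¹ = z := by
      simp [mul_assoc]
    rw [e] at h'
    exact h'
  | one => exact cj_one _
  | mul a b _ _ iha ihb => rw [cj_mul, ihb, iha]
  | inv a _ iha =>
    conv_lhs => rw [← iha]
    rw [← cj_mul, inv_mul_cancel, cj_one]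

theorem V_moves (s : Fin 2) :
    ∃ q ∈ Subgroup.closure T, ∃ w ∈ D.V s, q * w ≠ w * q := by
  obtain ⟨a, ha⟩ := D.ne s
  exact ⟨D.y s, Subgroup.subset_closure (D.y_mem s), a, D.mem_V.2 (Or.inr ha),
    fun e => D.moves s _ ha (congrArg Subtype.val e)⟩

theorem complete (W : Subgroup (alternatingGroup Ω)) (hW : IsElem 2 W)
    (hinv : ∀ t ∈ T, cj t W = W) : W = ⊥ ∨ W = D.V 0 ∨ W = D.V 1 := by
  have hconj : ∀ t ∈ T, ∀ w ∈ W, t * w * t⁻¹ ∈ W := fun t ht w hw => by
    rw [← hinv t ht, mem_cj]; simpa [mul_assoc] using hw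
  have hcl : ∀ w ∈ W, w = 1 ∨ (w : Perm Ω) ∈ D.S 0 ∨ (w : Perm Ω) ∈ D.S 1 := fun w hw =>
    D.inv w (by have := hW.2 w hw; rwa [pow_two] at this)
      fun t ht => hW.1 w hw _ (hconj t ht w hw)
  have hfull : ∀ s, ∀ w ∈ W, (w : Perm Ω) ∈ D.S s → D.V s ≤ W := by
    intro s w hw hws z hz
    rcases D.mem_V.1 hz with rfl | hzs
    · exact one_mem W
    have h1 := hconj _ (D.y_mem s) w hw
    rcases D.trans s _ hws _ hzs with e | e | e
    · rw [show z = w from Subtype.ext e]; exact hw
    · rw [show z = D.y s * w * (D.y s)⁻¹ from Subtype.ext e]; exact h1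
    · rw [show z = D.y s * (D.y s * w * (D.y s)⁻¹) * (D.y s)⁻¹ from Subtype.ext (by
        rw [e]; simp [mul_assoc])]
      exact hconj _ (D.y_mem s) _ h1
  by_cases h0 : ∃ w ∈ W, (w : Perm Ω) ∈ D.S 0
  · obtain ⟨a, ha, has⟩ := h0
    refine Or.inr (Or.inl (le_antisymm (fun w hw => ?_) (hfull 0 a ha has)))
    rcases hcl w hw with h | h | h
    · exact D.mem_V.2 (Or.inl h)
    · exact D.mem_V.2 (Or.inr h)
    · exact absurd (congrArg Subtype.val (hW.1 a ha w hw)) (D.sep _ has _ h)
  · push Not at h0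
    by_cases h1 : ∃ w ∈ W, (w : Perm Ω) ∈ D.S 1
    · obtain ⟨b, hb, hbs⟩ := h1
      refine Or.inr (Or.inr (le_antisymm (fun w hw => ?_) (hfull 1 b hb hbs)))
      rcases hcl w hw with h | h | h
      · exact D.mem_V.2 (Or.inl h)
      · exact absurd h (h0 w hw)
      · exact D.mem_V.2 (Or.inr h)
    · push Not at h1
      refine Or.inl (Subgroup.eq_bot_iff_forall _ |>.2 fun w hw => ?_)
      rcases hcl w hw with h | h | h
      · exact h
      · exact absurd h (h0 w hw)
      · exact absurd h (h1 w hw)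

theorem antichain {s s' : Fin 2} (h : D.V s ≤ D.V s') : D.V s = D.V s' := by
  by_contra hne
  obtain ⟨a, ha⟩ := D.ne s
  have hs : s ≠ s' := fun e => hne (by rw [e])
  rcases D.mem_V.1 (h (D.mem_V.2 (Or.inr ha))) with e | hb
  · rw [e] at ha; exact D.notone s ha
  · fin_cases s <;> fin_cases s'
    · exact hs rfl
    · exact D.sep _ ha _ hb rfl
    · exact D.sep _ hb _ ha rfl
    · exact hs rfl

theorem V_distinct : D.V 0 ≠ D.V 1 := by
  intro e
  obtain ⟨a, ha⟩ := D.ne 0
  rcases D.mem_V.1 (e ▸ D.mem_V.2 (Or.inr ha)) with h | h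
  · rw [h] at ha; exact D.notone 0 ha
  · exact D.sep _ ha _ h rfl

end TwoStates

/-- Assembling the data from two states. -/
theorem two_sepData {T : Set (alternatingGroup Ω)} (D : TwoStates T)
    (hcomm : ∀ a ∈ T, ∀ b ∈ T, a * b = b * a) (h3 : ∀ a ∈ T, a ^ 3 = 1)
    (houter : ∀ α β : MulAut (alternatingGroup Ω), FixesData (Subgroup.closure T) 1 α →
      FixesData (Subgroup.closure T) 1 β → α ≠ 1 → β ≠ 1 → α = β)
    (hmoved : ∀ α : MulAut (alternatingGroup Ω), FixesData (Subgroup.closure T) 1 α → α ≠ 1 →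
      ∀ s, ∃ w ∈ D.V s, α w ≠ w)
    (hflex : (∃ α : MulAut (alternatingGroup Ω), FixesData (Subgroup.closure T) 1 α ∧ α ≠ 1) →
      ∃ xT : alternatingGroup Ω, Odd (orderOf xT) ∧
        (∀ W, IsElem 2 W → cj xT W = W → W = ⊥) ∧
        (∀ α : MulAut (alternatingGroup Ω), α * α = 1 → α xT = xT → α = 1) ∧
        ∀ α : MulAut (alternatingGroup Ω), α * α = 1 →
          ∃ l : alternatingGroup Ω, FixesData (Subgroup.closure T) 1 (MulAut.conj l * α)) :
    Nonempty (SepData (alternatingGroup Ω)) := by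
  classical
  exact ⟨{
    Q := Subgroup.closure T
    x := 1
    Q_ne := fun e => by
      obtain ⟨q, hq, w, -, hne⟩ := D.V_moves 0
      rw [e, Subgroup.mem_bot] at hq
      exact hne (by rw [hq, one_mul, mul_one])
    Q_three := closure_three hcomm h3
    Q_comm := closure_comm hcomm
    x_comm := fun a _ => by rw [one_mul, mul_one]
    x_odd := by rw [orderOf_one]; exact odd_one
    states := {D.V 0, D.V 1}
    states_card := Or.inr (Finset.card_pair D.V_distinct)
    states_spec := fun W hW => by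
      simp only [Finset.mem_insert, Finset.mem_singleton] at hW
      rcases hW with rfl | rfl <;>
        exact ⟨D.V_elem _, D.V_ne_bot _, ⟨cj_one _, fun q hq => D.V_inv hq _⟩, D.V_moves _⟩
    states_antichain := fun W hW W' hW' h => by
      simp only [Finset.mem_insert, Finset.mem_singleton] at hW hW'
      rcases hW with rfl | rfl <;> rcases hW' with rfl | rfl <;> exact D.antichain h
    states_complete := fun W h1 h2 => by
      rcases D.complete W h1 (fun t ht => h2.2 t (Subgroup.subset_closure ht)) with h | h | h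
      · exact Or.inl h
      · exact Or.inr (by simp [h])
      · exact Or.inr (by simp [h])
    outer_unique := houter
    outer_states := fun α hα hne => ⟨⟨D.V 0, by simp⟩, fun W hW => by
      simp only [Finset.mem_insert, Finset.mem_singleton] at hW
      rcases hW with rfl | rfl <;> exact hmoved α hα hne _⟩
    flexible := hflex }⟩

end General

section Five

/-- The three-cycle of the five-point case. -/
def y5 : alternatingGroup (Fin 5) :=
  ⟨swap 0 1 * swap 1 2, by rw [mem_alternatingGroup]; decide +kernel⟩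

/-- The five-cycle. -/
def f5 : alternatingGroup (Fin 5) :=
  ⟨finRotate 5, by rw [mem_alternatingGroup]; decide +kernel⟩

/-- The possible outer involution. -/
def t5 : Perm (Fin 5) := swap 3 4

/-- The nontrivial elements of the two states. -/
def S5 : Fin 2 → List (Perm (Fin 5)) :=
  ![[swap 0 1 * swap 2 4, swap 0 2 * swap 1 4, swap 0 4 * swap 1 2],
    [swap 0 1 * swap 2 3, swap 0 2 * swap 1 3, swap 0 3 * swap 1 2]]

theorem five_inv : ∀ a : alternatingGroup (Fin 5), a * a = 1 →
    a * (y5 * a * y5⁻¹) = y5 * a * y5⁻¹ * a →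
    a = 1 ∨ (a : Perm (Fin 5)) ∈ S5 0 ∨ (a : Perm (Fin 5)) ∈ S5 1 := by decide +kernel

theorem five_outer : ∀ σ : Perm (Fin 5), σ * σ = 1 → σ * (y5 : Perm (Fin 5)) = y5 * σ →
    σ = 1 ∨ σ = t5 := by decide +kernel

theorem five_free : ∀ a : alternatingGroup (Fin 5), a * a = 1 →
    a * (f5 * a * f5⁻¹) = f5 * a * f5⁻¹ * a → a = 1 := by decide +kernel

theorem five_rigid : ∀ σ : Perm (Fin 5), σ * σ = 1 → σ * (f5 : Perm (Fin 5)) = f5 * σ →
    σ = 1 := by decide +kernel

theorem five_three : ∀ a : alternatingGroup (Fin 5), a * a * a = 1 → a ≠ 1 →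
    (a : Perm (Fin 5)).support.card = 3 := by decide +kernel

/-- The two states in five points. -/
def two5 : TwoStates ({y5} : Set (alternatingGroup (Fin 5))) where
  S := S5
  y := fun _ => y5
  y_mem := fun _ => rfl
  ne := by decide +kernel
  notone := by decide +kernel
  closed := by decide +kernel
  trans := by decide +kernel
  moves := by decide +kernel
  norm := by
    intro t ht
    rw [Set.mem_singleton_iff.1 ht]
    decide +kernel
  sep := by decide +kernel
  inv := fun a h1 h2 => five_inv a h1 (h2 y5 rfl)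

theorem five_perm {α : MulAut (alternatingGroup (Fin 5))} (hα : α * α = 1) :
    ∃ σ : Perm (Fin 5),
      (∀ z : alternatingGroup (Fin 5),
        ((α z : alternatingGroup (Fin 5)) : Perm (Fin 5)) = σ * z * σ⁻¹) ∧ σ * σ = 1 := by
  obtain ⟨σ, hσ⟩ := exists_perm_of_preserves (by simp) α fun z hz => by
    rw [← card_support_eq_three_iff]
    refine five_three (α z) ?_ fun e => hz.ne_one ?_
    · rw [← map_mul, ← map_mul, show z * z * z = 1 from Subtype.ext (by
        have h := pow_orderOf_eq_one (z : Perm (Fin 5))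
        rw [hz.orderOf] at h
        simpa [pow_succ] using h), map_one]
    · rw [← map_one α] at e
      rw [α.injective e]; rfl
  exact ⟨σ, hσ, sq_eq_one_of_aut (by simp) hσ hα⟩

theorem five_fix {α : MulAut (alternatingGroup (Fin 5))}
    (hα : FixesData (Subgroup.closure ({y5} : Set (alternatingGroup (Fin 5)))) 1 α)
    (hne : α ≠ 1) :
    ∀ z : alternatingGroup (Fin 5),
      ((α z : alternatingGroup (Fin 5)) : Perm (Fin 5)) = t5 * z * t5⁻¹ := by
  obtain ⟨σ, hσ, h2⟩ := five_perm hα.1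
  rcases five_outer σ h2 (comm_of_fixed hσ (hα.2.2 y5 (Subgroup.subset_closure rfl))) with h | h
  · exact absurd (aut_eq_one hσ h) hne
  · rw [h] at hσ; exact hσ

theorem five_moved : ∀ s, ∃ w : alternatingGroup (Fin 5),
    (w : Perm (Fin 5)) ∈ S5 s ∧ t5 * (w : Perm (Fin 5)) * t5⁻¹ ≠ w := by decide +kernel

theorem sepData_five : Nonempty (SepData (alternatingGroup (Fin 5))) := by
  refine two_sepData two5 ?_ ?_ ?_ ?_ ?_
  · intro a ha b hb; rw [Set.mem_singleton_iff.1 ha, Set.mem_singleton_iff.1 hb]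
  · intro a ha; rw [Set.mem_singleton_iff.1 ha]; decide +kernel
  · exact fun α β hα hβ h h' =>
      MulEquiv.ext fun z => Subtype.ext (by rw [five_fix hα h z, five_fix hβ h' z])
  · intro α hα hne s
    obtain ⟨w, hw, hw'⟩ := five_moved s
    refine ⟨w, two5.mem_V.2 (Or.inr hw), fun e => hw' ?_⟩
    rw [← five_fix hα hne w, e]
  · intro _
    refine ⟨f5, ?_, fun W hW hinv => ?_, fun α hα hfix => ?_, fun α hα => ?_⟩
    · refine Odd.of_dvd_nat (by decide : Odd 5) (orderOf_dvd_of_pow_eq_one ?_)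
      decide +kernel
    · rw [Subgroup.eq_bot_iff_forall]
      intro w hw
      refine five_free w (by have := hW.2 w hw; rwa [pow_two] at this) (hW.1 w hw _ ?_)
      rw [← hinv, mem_cj]; simpa [mul_assoc] using hw
    · obtain ⟨σ, hσ, h2⟩ := five_perm hα
      exact aut_eq_one hσ (five_rigid σ h2 (comm_of_fixed hσ hfix))
    · obtain ⟨σ, hσ, h2⟩ := five_perm hα
      obtain ⟨ρ, hρ, hρy, hρ2, l, hl⟩ : ∃ ρ : Perm (Fin 5), (ρ = 1 ∨ ρ = t5) ∧
          ρ * (y5 : Perm (Fin 5)) * ρ⁻¹ = y5 ∧ ρ * ρ = 1 ∧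
          ∃ l : alternatingGroup (Fin 5), (l : Perm (Fin 5)) * σ = ρ := by
        rcases Int.units_eq_one_or (sign σ) with hs | hs
        · exact ⟨1, Or.inl rfl, by simp, by simp, ⟨σ⁻¹, by simp [mem_alternatingGroup, hs]⟩,
            inv_mul_cancel σ⟩
        · refine ⟨t5, Or.inr rfl, by decide +kernel, by decide +kernel, ⟨t5 * σ⁻¹, ?_⟩,
            by simp⟩
          simp [mem_alternatingGroup, t5, hs]
      have hb : ∀ z : alternatingGroup (Fin 5),
          (((MulAut.conj l * α) z : alternatingGroup (Fin 5)) : Perm (Fin 5)) = ρ * z * ρ⁻¹ := by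
        intro z
        rw [MulAut.mul_apply, MulAut.conj_apply, Subgroup.coe_mul, Subgroup.coe_mul, hσ z,
          Subgroup.coe_inv, ← hl]
        group
      refine ⟨l, MulEquiv.ext fun z => Subtype.ext ?_, ?_, fun q hq => ?_⟩
      · rw [MulAut.mul_apply, hb, hb]
        show ρ * (ρ * (z : Perm (Fin 5)) * ρ⁻¹) * ρ⁻¹ = z
        rw [show ρ⁻¹ = ρ from inv_eq_of_mul_eq_one_right hρ2]
        calc ρ * (ρ * (z : Perm (Fin 5)) * ρ) * ρ = (ρ * ρ) * z * (ρ * ρ) := by group
          _ = z := by rw [hρ2, one_mul, mul_one]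
      · exact map_one _
      · induction hq using Subgroup.closure_induction with
        | mem t ht => rw [Set.mem_singleton_iff.1 ht]; exact Subtype.ext ((hb y5).trans hρy)
        | one => exact map_one _
        | mul a b _ _ iha ihb => rw [map_mul, iha, ihb]
        | inv a _ iha => rw [map_inv, iha]

end Five

section Seven

attribute [local instance 2000] List.decidableBAll

/-- The first three-cycle in seven points. -/
def y7 : alternatingGroup (Fin 7) :=
  ⟨swap 0 1 * swap 1 2, by rw [mem_alternatingGroup]; decide +kernel⟩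

/-- The second three-cycle in seven points. -/
def z7 : alternatingGroup (Fin 7) :=
  ⟨swap 3 4 * swap 4 5, by rw [mem_alternatingGroup]; decide +kernel⟩

/-- Two values of one involution are consistent. -/
def Cons (i j a b : Fin 7) : Prop := (a = j → b = i) ∧ (b = i → a = j)

instance (i j a b : Fin 7) : Decidable (Cons i j a b) :=
  inferInstanceAs (Decidable (_ ∧ _))

/-- The nontrivial elements of the two states. -/
def S7 : Fin 2 → List (Perm (Fin 7)) :=
  ![[swap 0 1 * swap 2 6, swap 0 2 * swap 1 6, swap 0 6 * swap 1 2],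
    [swap 3 4 * swap 5 6, swap 3 5 * swap 4 6, swap 3 6 * swap 4 5]]

/-- The odd involutions that meet the test. -/
def Odd7 : List (Perm (Fin 7)) :=
  [swap 0 1 * swap 2 3 * swap 4 5, swap 0 1 * swap 2 4 * swap 3 5, swap 0 1 * swap 2 5 * swap 3 4,
   swap 0 2 * swap 1 3 * swap 4 5, swap 0 2 * swap 1 4 * swap 3 5, swap 0 2 * swap 1 5 * swap 3 4,
   swap 0 3 * swap 1 2 * swap 4 5, swap 0 4 * swap 1 2 * swap 3 5, swap 0 5 * swap 1 2 * swap 3 4]

/-- The values to be compared. -/
def vals (g : Perm (Fin 7)) : List (Fin 7) :=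
  [g 0, g 1, g 2, g 3, g 4, g 5, g 6]

/-- A map commutes with its conjugate by `p`, with inverse `q`. -/
def CommConj (f : Fin 7 → Fin 7) (p q : Perm (Fin 7)) : Prop :=
  ∀ i, f (p (f (q i))) = p (f (q (f i)))

instance (f : Fin 7 → Fin 7) (p q : Perm (Fin 7)) : Decidable (CommConj f p q) :=
  inferInstanceAs (Decidable (∀ _, _))

/-- Backtracking search over involutions. -/
def search (P : List (Fin 7) → Bool) : List (Fin 7) → List (Fin 7 × Fin 7) → Bool
  | [], acc => P (acc.map Prod.snd)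
  | i :: rem, acc => (List.finRange 7).all fun a =>
      !(acc.all fun p => decide (Cons p.1 i p.2 a)) || search P rem (acc ++ [(i, a)])

theorem cons_of_involution {σ : Perm (Fin 7)} (h : σ * σ = 1) (i j : Fin 7) :
    Cons i j (σ i) (σ j) := by
  have hh : ∀ a, σ (σ a) = a := fun a => by rw [← Perm.mul_apply, h]; rfl
  exact ⟨fun e => by rw [← e, hh], fun e => by rw [← e, hh]⟩

theorem search_sound {P : List (Fin 7) → Bool} {σ : Perm (Fin 7)} (hσ : σ * σ = 1) :
    ∀ rem done, search P rem (done.map fun i => (i, σ i)) = true →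
      P ((done ++ rem).map σ) = true
  | [], done, h => by simpa [search, Function.comp_def] using h
  | i :: rem, done, h => by
    rw [search, List.all_eq_true] at h
    have h' := h (σ i) (List.mem_finRange _)
    have hall : ((done.map fun j => (j, σ j)).all fun p => decide (Cons p.1 i p.2 (σ i))) = true := by
      simp [List.all_eq_true, cons_of_involution hσ]
    rw [hall, Bool.not_true, Bool.false_or] at h'
    have h'' := search_sound hσ rem (done ++ [i]) (by simpa using h')
    simpa using h''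

/-- Reading a table. -/
def look (l : List (Fin 7)) (i : Fin 7) : Fin 7 := l.getD i.val 0

/-- The test for invariant subgroups. -/
def invTest (l : List (Fin 7)) : Bool :=
  !(decide (CommConj (look l) y7 (y7 * y7 : Perm (Fin 7)) ∧
      CommConj (look l) z7 (z7 * z7 : Perm (Fin 7)))) ||
    decide (l ∈ (1 :: (S7 0 ++ S7 1) ++ Odd7).map vals)

/-- The test for centralising involutions. -/
def outTest (l : List (Fin 7)) : Bool :=
  !(decide ((∀ i, look l ((y7 : Perm (Fin 7)) i) = (y7 : Perm (Fin 7)) (look l i)) ∧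
      ∀ i, look l ((z7 : Perm (Fin 7)) i) = (z7 : Perm (Fin 7)) (look l i))) ||
    decide (l = vals 1)

theorem invTest_all : search invTest (List.finRange 7) [] = true := by decide +kernel

theorem outTest_all : search outTest (List.finRange 7) [] = true := by decide +kernel

theorem look_vals (σ : Perm (Fin 7)) : look ((List.finRange 7).map σ) = σ := by
  funext i; fin_cases i <;> rfl

theorem map_finRange (σ : Perm (Fin 7)) : (List.finRange 7).map σ = vals σ := rfl

theorem of_all {α : Type*} {p : α → Prop} [DecidablePred p] {l : List α}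
    (h : (l.all fun a => decide (p a)) = true) : ∀ a ∈ l, p a := fun a ha =>
  of_decide_eq_true (List.all_eq_true.1 h a ha)

theorem vals_inj {g h : Perm (Fin 7)} (e : vals g = vals h) : g = h := by
  simp only [vals, List.cons.injEq, and_true] at e
  obtain ⟨e0, e1, e2, e3, e4, e5, e6⟩ := e
  refine Equiv.ext fun i => ?_
  fin_cases i <;> assumption

theorem even7 : ∀ s, ∀ g ∈ S7 s, sign g = 1 := by
  intro s g hg
  fin_cases s <;> simp [S7] at hg <;> rcases hg with rfl | rfl | rfl <;> simp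

theorem seven_inv (a : alternatingGroup (Fin 7)) (h2 : a * a = 1)
    (hy : a * (y7 * a * y7⁻¹) = y7 * a * y7⁻¹ * a)
    (hz : a * (z7 * a * z7⁻¹) = z7 * a * z7⁻¹ * a) :
    a = 1 ∨ (a : Perm (Fin 7)) ∈ S7 0 ∨ (a : Perm (Fin 7)) ∈ S7 1 := by
  obtain ⟨σ, hs⟩ := a
  have h2' : σ * σ = 1 := congrArg Subtype.val h2
  have key : ∀ (p : alternatingGroup (Fin 7)), (p : Perm (Fin 7))⁻¹ = p * p →
      (⟨σ, hs⟩ : alternatingGroup (Fin 7)) * (p * ⟨σ, hs⟩ * p⁻¹) = p * ⟨σ, hs⟩ * p⁻¹ * ⟨σ, hs⟩ →
      CommConj σ p (p * p : Perm (Fin 7)) := by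
    intro p hp e i
    rw [← hp]
    exact congrArg (fun g : alternatingGroup (Fin 7) => (g : Perm (Fin 7)) i) e
  have ht := search_sound h2' (List.finRange 7) [] invTest_all
  rw [List.nil_append, invTest, look_vals, decide_eq_true
    ⟨key y7 (by decide +kernel) hy, key z7 (by decide +kernel) hz⟩, Bool.not_true, Bool.false_or,
    decide_eq_true_iff, map_finRange] at ht
  obtain ⟨g, hg, e⟩ := List.mem_map.1 ht
  obtain rfl := vals_inj e
  rw [List.mem_append, List.mem_cons, List.mem_append] at hg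
  rcases hg with (h | h | h) | h
  · exact Or.inl (Subtype.ext h)
  · exact Or.inr (Or.inl h)
  · exact Or.inr (Or.inr h)
  · exfalso
    have h1 : sign g = 1 := mem_alternatingGroup.1 hs
    simp [Odd7] at h
    rcases h with rfl | rfl | rfl | rfl | rfl | rfl | rfl | rfl | rfl <;> simp at h1

theorem seven_outer (σ : Perm (Fin 7)) (h2 : σ * σ = 1)
    (hy : σ * (y7 : Perm (Fin 7)) = y7 * σ) (hz : σ * (z7 : Perm (Fin 7)) = z7 * σ) : σ = 1 := by
  have ht := search_sound h2 (List.finRange 7) [] outTest_all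
  rw [List.nil_append, outTest, look_vals, decide_eq_true
    ⟨fun i => congrArg (fun g : Perm (Fin 7) => g i) hy,
      fun i => congrArg (fun g : Perm (Fin 7) => g i) hz⟩, Bool.not_true, Bool.false_or,
    decide_eq_true_iff, map_finRange] at ht
  exact vals_inj ht

/-- The two states in seven points. -/
def two7 : TwoStates ({y7, z7} : Set (alternatingGroup (Fin 7))) where
  S := S7
  y := ![y7, z7]
  y_mem := fun s => by fin_cases s <;> simp
  ne := fun s => by
    have h' : ∀ s, S7 s ≠ [] := by intro s; fin_cases s <;> simp [S7]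
    obtain ⟨g, hg⟩ := List.exists_mem_of_ne_nil _ (h' s)
    exact ⟨⟨g, mem_alternatingGroup.2 (even7 s g hg)⟩, hg⟩
  notone := fun s => by fin_cases s <;> decide +kernel
  closed := fun s a ha => by
    revert a
    refine of_all ?_
    fin_cases s <;> decide +kernel
  trans := fun s a ha => by
    revert a
    refine of_all ?_
    fin_cases s <;> decide +kernel
  moves := fun s => by
    refine of_all ?_
    fin_cases s <;> decide +kernel
  norm := by
    intro t ht s
    refine of_all ?_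
    rcases ht with rfl | rfl <;> fin_cases s <;> decide +kernel
  sep := fun a ha => by
    revert a
    refine of_all ?_
    decide +kernel
  inv := fun a h1 h2 => seven_inv a h1 (h2 y7 (by simp)) (h2 z7 (by simp))

theorem sepData_seven : Nonempty (SepData (alternatingGroup (Fin 7))) := by
  have hno : ∀ α : MulAut (alternatingGroup (Fin 7)),
      FixesData (Subgroup.closure ({y7, z7} : Set (alternatingGroup (Fin 7)))) 1 α → α = 1 := by
    intro α hα
    have hy3 : (y7 : Perm (Fin 7)).IsThreeCycle := by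
      rw [← card_support_eq_three_iff]; decide +kernel
    obtain ⟨σ, hσ⟩ := exists_perm_of_fixes (by simp) α hy3
      (hα.2.2 y7 (Subgroup.subset_closure (by simp)))
    exact aut_eq_one hσ (seven_outer σ (sq_eq_one_of_aut (by simp) hσ hα.1)
      (comm_of_fixed hσ (hα.2.2 y7 (Subgroup.subset_closure (by simp))))
      (comm_of_fixed hσ (hα.2.2 z7 (Subgroup.subset_closure (by simp)))))
  refine two_sepData two7 ?_ ?_ ?_ ?_ ?_
  · intro a ha b hb
    rcases ha with rfl | rfl <;> rcases hb with rfl | rfl <;> decide +kernel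
  · intro a ha; rcases ha with rfl | rfl <;> decide +kernel
  · exact fun α _ hα _ h _ => absurd (hno α hα) h
  · exact fun α hα h => absurd (hno α hα) h
  · exact fun ⟨α, hα, h⟩ => absurd (hno α hα) h

end Seven

section All

theorem sepData_blocks (k m : ℕ) (hk : 0 < k) (hm : m = 0 ∨ (Odd m ∧ 2 ≤ m))
    (h5 : 5 ≤ 3 * k + m) :
    ∃ (Ω : Type) (_ : Fintype Ω) (_ : DecidableEq Ω),
      Fintype.card Ω = 3 * k + m ∧ Nonempty (SepData (alternatingGroup Ω)) := by
  obtain ⟨Q, x, hN⟩ := blocks_nice k m hk hm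
  have hc : Fintype.card (Pts k m) = 3 * k + m := by simp [mul_comm]
  exact ⟨Pts k m, inferInstance, inferInstance, hc, nice_sepData (by omega) hN⟩

/-- Every alternating group of degree at least five has separation data. -/
theorem alt_sepData (n : ℕ) (hn : 5 ≤ n) :
    ∃ (Ω : Type) (_ : Fintype Ω) (_ : DecidableEq Ω),
      Fintype.card Ω = n ∧ Nonempty (SepData (alternatingGroup Ω)) := by
  by_cases h5 : n = 5
  · subst h5
    exact ⟨Fin 5, inferInstance, inferInstance, Fintype.card_fin 5, sepData_five⟩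
  by_cases h7 : n = 7
  · subst h7
    exact ⟨Fin 7, inferInstance, inferInstance, Fintype.card_fin 7, sepData_seven⟩
  obtain ⟨k, m, hk, hm, e⟩ : ∃ k m, 0 < k ∧ (m = 0 ∨ (Odd m ∧ 2 ≤ m)) ∧ n = 3 * k + m := by
    rcases (by omega : n % 3 = 0 ∨ n % 3 = 1 ∨ n % 3 = 2) with h | h | h
    · exact ⟨n / 3, 0, by omega, Or.inl rfl, by omega⟩
    · exact ⟨(n - 7) / 3, 7, by omega, Or.inr ⟨by decide, by norm_num⟩, by omega⟩
    · exact ⟨(n - 5) / 3, 5, by omega, Or.inr ⟨by decide, by norm_num⟩, by omega⟩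
  subst e
  exact sepData_blocks k m hk hm hn

end All

end Vale.Agent.P240
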