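import Vale.Agent.P240.Reduce
import Vale.Agent.P240.Small

/-!
# Components with a rigid acting subgroup
-/

set_option linter.unusedSectionVars false

noncomputable section

namespace Vale.Agent.P240

/-- A group has a rigid three-local subgroup: there are a nontrivial abelian three-subgroup `Q`
and an element `x` of odd order centralising it, such that no nontrivial elementary abelian
two-subgroup is normalised by `Q` and `x`, and no nontrivial automorphism of order at most two
fixes `Q` and `x` elementwise. -/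
def HasRigidSubgroup (A : Type*) [Group A] : Prop :=
  ∃ (Q : Subgroup A) (x : A), Q ≠ ⊥ ∧ IsPGroup 3 Q ∧ (∀ a ∈ Q, ∀ b ∈ Q, a * b = b * a) ∧
    (∀ a ∈ Q, x * a = a * x) ∧ Odd (orderOf x) ∧
    (∀ W : Subgroup A, IsElem 2 W → (∀ w ∈ W, x * w * x⁻¹ ∈ W) →
      (∀ q ∈ Q, ∀ w ∈ W, q * w * q⁻¹ ∈ W) → W = ⊥) ∧
    ∀ α : MulAut A, α * α = 1 → α x = x → (∀ q ∈ Q, α q = q) → α = 1

theorem HasRigidSubgroup.sepData {A : Type*} [Group A] (h : HasRigidSubgroup A) :
    Nonempty (SepData A) := by
  classical
  obtain ⟨Q, x, hne, h3, hQ, hx, hodd, hW, hα⟩ := h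
  have hout : ∀ α, FixesData Q x α → α = 1 := fun α h => hα α h.1 h.2.1 h.2.2
  have hconj : ∀ {g : A} {W : Subgroup A}, cj g W = W → ∀ w ∈ W, g * w * g⁻¹ ∈ W :=
    fun {g W} e w hw => by rw [← e, mem_cj]; simpa [mul_assoc] using hw
  exact ⟨{
    Q := Q
    x := x
    Q_ne := hne
    Q_three := h3
    Q_comm := hQ
    x_comm := hx
    x_odd := hodd
    states := ∅
    states_card := Or.inl rfl
    states_spec := fun W hW => absurd hW (Finset.notMem_empty W)
    states_antichain := fun W hW => absurd hW (Finset.notMem_empty W)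
    states_complete := fun W h1 h2 =>
      Or.inl (hW W h1 (hconj h2.1) fun q hq => hconj (h2.2 q hq))
    outer_unique := fun α _ hα _ hne => absurd (hout α hα) hne
    outer_states := fun α hα hne => absurd (hout α hα) hne
    flexible := fun ⟨α, hα, hne⟩ => absurd (hout α hα) hne }⟩

/-- A model of a component on which separation data exist. -/
theorem exists_model (A : Type) [Group A] [Finite A] [IsSimpleGroup A]
    (h : (∃ n : ℕ, 5 ≤ n ∧ Nonempty (A ≃* alternatingGroup (Fin n))) ∨
      ((∃ a b : A, a * b ≠ b * a) ∧ HasRigidSubgroup A)) :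
    ∃ (B : Type) (_ : Group B) (_ : Finite B), Nonempty (A ≃* B) ∧ IsSimpleGroup B ∧
      (∀ a : B, (∀ b, a * b = b * a) → a = 1) ∧ Nonempty (SepData B) := by
  rcases h with ⟨n, hn, ⟨e⟩⟩ | ⟨⟨a, b, hab⟩, hR⟩
  · obtain ⟨Ω, hF, hD, hc, hsep⟩ := alt_sepData n hn
    exact ⟨alternatingGroup Ω, inferInstance, inferInstance,
      ⟨e.trans (Fintype.equivFinOfCardEq hc).altCongrHom.symm⟩,
      alternatingGroup.isSimpleGroup (by rw [Nat.card_eq_fintype_card, hc]; exact hn),
      fun a h => Subtype.ext (eq_one_of_commutes (by omega) fun x => congrArg Subtype.val (h x)),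
      hsep⟩
  · refine ⟨A, inferInstance, inferInstance, ⟨MulEquiv.refl A⟩, inferInstance, fun c hc => ?_,
      hR.sepData⟩
    have hn : (Subgroup.center A).Normal := inferInstance
    rcases hn.eq_bot_or_eq_top with h | h
    · have hm : c ∈ Subgroup.center A := Subgroup.mem_center_iff.2 fun d => (hc d).symm
      rw [h] at hm
      exact Subgroup.mem_bot.1 hm
    · exact absurd (Subgroup.mem_center_iff.1 (h ▸ Subgroup.mem_top b) a) hab

end Vale.Agent.P240
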