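import Vale.Agent.P240.Comps
import Vale.Agent.P240.Join

/-!
# A non-acyclic link in a group with a normal product of separated simple groups
-/

set_option linter.unusedSectionVars false

open scoped Classical

noncomputable section

namespace Vale.Agent.P240

namespace CompSys

variable {X : Type*} [Group X] [Finite X] {K : Subgroup X} {ι : Type*} [Fintype ι]
  {A : ι → Type*} [∀ i, Group (A i)] [∀ i, Finite (A i)] (S : CompSys K A)
  (D : ∀ i, SepData (A i))

variable (xT : ∀ i, A i)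

/-- The coordinates of the cyclic part. -/
def xf (T : Finset ι) : Π i, A i := fun i => if i ∈ T then xT i else (D i).x

/-- The cyclic part of the acting subgroup. -/
def xg (T : Finset ι) : X := S.φ (xf D xT T)

/-- The three-part of the acting subgroup, in coordinates. -/
def qsub (T : Finset ι) : Subgroup (Π i, A i) :=
  Subgroup.pi Set.univ (fun i => if i ∈ T then ⊥ else (D i).Q)

theorem mem_qsub {T : Finset ι} {f : Π i, A i} :
    f ∈ qsub D T ↔ ∀ i, if i ∈ T then f i = 1 else f i ∈ (D i).Q := by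
  rw [qsub, Subgroup.mem_pi]
  refine ⟨fun h i => ?_, fun h i _ => ?_⟩
  · have := h i (Set.mem_univ i)
    split_ifs with hi <;> simpa [hi] using this
  · have := h i
    split_ifs at this ⊢ with hi <;> simp [this]

/-- The three-part of the acting subgroup. -/
def Qg (T : Finset ι) : Subgroup X := (qsub D T).map S.φ

/-- The whole acting subgroup. -/
def Hg (T : Finset ι) : Subgroup X := S.Qg D T ⊔ Subgroup.zpowers (S.xg D xT T)

theorem qsub_comm {T : Finset ι} {f f' : Π i, A i} (hf : f ∈ qsub D T) (hf' : f' ∈ qsub D T) :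
    f * f' = f' * f := by
  funext i
  have a := (mem_qsub D).1 hf i
  have b := (mem_qsub D).1 hf' i
  split_ifs at a b with hi
  · simp [a]
  · exact (D i).Q_comm _ a _ b

theorem xg_comm_Qg {T : Finset ι} {q : X} (hq : q ∈ S.Qg D T) :
    S.xg D xT T * q = q * S.xg D xT T := by
  obtain ⟨f, hf, rfl⟩ := hq
  rw [xg, ← map_mul, ← map_mul]
  congr 1
  funext i
  have a := (mem_qsub D).1 hf i
  simp only [Pi.mul_apply, xf]
  split_ifs at a ⊢ with hi
  · simp [a]
  · exact (D i).x_comm _ a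

theorem j_mem_Qg {T : Finset ι} {i : ι} (hi : i ∉ T) {q : A i} (hq : q ∈ (D i).Q) :
    S.j i q ∈ S.Qg D T := by
  refine ⟨Pi.mulSingle i q, (mem_qsub D).2 fun l => ?_, rfl⟩
  by_cases h : l = i
  · subst h; simp [hi, hq]
  · simp [h]

theorem phi_mem_iff {E : Subgroup X} (hE : IsElem 2 E) (f : Π i, A i) :
    S.φ f ∈ E → ∀ i, f i * f i = 1 := fun h i => by
  have e := hE.2 _ h
  rw [← map_pow, ← S.φ.map_one] at e
  have := congrFun (S.inj e) i
  simpa [pow_two] using this

/-- An element centralising the acting group fixes each separated factor. -/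
theorem fix_of_cent {T : Finset ι} {g : X} (hg : ∀ h ∈ S.Qg D T, g * h = h * g) {i : ι}
    (hi : i ∉ T) : S.Fix g i := by
  obtain ⟨q, hq, hq1⟩ : ∃ q ∈ (D i).Q, q ≠ 1 := by
    obtain ⟨q, hq, hq1⟩ := (Subgroup.bot_or_exists_ne_one (D i).Q).resolve_left (D i).Q_ne
    exact ⟨q, hq, hq1⟩
  obtain ⟨l, hl⟩ := S.exists_perm g i
  have hmem : S.j i q ∈ cj g (S.L i) := by
    rw [mem_cj, mul_assoc, ← hg _ (S.j_mem_Qg D hi hq), ← mul_assoc, inv_mul_cancel, one_mul]
    exact ⟨q, rfl⟩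
  rw [hl] at hmem
  rw [Fix, hl, S.L_disjoint hq1 hmem]

/-- The action of a centralising involution on a separated factor. -/
theorem fixesData_of_cent {T : Finset ι} {g : X} (hQ : ∀ h ∈ S.Qg D T, g * h = h * g)
    (hx : g * S.xg D xT T = S.xg D xT T * g) (h2 : g * g = 1) {i : ι} (hi : i ∉ T) :
    FixesData (D i).Q (D i).x (S.aut (S.fix_of_cent D hQ hi)) := by
  set hg := S.fix_of_cent D hQ hi
  refine ⟨?_, ?_, ?_⟩
  · rw [← S.aut_mul hg hg, S.aut_eq_one_iff]
    intro a; simp [h2]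
  · have := S.coord_of_fix hg (f := xf D xT T) (f' := xf D xT T)
      (by rw [show g * S.φ (xf D xT T) = S.φ (xf D xT T) * g from hx, mul_assoc, mul_inv_cancel,
        mul_one])
    simpa [xf, hi] using this
  · intro q hq
    apply S.j_inj i
    rw [← S.aut_spec hg, hQ _ (S.j_mem_Qg D hi hq), mul_assoc, mul_inv_cancel, mul_one]

/-- Commutation of two involutions inducing equal actions. -/
theorem comm_of_aut {a b : X} (hab : a * b * a⁻¹ * b⁻¹ ∈ K)
    (ha : ∀ i, S.Fix a i) (hb : ∀ i, S.Fix b i)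
    (h : ∀ i, S.aut (ha i) * S.aut (hb i) = S.aut (hb i) * S.aut (ha i)) : a * b = b * a := by
  have e : a * b * a⁻¹ * b⁻¹ = 1 := by
    refine S.eq_one_of_cen hab fun i x => ?_
    have h1 : ∀ y, a * b * S.j i y * (a * b)⁻¹ = b * a * S.j i y * (b * a)⁻¹ := by
      intro y
      rw [S.aut_spec (S.fix_mul (ha i) (hb i)), S.aut_spec (S.fix_mul (hb i) (ha i)),
        S.aut_mul (ha i) (hb i), S.aut_mul (hb i) (ha i), h i]
    obtain ⟨y, rfl⟩ : ∃ y, S.aut (S.fix_mul (hb i) (ha i)) y = x :=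
      MulEquiv.surjective _ x
    rw [← S.aut_spec (S.fix_mul (hb i) (ha i))]
    have := h1 y
    calc a * b * a⁻¹ * b⁻¹ * (b * a * S.j i y * (b * a)⁻¹)
        = a * b * S.j i y * (a * b)⁻¹ * (a * b * a⁻¹ * b⁻¹) := by group
      _ = b * a * S.j i y * (b * a)⁻¹ * (a * b * a⁻¹ * b⁻¹) := by rw [this]
  rw [mul_inv_eq_one, mul_inv_eq_iff_eq_mul] at e
  exact e

/-- Centralises the cyclic part and the three-part. -/
def CentH (T : Finset ι) (g : X) : Prop :=
  (∀ h ∈ S.Qg D T, g * h = h * g) ∧ g * S.xg D xT T = S.xg D xT T * g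

theorem centH_mul {T : Finset ι} {g h : X} (hg : S.CentH D xT T g) (hh : S.CentH D xT T h) :
    S.CentH D xT T (g * h) :=
  ⟨fun y hy => by rw [mul_assoc, hh.1 y hy, ← mul_assoc, hg.1 y hy, mul_assoc],
    by rw [mul_assoc, hh.2, ← mul_assoc, hg.2, mul_assoc]⟩

theorem fix0 {g : X} (hg : S.CentH D xT ∅ g) (i : ι) : S.Fix g i :=
  S.fix_of_cent D hg.1 (Finset.notMem_empty i)

theorem fixesData0 {g : X} (hg : S.CentH D xT ∅ g) (h2 : g * g = 1) (i : ι) :
    FixesData (D i).Q (D i).x (S.aut (S.fix0 D xT hg i)) :=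
  S.fixesData_of_cent D xT hg.1 hg.2 h2 (Finset.notMem_empty i)

theorem aut_comm0 {a b : X} (ha : S.CentH D xT ∅ a) (hb : S.CentH D xT ∅ b)
    (ha2 : a * a = 1) (hb2 : b * b = 1) (i : ι) :
    S.aut (S.fix0 D xT ha i) * S.aut (S.fix0 D xT hb i) =
      S.aut (S.fix0 D xT hb i) * S.aut (S.fix0 D xT ha i) := by
  by_cases h1 : S.aut (S.fix0 D xT ha i) = 1
  · rw [h1, one_mul, mul_one]
  by_cases h2 : S.aut (S.fix0 D xT hb i) = 1
  · rw [h2, one_mul, mul_one]
  rw [(D i).outer_unique _ _ (S.fixesData0 D xT ha ha2 i) (S.fixesData0 D xT hb hb2 i) h1 h2]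

theorem comm0 {a b : X} (hK : a ∈ K) (ha : S.CentH D xT ∅ a) (hb : S.CentH D xT ∅ b)
    (ha2 : a * a = 1) (hb2 : b * b = 1) : a * b = b * a := by
  refine S.comm_of_aut ?_ (S.fix0 D xT ha) (S.fix0 D xT hb) (S.aut_comm0 D xT ha hb ha2 hb2)
  have := K.mul_mem hK (S.normK.conj_mem _ (K.inv_mem hK) b)
  simpa [mul_assoc] using this

/-- The involutions of `K` centralising the acting group. -/
def M0 : Subgroup X where
  carrier := {k | k ∈ K ∧ k * k = 1 ∧ S.CentH D xT ∅ k}
  one_mem' := ⟨K.one_mem, one_mul 1, fun h _ => by simp, by simp⟩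
  mul_mem' := fun {a b} ha hb => by
    have hc := S.comm0 D xT ha.1 ha.2.2 hb.2.2 ha.2.1 hb.2.1
    refine ⟨K.mul_mem ha.1 hb.1, ?_, S.centH_mul D xT ha.2.2 hb.2.2⟩
    calc a * b * (a * b) = a * (b * a) * b := by group
      _ = a * (a * b) * b := by rw [hc]
      _ = a * a * (b * b) := by group
      _ = 1 := by rw [ha.2.1, hb.2.1, one_mul]
  inv_mem' := fun {a} ha => by
    rw [inv_eq_of_mul_eq_one_right ha.2.1]; exact ha

theorem mem_M0 {k : X} : k ∈ S.M0 D xT ↔ k ∈ K ∧ k * k = 1 ∧ S.CentH D xT ∅ k := Iff.rfl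

theorem M0_elem : IsElem 2 (S.M0 D xT) :=
  ⟨fun a ha b hb => S.comm0 D xT ha.1 ha.2.2 hb.2.2 ha.2.1 hb.2.1,
    fun a ha => by rw [pow_two]; exact ha.2.1⟩

theorem cen_mul_iff {a b : X} (ha : S.CentH D xT ∅ a) (hb : S.CentH D xT ∅ b)
    (ha2 : a * a = 1) (hb2 : b * b = 1) (i : ι) :
    S.Cen (a * b) i ↔ (S.Cen a i ↔ S.Cen b i) := by
  rw [← S.aut_eq_one_iff (S.fix_mul (S.fix0 D xT ha i) (S.fix0 D xT hb i)),
    S.aut_mul (S.fix0 D xT ha i) (S.fix0 D xT hb i),
    ← S.aut_eq_one_iff (S.fix0 D xT ha i), ← S.aut_eq_one_iff (S.fix0 D xT hb i)]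
  have fa := S.fixesData0 D xT ha ha2 i
  have fb := S.fixesData0 D xT hb hb2 i
  by_cases h1 : S.aut (S.fix0 D xT ha i) = 1
  · simp [h1]
  by_cases h2 : S.aut (S.fix0 D xT hb i) = 1
  · simp [h2]
  have e := (D i).outer_unique _ _ fa fb h1 h2
  rw [e, fb.1]
  simp [h2]

theorem centH_of_centH0 {T : Finset ι} {g : X} (h : S.CentH D xT ∅ g) (hT : ∀ i ∈ T, S.Cen g i) :
    S.CentH D xT T g := by
  refine ⟨fun y hy => ?_, S.commute_phi _ fun i => ?_⟩
  · obtain ⟨f, hf, rfl⟩ := hy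
    refine S.commute_phi f fun i => ?_
    have a := (mem_qsub D).1 hf i
    split_ifs at a with hi
    · simp [a]
    · exact h.1 _ (S.j_mem_Qg D (Finset.notMem_empty i) a)
  · by_cases hi : i ∈ T
    · exact hT i hi _
    · have e := (S.aut_spec (S.fix0 D xT h i) ((D i).x))
      have e2 : S.aut (S.fix0 D xT h i) (D i).x = (D i).x := by
        have := S.coord_of_fix (S.fix0 D xT h i) (f := xf D xT ∅) (f' := xf D xT ∅)
          (by rw [show g * S.φ (xf D xT ∅) = S.φ (xf D xT ∅) * g from h.2, mul_assoc,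
            mul_inv_cancel, mul_one])
        simpa [xf] using this
      rw [e2, mul_inv_eq_iff_eq_mul] at e
      simpa [xf, hi] using e

theorem centH0_of_centH {T : Finset ι} {g : X} (h : S.CentH D xT T g) (hT : ∀ i ∈ T, S.Cen g i) :
    S.CentH D xT ∅ g := by
  refine ⟨fun y hy => ?_, S.commute_phi _ fun i => ?_⟩
  · obtain ⟨f, hf, rfl⟩ := hy
    refine S.commute_phi f fun i => ?_
    have a := (mem_qsub D).1 hf i
    simp only [Finset.notMem_empty, if_false] at a
    by_cases hi : i ∈ T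
    · exact hT i hi _
    · exact h.1 _ (S.j_mem_Qg D hi a)
  · by_cases hi : i ∈ T
    · exact hT i hi _
    · have hg := S.fix_of_cent D h.1 hi
      have e := S.aut_spec hg ((D i).x)
      have e2 : S.aut hg (D i).x = (D i).x := by
        have := S.coord_of_fix hg (f := xf D xT T) (f' := xf D xT T)
          (by rw [show g * S.φ (xf D xT T) = S.φ (xf D xT T) * g from h.2, mul_assoc,
            mul_inv_cancel, mul_one])
        simpa [xf, hi] using this
      rw [e2, mul_inv_eq_iff_eq_mul] at e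
      simpa [xf] using e

/-- Elements of `M0` centralising all factors in `s` are trivial. -/
def Spans (s : Finset ι) : Prop := ∀ m ∈ S.M0 D xT, (∀ i ∈ s, S.Cen m i) → m = 1

theorem spans_univ : S.Spans D xT Finset.univ :=
  fun _ hm h => S.eq_one_of_cen hm.1 fun i => h i (Finset.mem_univ i)

/-- Flexibility data chosen uniformly. -/
def GoodXT : Prop :=
  (∀ i, Odd (orderOf (xT i))) ∧ ∀ i, (∃ α : MulAut (A i), FixesData (D i).Q (D i).x α ∧ α ≠ 1) →
    (∀ W, IsElem 2 W → cj (xT i) W = W → W = ⊥) ∧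
    (∀ α : MulAut (A i), α * α = 1 → α (xT i) = xT i → α = 1) ∧
    ∀ α : MulAut (A i), α * α = 1 → ∃ l : A i, FixesData (D i).Q (D i).x (MulAut.conj l * α)

end CompSys

theorem exists_goodXT {ι : Type*} {A : ι → Type*} [∀ i, Group (A i)] (D : ∀ i, SepData (A i)) :
    ∃ xT : ∀ i, A i, CompSys.GoodXT D xT := by
  have h : ∀ i, ∃ x : A i, Odd (orderOf x) ∧
      ((∃ α : MulAut (A i), FixesData (D i).Q (D i).x α ∧ α ≠ 1) →
        (∀ W, IsElem 2 W → cj x W = W → W = ⊥) ∧
        (∀ α : MulAut (A i), α * α = 1 → α x = x → α = 1) ∧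
        ∀ α : MulAut (A i), α * α = 1 →
          ∃ l : A i, FixesData (D i).Q (D i).x (MulAut.conj l * α)) := by
    intro i
    by_cases hi : ∃ α : MulAut (A i), FixesData (D i).Q (D i).x α ∧ α ≠ 1
    · obtain ⟨x, h1, h2⟩ := (D i).flexible hi
      exact ⟨x, h1, fun _ => h2⟩
    · exact ⟨1, by simp, fun h => absurd h hi⟩
  choose x hx using h
  exact ⟨x, fun i => (hx i).1, fun i => (hx i).2⟩

end Vale.Agent.P240
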