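import Vale.Agent.P240.Group

/-!
# Data for one simple component at the prime two, separated by three-subgroups
-/

set_option linter.unusedSectionVars false

open scoped Classical

noncomputable section

namespace Vale.Agent.P240

/-- An involutory or trivial automorphism fixing the acting subgroup pointwise. -/
def FixesData {A : Type*} [Group A] (Q : Subgroup A) (x : A) (α : MulAut A) : Prop :=
  α * α = 1 ∧ α x = x ∧ ∀ q ∈ Q, α q = q

/-- The subgroup `W` is invariant under `Q` and `x`. -/
def InvData {A : Type*} [Group A] (Q : Subgroup A) (x : A) (W : Subgroup A) : Prop :=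
  cj x W = W ∧ ∀ q ∈ Q, cj q W = W

/-- Everything the semisimple argument needs to know about one component. -/
structure SepData (A : Type*) [Group A] where
  Q : Subgroup A
  x : A
  Q_ne : Q ≠ ⊥
  Q_three : IsPGroup 3 Q
  Q_comm : ∀ a ∈ Q, ∀ b ∈ Q, a * b = b * a
  x_comm : ∀ a ∈ Q, x * a = a * x
  x_odd : Odd (orderOf x)
  states : Finset (Subgroup A)
  states_card : states.card = 0 ∨ states.card = 2
  states_spec : ∀ W ∈ states, IsElem 2 W ∧ W ≠ ⊥ ∧ InvData Q x W ∧
    ∃ q ∈ Q, ∃ w ∈ W, q * w ≠ w * q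
  states_antichain : ∀ W ∈ states, ∀ W' ∈ states, W ≤ W' → W = W'
  states_complete : ∀ W, IsElem 2 W → InvData Q x W → W = ⊥ ∨ W ∈ states
  outer_unique : ∀ α β : MulAut A, FixesData Q x α → FixesData Q x β →
    α ≠ 1 → β ≠ 1 → α = β
  outer_states : ∀ α : MulAut A, FixesData Q x α → α ≠ 1 →
    states.Nonempty ∧ ∀ W ∈ states, ∃ w ∈ W, α w ≠ w
  flexible : (∃ α : MulAut A, FixesData Q x α ∧ α ≠ 1) →
    ∃ xT : A, Odd (orderOf xT) ∧ (∀ W, IsElem 2 W → cj xT W = W → W = ⊥) ∧
      (∀ α : MulAut A, α * α = 1 → α xT = xT → α = 1) ∧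
      ∀ α : MulAut A, α * α = 1 → ∃ l : A, FixesData Q x (MulAut.conj l * α)

namespace SepData

variable {A : Type*} [Group A] (D : SepData A)

theorem no_involution {a : A} (ha : a * a = 1) (hx : D.x * a = a * D.x)
    (hQ : ∀ q ∈ D.Q, q * a = a * q) : a = 1 := by
  have hz : ∀ w ∈ Subgroup.zpowers a, w = 1 ∨ w = a := by
    intro w hw
    obtain ⟨m, rfl⟩ := Subgroup.mem_zpowers_iff.1 hw
    rcases Int.even_or_odd m with ⟨k, hk⟩ | ⟨k, hk⟩
    · left
      rw [hk, ← two_mul, zpow_mul, zpow_two, ha, one_zpow]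
    · right
      rw [hk, zpow_add, zpow_mul, zpow_two, ha, one_zpow, one_mul, zpow_one]
  have hel : IsElem 2 (Subgroup.zpowers a) := by
    refine ⟨fun u hu v hv => ?_, fun u hu => ?_⟩
    · rcases hz u hu with rfl | rfl <;> rcases hz v hv with rfl | rfl <;> simp
    · rcases hz u hu with rfl | rfl <;> simp [pow_two, ha]
  have hfix : ∀ g, g * a = a * g → cj g (Subgroup.zpowers a) = Subgroup.zpowers a := by
    intro g hg
    refine cj_of_centralizes fun w hw => ?_
    rcases hz w hw with rfl | rfl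
    · simp
    · exact hg
  rcases D.states_complete _ hel ⟨hfix _ hx, fun q hq => hfix q (hQ q hq)⟩ with h | h
  · exact Subgroup.zpowers_eq_bot.1 h
  · obtain ⟨-, -, -, q, hq, w, hw, hne⟩ := D.states_spec _ h
    rcases hz w hw with rfl | rfl
    · simp at hne
    · exact absurd (hQ q hq) hne

end SepData

end Vale.Agent.P240
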