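import Vale.Agent.P240.AltAut
import Vale.Agent.P240.Sep

/-!
# Alternating groups with an acting group made of independent odd cycles
-/

set_option linter.unusedSectionVars false

open scoped Classical
open Equiv Equiv.Perm

noncomputable section

namespace Vale.Agent.P240

theorem odd_card_sup {X : Type*} [Group X] [Finite X] {Q : Subgroup X} {x : X}
    (hQ : Odd (Nat.card Q)) (hx : Odd (orderOf x)) (hc : ∀ a ∈ Q, x * a = a * x) :
    Odd (Nat.card ↥(Q ⊔ Subgroup.zpowers x)) := by
  have hcomm : ∀ (a : Q) (b : Subgroup.zpowers x),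
      Commute (Q.subtype a) ((Subgroup.zpowers x).subtype b) := fun a b => by
    show Commute (a : X) (b : X)
    obtain ⟨k, hk⟩ := Subgroup.mem_zpowers_iff.1 b.2
    rw [← hk]
    exact ((show Commute (a : X) x from (hc _ a.2).symm).zpow_right k)
  have hdvd : Nat.card ↥(Q ⊔ Subgroup.zpowers x) ∣ Nat.card Q * Nat.card (Subgroup.zpowers x) := by
    have h := Subgroup.card_range_dvd (MonoidHom.noncommCoprod _ _ hcomm)
    rw [MonoidHom.noncommCoprod_range, Subgroup.range_subtype, Subgroup.range_subtype,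
      Nat.card_prod] at h
    exact h
  refine Odd.of_dvd_nat (Nat.odd_mul.2 ⟨hQ, ?_⟩) hdvd
  rwa [Nat.card_zpowers]

theorem comm_sup {X : Type*} [Group X] {Q : Subgroup X} {x : X}
    (hQ : ∀ a ∈ Q, ∀ b ∈ Q, a * b = b * a) (hc : ∀ a ∈ Q, x * a = a * x) :
    ∀ a ∈ Q ⊔ Subgroup.zpowers x, ∀ b ∈ Q ⊔ Subgroup.zpowers x, a * b = b * a := by
  have h1 : Q ⊔ Subgroup.zpowers x ≤ Subgroup.centralizer (Q ⊔ Subgroup.zpowers x : Subgroup X) := by
    have hgen : (Q ⊔ Subgroup.zpowers x) = Subgroup.closure ((Q : Set X) ∪ {x}) := by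
      rw [Subgroup.closure_union, Subgroup.closure_eq, Subgroup.zpowers_eq_closure]
    rw [hgen, Subgroup.centralizer_closure, Subgroup.closure_le]
    rintro a (ha | rfl) <;> rw [SetLike.mem_coe, Subgroup.mem_centralizer_iff] <;>
      rintro b (hb | rfl)
    · exact hQ b hb a ha
    · exact hc a ha
    · exact (hc b hb).symm
    · rfl
  exact fun a ha b hb => (Subgroup.mem_centralizer_iff.1 (h1 ha) b hb).symm

variable {Ω : Type*} [Fintype Ω] [DecidableEq Ω]

/-- Invariance under `Q` and `x` gives invariance under the group they generate. -/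
theorem invData_all {A : Type*} [Group A] {Q : Subgroup A} {x : A} {W : Subgroup A}
    (h : InvData Q x W) {g : A} (hg : g ∈ Q ⊔ Subgroup.zpowers x) {w : A} (hw : w ∈ W) :
    g * w * g⁻¹ ∈ W := by
  let P : Subgroup A :=
    { carrier := {g | cj g W = W}
      one_mem' := cj_one W
      mul_mem' := fun {a b} ha hb => by
        show cj (a * b) W = W
        rw [cj_mul, show cj b W = W from hb, show cj a W = W from ha]
      inv_mem' := fun {a} ha => by
        show cj a⁻¹ W = W
        conv_lhs => rw [← show cj a W = W from ha]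
        rw [← cj_mul, inv_mul_cancel, cj_one] }
  have hP : cj g W = W :=
    (sup_le (fun q hq => h.2 q hq) ((Subgroup.zpowers_le).2 h.1) :
      Q ⊔ Subgroup.zpowers x ≤ P) hg
  rw [← hP, mem_cj]; simpa [mul_assoc] using hw

/-- The hypotheses on an acting group made of independent odd cycles. -/
structure NiceAct (Q : Subgroup (alternatingGroup Ω)) (x : alternatingGroup Ω) : Prop where
  three : IsPGroup 3 Q
  commQ : ∀ a ∈ Q, ∀ b ∈ Q, a * b = b * a
  commx : ∀ a ∈ Q, x * a = a * x
  oddx : Odd (orderOf x)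
  free : ∀ u, ∃ h ∈ Q ⊔ Subgroup.zpowers x, (h : Perm Ω) u ≠ u
  split : ∀ u v, (∃ h ∈ Q ⊔ Subgroup.zpowers x, (h : Perm Ω) u = v) ∨
    ∀ h ∈ Q ⊔ Subgroup.zpowers x, ∃ h1 ∈ Q ⊔ Subgroup.zpowers x, (h1 : Perm Ω) u = u ∧
      ∃ h2 ∈ Q ⊔ Subgroup.zpowers x, (h2 : Perm Ω) v = v ∧ h = h1 * h2
  cycle : ∃ y ∈ Q, (y : Perm Ω).IsThreeCycle

variable {Q : Subgroup (alternatingGroup Ω)} {x : alternatingGroup Ω}

theorem NiceAct.odd (hN : NiceAct Q x) : Odd (Nat.card ↥(Q ⊔ Subgroup.zpowers x)) := by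
  refine odd_card_sup ?_ hN.oddx hN.commx
  have : Fact (Nat.Prime 3) := ⟨Nat.prime_three⟩
  obtain ⟨n, hn⟩ := IsPGroup.iff_card.1 hN.three
  rw [hn]; exact Odd.pow (by decide)

theorem app_mul (a b : alternatingGroup Ω) (u : Ω) :
    ((a * b : alternatingGroup Ω) : Perm Ω) u = (a : Perm Ω) ((b : Perm Ω) u) := rfl

theorem nice_invariant (hN : NiceAct Q x) (W : Subgroup (alternatingGroup Ω)) (hW : IsElem 2 W)
    (hinv : InvData Q x W) : W = ⊥ := by
  set H := Q ⊔ Subgroup.zpowers x with hH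
  have conjW : ∀ h ∈ H, ∀ w ∈ W, h * w * h⁻¹ ∈ W := fun h hh w hw => invData_all hinv hh hw
  have hback : ∀ h ∈ H, ∀ w ∈ W, ∀ v : Ω,
      (h : Perm Ω) ((w : Perm Ω) v) = ((h * w * h⁻¹ : alternatingGroup Ω) : Perm Ω) ((h : Perm Ω) v) := by
    intro h _ w _ v
    simp
  suffices hfix : ∀ u : Ω, ∀ w ∈ W, (w : Perm Ω) u = u by
    rw [Subgroup.eq_bot_iff_forall]
    intro w hw
    exact Subtype.ext (Equiv.ext fun u => hfix u w hw)
  intro u
  by_contra hmov
  by_cases hA : ∀ w ∈ W, ∃ h ∈ H, (h : Perm Ω) u = (w : Perm Ω) u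
  · -- the orbit lies inside one orbit of the acting group, which has odd size
    let B := {v : Ω // ∃ h ∈ H, (h : Perm Ω) u = v}
    have hBW : ∀ w ∈ W, ∀ v : B, ∃ h ∈ H, (h : Perm Ω) u = (w : Perm Ω) v.1 := by
      rintro w hw ⟨v, h, hh, rfl⟩
      obtain ⟨g, hg, e⟩ := hA (h⁻¹ * w * h) (by simpa using conjW h⁻¹ (H.inv_mem hh) w hw)
      refine ⟨h * g, H.mul_mem hh hg, ?_⟩
      rw [app_mul, e]
      simp
    let : MulAction W B :=
      { smul := fun w v => ⟨(w.1 : Perm Ω) v.1, hBW w.1 w.2 v⟩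
        one_smul := fun v => Subtype.ext rfl
        mul_smul := fun a b v => Subtype.ext rfl }
    have hodd : Odd (Nat.card B) := by
      let : MulAction H Ω := MulAction.compHom Ω ((alternatingGroup Ω).subtype.comp H.subtype)
      have e : Nat.card B = Nat.card (MulAction.orbit H u) := Nat.card_congr
        (Equiv.subtypeEquivRight fun v => ⟨fun ⟨h, hh, e⟩ => ⟨⟨h, hh⟩, e⟩,
          fun ⟨h, e⟩ => ⟨h.1, h.2, e⟩⟩)
      rw [e, Nat.card_congr (MulAction.orbitEquivQuotientStabilizer H u)]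
      exact Odd.of_dvd_nat hN.odd (Subgroup.index_dvd_card _)
    have : Fact (Nat.Prime 2) := ⟨Nat.prime_two⟩
    obtain ⟨⟨v, h, hh, rfl⟩, hv⟩ := hW.isPGroup.nonempty_fixed_point_of_prime_not_dvd_card B
      (fun hd => by
        obtain ⟨c, hc⟩ := hd
        exact (Nat.not_even_iff_odd.2 hodd) ⟨c, by omega⟩)
    refine hmov fun w hw => (h : Perm Ω).injective ?_
    rw [hback h hh w hw u]
    exact congrArg Subtype.val (hv ⟨_, conjW h hh w hw⟩)
  · push Not at hA
    obtain ⟨w0, hw0, hne⟩ := hA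
    have horb : ∀ g ∈ H, ∃ w ∈ W, (g : Perm Ω) u = (w : Perm Ω) u := by
      intro g hg
      rcases hN.split u ((w0 : Perm Ω) u) with ⟨h, hh, e⟩ | hsp
      · exact absurd e (hne h hh)
      obtain ⟨h1, hh1, e1, h2, hh2, e2, rfl⟩ := hsp g hg
      set w2 := h2 * w0⁻¹ * h2⁻¹ with hw2
      have hw2m : w2 ∈ W := conjW h2 hh2 _ (W.inv_mem hw0)
      have e3 : (h2 : Perm Ω) u = ((w2 * w0 : alternatingGroup Ω) : Perm Ω) u := by
        rw [app_mul, hw2]
        conv_lhs => rw [show u = ((w0⁻¹ : alternatingGroup Ω) : Perm Ω) ((w0 : Perm Ω) u) by simp]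
        rw [hback h2 hh2 _ (W.inv_mem hw0), e2]
      refine ⟨h1 * (w2 * w0) * h1⁻¹, conjW h1 hh1 _ (W.mul_mem hw2m hw0), ?_⟩
      rw [app_mul, e3, hback h1 hh1 _ (W.mul_mem hw2m hw0), e1]
    let : CommGroup W :=
      { (inferInstance : Group W) with mul_comm := fun a b => Subtype.ext (hW.1 _ a.2 _ b.2) }
    let Su : Subgroup W :=
      { carrier := {w | ((w : alternatingGroup Ω) : Perm Ω) u = u}
        one_mem' := rfl
        mul_mem' := fun {a b} ha hb => by
          show ((a : alternatingGroup Ω) : Perm Ω) (((b : alternatingGroup Ω) : Perm Ω) u) = u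
          rw [show ((b : alternatingGroup Ω) : Perm Ω) u = u from hb]; exact ha
        inv_mem' := fun {a} ha => by
          show (((a : alternatingGroup Ω) : Perm Ω)⁻¹) u = u
          rw [Perm.inv_eq_iff_eq]; exact (ha : _ = u).symm }
    have hq : ∀ a b : W, (QuotientGroup.mk' Su a = QuotientGroup.mk' Su b) ↔
        ((a : alternatingGroup Ω) : Perm Ω) u = ((b : alternatingGroup Ω) : Perm Ω) u := by
      intro a b
      rw [QuotientGroup.mk'_apply, QuotientGroup.mk'_apply, QuotientGroup.eq]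
      show (((a : alternatingGroup Ω) : Perm Ω)⁻¹) (((b : alternatingGroup Ω) : Perm Ω) u) = u ↔ _
      rw [Perm.inv_eq_iff_eq]; exact eq_comm
    choose wh hwh hwhu using horb
    let : Fintype H := Fintype.ofFinite _
    set P : W := ∏ h : H, (⟨wh h h.2, hwh h h.2⟩ : W) with hP
    obtain ⟨g, hg, hgne⟩ := hN.free (((P : alternatingGroup Ω) : Perm Ω) u)
    apply hgne
    let c : W →* W :=
      { toFun := fun w => ⟨g * w * g⁻¹, conjW g hg w w.2⟩
        map_one' := Subtype.ext (by simp)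
        map_mul' := fun a b => Subtype.ext (by simp [mul_assoc]) }
    have hterm : ∀ h : H, QuotientGroup.mk' Su (c ⟨wh h h.2, hwh h h.2⟩ * ⟨wh g hg, hwh g hg⟩) =
        QuotientGroup.mk' Su
          (⟨wh _ (H.mul_mem hg h.2), hwh _ (H.mul_mem hg h.2)⟩ : W) := by
      intro h
      rw [hq]
      show ((g * wh h h.2 * g⁻¹ : alternatingGroup Ω) : Perm Ω)
        (((wh g hg : alternatingGroup Ω) : Perm Ω) u) = _
      rw [← hwhu g hg, ← hback g hg _ (hwh h h.2), ← hwhu h h.2, ← hwhu _ (H.mul_mem hg h.2)]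
      rfl
    have hsq : ∀ w : W, w * w = 1 := fun w => Subtype.ext (by
      have := hW.2 w.1 w.2; rw [pow_two] at this; exact this)
    obtain ⟨k, hk⟩ := hN.odd
    have hprod : QuotientGroup.mk' Su (c P * ⟨wh g hg, hwh g hg⟩) = QuotientGroup.mk' Su P := by
      have e1 : ∏ h : H, QuotientGroup.mk' Su (c ⟨wh h h.2, hwh h h.2⟩ * ⟨wh g hg, hwh g hg⟩) =
          ∏ h : H, QuotientGroup.mk' Su (⟨wh h h.2, hwh h h.2⟩ : W) := by
        rw [Finset.prod_congr rfl (fun h _ => hterm h)]
        exact Fintype.prod_equiv (Equiv.mulLeft (⟨g, hg⟩ : H)) _ _ fun h => rfl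
      rw [← map_prod, ← map_prod, Finset.prod_mul_distrib, Finset.prod_const, ← map_prod, ← hP,
        Finset.card_univ, ← Nat.card_eq_fintype_card,
        show Nat.card H = 2 * k + 1 from hk] at e1
      have e2 : (⟨wh g hg, hwh g hg⟩ : W) ^ (2 * k + 1) = ⟨wh g hg, hwh g hg⟩ := by
        rw [pow_succ, pow_mul, pow_two, hsq, one_pow, one_mul]
      rw [e2] at e1
      exact e1
    rw [hq] at hprod
    conv_rhs => rw [← hprod]
    show (g : Perm Ω) (((P : alternatingGroup Ω) : Perm Ω) u) =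
      ((g * (P : alternatingGroup Ω) * g⁻¹ : alternatingGroup Ω) : Perm Ω)
        (((wh g hg : alternatingGroup Ω) : Perm Ω) u)
    rw [← hwhu g hg, ← hback g hg _ P.2]

theorem fixesData_all {A : Type*} [Group A] {Q : Subgroup A} {x : A} {α : MulAut A}
    (h : FixesData Q x α) {g : A} (hg : g ∈ Q ⊔ Subgroup.zpowers x) : α g = g := by
  let P : Subgroup A :=
    { carrier := {g | α g = g}
      one_mem' := map_one α
      mul_mem' := fun {a b} ha hb => by
        show α (a * b) = a * b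
        rw [map_mul, show α a = a from ha, show α b = b from hb]
      inv_mem' := fun {a} ha => by
        show α a⁻¹ = a⁻¹
        rw [map_inv, show α a = a from ha] }
  exact (sup_le (fun q hq => h.2.2 q hq) ((Subgroup.zpowers_le).2 h.2.1) :
      Q ⊔ Subgroup.zpowers x ≤ P) hg

theorem nice_no_outer (h5 : 5 ≤ Fintype.card Ω) (hN : NiceAct Q x)
    (α : MulAut (alternatingGroup Ω)) (hα : FixesData Q x α) : α = 1 := by
  obtain ⟨y, hyQ, hy⟩ := hN.cycle
  obtain ⟨σ, hσ⟩ := exists_perm_of_fixes h5 α hy (hα.2.2 y hyQ)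
  have hσ2 : σ * σ = 1 := by
    refine eq_one_of_commutes (by omega) fun z => ?_
    have e : ((α (α z) : alternatingGroup Ω) : Perm Ω) = z := by
      rw [← MulAut.mul_apply, hα.1]; rfl
    rw [hσ, hσ] at e
    calc σ * σ * (z : Perm Ω) = σ * (σ * (z : Perm Ω) * σ⁻¹) * σ⁻¹ * (σ * σ) := by group
      _ = (z : Perm Ω) * (σ * σ) := by rw [e]
  have hcomm : ∀ h ∈ Q ⊔ Subgroup.zpowers x, ∀ u, σ ((h : Perm Ω) u) = (h : Perm Ω) (σ u) := by
    intro h hh u
    have e := hσ h
    rw [fixesData_all hα hh] at e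
    have := congrArg (fun f : Perm Ω => f (σ u)) e
    simp at this
    exact this.symm
  have hss : ∀ u, σ (σ u) = u := fun u => by
    have := congrArg (fun f : Perm Ω => f u) hσ2; simpa using this
  have hσ1 : σ = 1 := by
    refine Equiv.ext fun u => ?_
    by_contra hne
    rw [Perm.one_apply] at hne
    rcases hN.split u (σ u) with ⟨h, hh, e⟩ | hsp
    · have e2 : ((h * h : alternatingGroup Ω) : Perm Ω) u = u := by
        rw [app_mul, e, ← hcomm h hh u, e, hss]
      obtain ⟨k, hk⟩ := hN.odd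
      have hpow : h ^ (2 * k + 1) = 1 := by
        rw [← hk]
        have : (⟨h, hh⟩ : ↥(Q ⊔ Subgroup.zpowers x)) ^ Nat.card ↥(Q ⊔ Subgroup.zpowers x) = 1 :=
          pow_card_eq_one'
        exact congrArg Subtype.val this
      have hstab : ∀ m : ℕ, (((h * h) ^ m : alternatingGroup Ω) : Perm Ω) u = u := by
        intro m
        induction m with
        | zero => simp
        | succ m ih => rw [pow_succ, app_mul, e2, ih]
      have := hstab (k + 1)
      rw [← pow_two, ← pow_mul, show 2 * (k + 1) = (2 * k + 1) + 1 by ring, pow_succ, hpow,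
        one_mul, e] at this
      exact hne this
    · obtain ⟨h0, hh0, hne0⟩ := hN.free u
      obtain ⟨h1, hh1, e1, h2, hh2, e2, rfl⟩ := hsp h0 hh0
      apply hne0
      have e3 : (h2 : Perm Ω) u = u := σ.injective (by rw [hcomm h2 hh2 u, e2])
      rw [app_mul, e3, e1]
  refine MulEquiv.ext fun z => Subtype.ext ?_
  rw [hσ z, hσ1]; simp

/-- The data of a nicely acted alternating group. -/
theorem nice_sepData (h5 : 5 ≤ Fintype.card Ω) (hN : NiceAct Q x) :
    Nonempty (SepData (alternatingGroup Ω)) := by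
  obtain ⟨y, hyQ, hy⟩ := hN.cycle
  refine ⟨{
    Q := Q
    x := x
    Q_ne := fun e => hy.ne_one (by
      rw [e, Subgroup.mem_bot] at hyQ; rw [hyQ]; rfl)
    Q_three := hN.three
    Q_comm := hN.commQ
    x_comm := hN.commx
    x_odd := hN.oddx
    states := ∅
    states_card := Or.inl rfl
    states_spec := fun W hW => absurd hW (Finset.notMem_empty W)
    states_antichain := fun W hW => absurd hW (Finset.notMem_empty W)
    states_complete := fun W h1 h2 => Or.inl (nice_invariant hN W h1 h2)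
    outer_unique := fun α _ hα _ hne => absurd (nice_no_outer h5 hN α hα) hne
    outer_states := fun α hα hne => absurd (nice_no_outer h5 hN α hα) hne
    flexible := fun ⟨α, hα, hne⟩ => absurd (nice_no_outer h5 hN α hα) hne }⟩

end Vale.Agent.P240
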