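import Vale.Agent.P240.Group

/-!
# Coprime action of an elementary abelian group on an abelian normal subgroup
-/

set_option linter.unusedSectionVars false

open scoped Classical
open IsMulCommutative

noncomputable section

namespace Vale.Agent.P240

variable {p : ℕ} [hp : Fact p.Prime] {G : Type*} [Group G] [Finite G]
  {V : Subgroup G} [V.Normal] [IsMulCommutative V]

/-- The conjugation action of `g` on `V`. -/
def act (V : Subgroup G) [V.Normal] (g : G) : V →* V := (MulAut.conjNormal g).toMonoidHom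

theorem act_coe (g : G) (w : V) : ((act V g w : V) : G) = g * w * g⁻¹ :=
  MulAut.conjNormal_apply g w

theorem act_act (g h : G) (w : V) : act V g (act V h w) = act V (g * h) w := by
  apply Subtype.ext; simp [act_coe, mul_assoc]

theorem act_one (w : V) : act V (1 : G) w = w := by apply Subtype.ext; simp [act_coe]

/-- `w` is centralised by `X`. -/
def Fixed (X : Subgroup G) (w : V) : Prop := ∀ g ∈ X, g * (w : G) = w * g

theorem fixed_iff_act {X : Subgroup G} {w : V} : Fixed X w ↔ ∀ g ∈ X, act V g w = w := by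
  refine forall₂_congr fun g _ => ?_
  rw [Subtype.ext_iff, act_coe, mul_inv_eq_iff_eq_mul]

theorem Fixed.anti {X Y : Subgroup G} {w : V} (h : Fixed Y w) (hXY : X ≤ Y) : Fixed X w :=
  fun g hg => h g (hXY hg)

/-- `K` is a maximal proper subgroup of `E`. -/
def MaxIn (K E : Subgroup G) : Prop := K < E ∧ ∀ L, K < L → L ≤ E → L = E

theorem eq_one_of_pow_p_eq_one {M : Type*} [CommGroup M] (hV : (Nat.card V).Coprime p)
    (φ : V →* M) (w : V) (h : φ w ^ p = 1) : φ w = 1 := by
  have h2 : φ w ^ Nat.card V = 1 := by rw [← map_pow, pow_card_eq_one', map_one]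
  have := pow_gcd_eq_one.2 ⟨h2, h⟩
  rwa [hV.gcd_eq_one, pow_one] at this

theorem orderPow {E : Subgroup G} (hE : IsElem p E) {a : G} (ha : a ∈ E) (i j : ZMod p) :
    a ^ (i + j).val = a ^ i.val * a ^ j.val := by
  rw [← pow_add, ZMod.val_add, ← pow_eq_pow_mod _ (hE.2 a ha)]

theorem orderPow_mul {E : Subgroup G} (hE : IsElem p E) {a : G} (ha : a ∈ E) (i j : ZMod p) :
    a ^ (i * j).val = (a ^ i.val) ^ j.val := by
  rw [← pow_mul, ZMod.val_mul, ← pow_eq_pow_mod _ (hE.2 a ha)]

theorem mem_of_pow_mem {E K : Subgroup G} (hE : IsElem p E) {a : G} (ha : a ∈ E) {i : ZMod p}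
    (hi : i ≠ 0) (h : a ^ i.val ∈ K) : a ∈ K := by
  have := K.pow_mem h (i⁻¹).val
  rwa [← orderPow_mul hE ha, mul_inv_cancel₀ hi, ZMod.val_one, pow_one] at this

/-- The norm of `w` over the cyclic group generated by `c` is fixed by `c`. -/
theorem norm_cyclic_fixed {E : Subgroup G} (hE : IsElem p E) {K : Subgroup G} (hK : K ≤ E)
    {c : G} (hc : c ∈ E) {w : V} (hw : Fixed K w) :
    Fixed (K ⊔ Subgroup.zpowers c) (∏ t : ZMod p, act V (c ^ t.val) w) := by
  rw [fixed_iff_act]
  intro g hg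
  let S : Subgroup G :=
    { carrier := {g | act V g (∏ t : ZMod p, act V (c ^ t.val) w) =
        ∏ t : ZMod p, act V (c ^ t.val) w}
      one_mem' := act_one _
      mul_mem' := fun {a b} ha hb => by
        simp only [Set.mem_ofPred_eq] at *
        rw [← act_act, hb, ha]
      inv_mem' := fun {a} ha => by
        simp only [Set.mem_ofPred_eq] at *
        conv_lhs => rw [← ha]
        rw [act_act, inv_mul_cancel, act_one] }
  have hKS : K ≤ S := by
    intro x hx
    show act V x _ = _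
    rw [map_prod]
    refine Finset.prod_congr rfl fun t _ => ?_
    rw [act_act, hE.1 x (hK hx) _ (E.pow_mem hc _), ← act_act, fixed_iff_act.1 hw x hx]
  have hcS : Subgroup.zpowers c ≤ S := by
    rw [Subgroup.zpowers_le]
    show act V c _ = _
    rw [map_prod]
    refine Fintype.prod_equiv (Equiv.addLeft (1 : ZMod p)) _ _ fun t => ?_
    rw [act_act]
    congr 2
    rw [Equiv.coe_addLeft, orderPow hE hc, ZMod.val_one, pow_one]
  exact sup_le hKS hcS hg

/-- A homomorphism nontrivial on `C_V(F)` and trivial on `C_V(E)` is nontrivial on `C_V(K)` for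
some maximal proper `K` of `E` containing `F`. -/
theorem exists_maxIn {M : Type*} [CommGroup M] (hV : (Nat.card V).Coprime p)
    {E F : Subgroup G} (hE : IsElem p E) (hF : F ≤ E) (φ : V →* M)
    (h0 : ∀ w : V, Fixed E w → φ w = 1) {w₀ : V} (hw₀ : Fixed F w₀) (hne : φ w₀ ≠ 1) :
    ∃ K, F ≤ K ∧ MaxIn K E ∧ ∃ w : V, Fixed K w ∧ φ w ≠ 1 := by
  set P : Set (Subgroup G) := {K | F ≤ K ∧ K ≤ E ∧ ∃ w : V, Fixed K w ∧ φ w ≠ 1} with hP
  obtain ⟨K, hK⟩ := (Set.toFinite P).exists_maximal ⟨F, le_rfl, hF, w₀, hw₀, hne⟩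
  obtain ⟨hFK, hKE, w, hw, hwne⟩ := hK.1
  have kill : ∀ L, K < L → L ≤ E → ∀ u : V, Fixed L u → φ u = 1 := by
    intro L hKL hLE u hu
    by_contra h
    exact hKL.not_ge (hK.2 ⟨hFK.trans hKL.le, hLE, u, hu, h⟩ hKL.le)
  refine ⟨K, hFK, ⟨lt_of_le_of_ne hKE fun e => hwne (h0 w (e ▸ hw)), ?_⟩, w, hw, hwne⟩
  intro L hKL hLE
  by_contra hLne
  apply hwne
  obtain ⟨a, haL, haK⟩ := SetLike.exists_of_lt hKL
  have haE := hLE haL
  have hle : K ⊔ Subgroup.zpowers a ≤ L := sup_le hKL.le ((Subgroup.zpowers_le).2 haL)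
  obtain ⟨b, hbE, hbK'⟩ := SetLike.exists_of_lt
    (lt_of_le_of_lt hle (lt_of_le_of_ne hLE hLne))
  have line : ∀ c ∈ E, c ∉ K → ∏ t : ZMod p, φ (act V (c ^ t.val) w) = 1 := by
    intro c hc hcK
    rw [← map_prod]
    refine kill (K ⊔ Subgroup.zpowers c) (lt_of_le_of_ne le_sup_left fun e => hcK ?_)
      (sup_le hKE ((Subgroup.zpowers_le).2 hc)) _ (norm_cyclic_fixed hE hKE hc hw)
    rw [e]; exact Subgroup.mem_sup_right (Subgroup.mem_zpowers c)
  have hbK : b ∉ K := fun h => hbK' (Subgroup.mem_sup_left h)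
  have haS : ∀ n : ℕ, a ^ n ∈ K ⊔ Subgroup.zpowers a :=
    fun n => Subgroup.pow_mem _ (Subgroup.mem_sup_right (Subgroup.mem_zpowers a)) n
  have hab : ∀ i : ZMod p, a * b ^ i.val ∉ K := by
    intro i h
    by_cases hi : i = 0
    · subst hi; rw [ZMod.val_zero, pow_zero, mul_one] at h; exact haK h
    · refine hbK' (mem_of_pow_mem hE hbE hi ?_)
      have := Subgroup.mul_mem _ (Subgroup.inv_mem _
        (Subgroup.mem_sup_right (Subgroup.mem_zpowers a)))
        (Subgroup.mem_sup_left (T := Subgroup.zpowers a) h)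
      simpa using this
  set Φ : ZMod p → ZMod p → M := fun i j => φ (act V (a ^ i.val * b ^ j.val) w) with hΦ
  have hlines : ∀ i : ZMod p, ∏ t : ZMod p, Φ t (t * i) = 1 := by
    intro i
    rw [← line _ (E.mul_mem haE (E.pow_mem hbE i.val)) (hab i)]
    refine Finset.prod_congr rfl fun t _ => ?_
    simp only [hΦ]
    congr 3
    have hc : Commute a (b ^ i.val) := hE.1 a haE _ (E.pow_mem hbE _)
    rw [mul_comm t i, orderPow_mul hE hbE, hc.mul_pow]
  have hline0 : ∏ t : ZMod p, Φ 0 t = 1 := by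
    rw [← line b hbE hbK]
    refine Finset.prod_congr rfl fun t _ => ?_
    simp [hΦ]
  have hall : ∏ i : ZMod p, ∏ j : ZMod p, Φ i j = 1 := by
    have hsum : (∏ i : ZMod p, ∏ j : ZMod p, Φ i j) =
        ∏ j : ZMod p, ∏ t : ZMod p, φ (act V (a ^ t.val) (act V (b ^ j.val) w)) := by
      rw [Finset.prod_comm]
      simp only [hΦ, act_act]
    rw [hsum]
    refine Finset.prod_eq_one fun j _ => line a haE haK ▸ ?_
    rw [← map_prod, ← map_prod]
    have hfix : Fixed (K ⊔ Subgroup.zpowers a)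
        (∏ t : ZMod p, act V (a ^ t.val) (act V (b ^ j.val) w)) := by
      refine norm_cyclic_fixed hE hKE haE (fixed_iff_act.2 fun g hg => ?_)
      rw [act_act, hE.1 g (hKE hg) _ (E.pow_mem hbE _), ← act_act, fixed_iff_act.1 hw g hg]
    have hgt : K < K ⊔ Subgroup.zpowers a := lt_of_le_of_ne le_sup_left fun e => haK
      (e ▸ Subgroup.mem_sup_right (Subgroup.mem_zpowers a))
    rw [kill _ hgt (sup_le hKE ((Subgroup.zpowers_le).2 haE)) _ hfix, map_prod]
    exact (line a haE haK).symm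
  refine eq_one_of_pow_p_eq_one hV φ w ?_
  have h00 : Φ 0 0 = φ w := by simp [hΦ, act_one]
  have e1 : ∏ i : ZMod p, ∏ t : ZMod p, Φ t (t * i) = 1 :=
    Finset.prod_eq_one fun i _ => hlines i
  rw [Finset.prod_comm, ← Finset.mul_prod_erase _ _ (Finset.mem_univ (0 : ZMod p))] at e1
  have e2 : ∀ t ∈ (Finset.univ : Finset (ZMod p)).erase 0,
      ∏ i : ZMod p, Φ t (t * i) = ∏ j : ZMod p, Φ t j := fun t ht =>
    Fintype.prod_equiv (Equiv.mulLeft₀ t (Finset.ne_of_mem_erase ht)) _ _ (fun i => rfl)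
  rw [← Finset.mul_prod_erase _ _ (Finset.mem_univ (0 : ZMod p)), hline0, one_mul] at hall
  rw [Finset.prod_congr rfl e2, hall, mul_one] at e1
  simpa [h00] using e1

theorem maxIn_bijective {E K : Subgroup G} (hE : IsElem p E) (hK : MaxIn K E) {a : G}
    (ha : a ∈ E) (haK : a ∉ K) : Function.Bijective (fun x : K × ZMod p =>
      (⟨(x.1 : G) * a ^ x.2.val, E.mul_mem (hK.1.le x.1.2) (E.pow_mem ha _)⟩ : E)) := by
  constructor
  · rintro ⟨k, i⟩ ⟨l, j⟩ h
    have h' : (k : G) * a ^ i.val = l * a ^ j.val := congrArg Subtype.val h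
    by_cases hij : i = j
    · subst hij
      exact Prod.ext (Subtype.ext (mul_right_cancel h')) rfl
    · exfalso
      refine haK (mem_of_pow_mem hE ha (sub_ne_zero.2 hij) ?_)
      have e := orderPow hE ha (i - j) j
      rw [sub_add_cancel] at e
      rw [e, ← mul_assoc] at h'
      have := mul_right_cancel h'
      rw [← eq_inv_mul_iff_mul_eq] at this
      rw [this]
      exact K.mul_mem (K.inv_mem k.2) l.2
  · rintro ⟨x, hx⟩
    let S : Subgroup G :=
      { carrier := {x | ∃ k ∈ K, ∃ i : ZMod p, x = k * a ^ i.val}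
        one_mem' := ⟨1, K.one_mem, 0, by simp⟩
        mul_mem' := by
          rintro _ _ ⟨k, hk, i, rfl⟩ ⟨l, hl, j, rfl⟩
          refine ⟨k * l, K.mul_mem hk hl, i + j, ?_⟩
          rw [orderPow hE ha, mul_assoc k, ← mul_assoc (a ^ i.val),
            hE.1 _ (E.pow_mem ha i.val) l (hK.1.le hl)]
          group
        inv_mem' := by
          rintro _ ⟨k, hk, i, rfl⟩
          refine ⟨k⁻¹, K.inv_mem hk, -i, ?_⟩
          rw [mul_inv_rev, hE.1 _ (E.inv_mem (E.pow_mem ha i.val)) _ (E.inv_mem (hK.1.le hk))]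
          congr 1
          refine inv_eq_of_mul_eq_one_left ?_
          rw [← orderPow hE ha, neg_add_cancel, ZMod.val_zero, pow_zero] }
    have hSE : S ≤ E := by
      rintro _ ⟨k, hk, i, rfl⟩; exact E.mul_mem (hK.1.le hk) (E.pow_mem ha _)
    have haS : a ∈ S := ⟨1, K.one_mem, 1, by simp [ZMod.val_one]⟩
    have hKS : K < S := lt_of_le_of_ne (fun k hk => ⟨k, hk, 0, by simp⟩)
      fun e => haK (e ▸ haS)
    obtain ⟨k, hk, i, he⟩ : x ∈ S := by rw [hK.2 S hKS hSE]; exact hx
    exact ⟨(⟨k, hk⟩, i), Subtype.ext he.symm⟩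

theorem card_maxIn {E K : Subgroup G} (hE : IsElem p E) (hK : MaxIn K E) :
    Nat.card E = Nat.card K * p := by
  obtain ⟨a, ha, haK⟩ := SetLike.exists_of_lt hK.1
  rw [← Nat.card_congr (Equiv.ofBijective _ (maxIn_bijective hE hK ha haK)), Nat.card_prod,
    Nat.card_eq_fintype_card (α := ZMod p), ZMod.card]

theorem card_le_inf_mul {E K X : Subgroup G} (hE : IsElem p E) (hK : MaxIn K E) (hX : X ≤ E) :
    Nat.card X ≤ Nat.card ↥(X ⊓ K) * p := by
  by_cases hXK : X ≤ K
  · rw [inf_eq_left.2 hXK]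
    exact Nat.le_mul_of_pos_right _ hp.out.pos
  obtain ⟨a, haX, haK⟩ := SetLike.not_le_iff_exists.1 hXK
  have hsurj : Function.Surjective (fun y : ↥(X ⊓ K) × ZMod p =>
      (⟨(y.1 : G) * a ^ y.2.val, X.mul_mem y.1.2.1 (X.pow_mem haX _)⟩ : X)) := by
    rintro ⟨x, hx⟩
    obtain ⟨⟨k, i⟩, hk⟩ := (maxIn_bijective hE hK (hX haX) haK).2 ⟨x, hX hx⟩
    have hk' : (k : G) * a ^ i.val = x := congrArg Subtype.val hk
    refine ⟨(⟨k, ?_, k.2⟩, i), Subtype.ext hk'⟩
    rw [eq_mul_inv_of_mul_eq hk']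
    exact X.mul_mem hx (X.inv_mem (X.pow_mem haX _))
  have := Nat.card_le_card_of_surjective _ hsurj
  rwa [Nat.card_prod, Nat.card_eq_fintype_card (α := ZMod p), ZMod.card] at this

/-- The norm map over a subgroup. -/
def normMap (V : Subgroup G) [V.Normal] [IsMulCommutative V] (X : Subgroup G) : V →* V :=
  letI : Fintype X := Fintype.ofFinite X
  ∏ g : X, act V (g : G)

theorem normMap_apply (X : Subgroup G) [Fintype X] (w : V) :
    normMap V X w = ∏ g : X, act V (g : G) w := by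
  unfold normMap
  rw [MonoidHom.finsetProd_apply]
  exact Finset.prod_congr (Finset.ext fun _ => by simp) fun _ _ => rfl

theorem normMap_of_fixed (X : Subgroup G) {w : V} (hw : Fixed X w) :
    normMap V X w = w ^ Nat.card X := by
  let : Fintype X := Fintype.ofFinite X
  rw [normMap_apply, Finset.prod_congr rfl (fun g _ => fixed_iff_act.1 hw _ g.2),
    Finset.prod_const, Finset.card_univ, Nat.card_eq_fintype_card]

theorem normMap_fixed (X : Subgroup G) (w : V) : Fixed X (normMap V X w) := by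
  let : Fintype X := Fintype.ofFinite X
  rw [fixed_iff_act]
  intro g hg
  rw [normMap_apply, map_prod]
  exact Fintype.prod_equiv (Equiv.mulLeft ⟨g, hg⟩) _ _ fun x => by
    rw [act_act]; rfl

theorem normMap_eq_pow {E H K : Subgroup G} (hE : IsElem p E) (hH : MaxIn H E) (hK : MaxIn K E)
    (hne : H ≠ K) {w : V} (hw : Fixed K w) : normMap V E w = normMap V H w ^ p := by
  have : ¬ K ≤ H := fun h => by
    rcases eq_or_lt_of_le h with e | e
    · exact hne e.symm
    · exact hH.1.ne (hK.2 H e hH.1.le)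
  obtain ⟨a, haK, haH⟩ := SetLike.not_le_iff_exists.1 this
  have ha : a ∈ E := hK.1.le haK
  let : Fintype H := Fintype.ofFinite H
  let : Fintype E := Fintype.ofFinite E
  rw [normMap_apply, normMap_apply,
    ← (Equiv.ofBijective _ (maxIn_bijective hE hH ha haH)).prod_comp, Fintype.prod_prod_type,
    ← Finset.prod_pow]
  refine Finset.prod_congr rfl fun h _ => ?_
  have : ∀ t : ZMod p, act V ((h : G) * a ^ t.val) w = act V (h : G) w := by
    intro t
    rw [← act_act, fixed_iff_act.1 hw _ (K.pow_mem haK _)]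
  simp only [Equiv.ofBijective_apply, this, Finset.prod_const, Finset.card_univ, ZMod.card]

/-- An element of `E` that is in every maximal subgroup with larger fixed space centralises. -/
theorem centralizes_of_mem_max (hV : (Nat.card V).Coprime p) {E : Subgroup G} (hE : IsElem p E)
    {d : G} (hd : d ∈ E)
    (h : ∀ K, MaxIn K E → ∀ w : V, Fixed K w → ¬ Fixed E w → d ∈ K) (w : V) :
    d * (w : G) = w * d := by
  by_contra hne
  have hφ : ∀ u : V, Fixed E u → (act V d / MonoidHom.id V) u = 1 := fun u hu => by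
    rw [MonoidHom.div_apply, MonoidHom.id_apply, fixed_iff_act.1 hu d hd, div_self']
  have hw : (act V d / MonoidHom.id V) w ≠ 1 := fun e => hne (by
    rw [MonoidHom.div_apply, MonoidHom.id_apply, div_eq_one, Subtype.ext_iff, act_coe,
      mul_inv_eq_iff_eq_mul] at e
    exact e)
  obtain ⟨K, -, hK, u, hu, hune⟩ := exists_maxIn hV hE (bot_le : ⊥ ≤ E) _ hφ
    (w₀ := w) (fun g hg => by rw [Subgroup.mem_bot.1 hg, one_mul, mul_one]) hw
  apply hune
  by_cases hEu : Fixed E u
  · exact hφ u hEu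
  · rw [MonoidHom.div_apply, MonoidHom.id_apply,
      fixed_iff_act.1 hu d (h K hK u hu hEu), div_self']

/-- A faithful elementary abelian `B` has `n` independent maximal subgroups and a character of
`V`, trivial on the fixed points of `B`, nontrivial on those of each of them. -/
theorem exists_theta (hV : (Nat.card V).Coprime p) {B : Subgroup G} (hB : IsElem p B)
    (hfaith : ∀ d ∈ B, (∀ w : V, d * (w : G) = w * d) → d = 1) :
    ∃ (n : ℕ) (H : Fin n → Subgroup G) (b : Fin n → G) (θ : V →* ℂˣ),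
      Nat.card B ≤ p ^ n ∧ (∀ i, b i ∈ B ∧ b i ∉ H i) ∧ (∀ i j, i ≠ j → b i ∈ H j) ∧
      (∀ i, H i ≤ B ∧ ∃ w : V, Fixed (H i) w ∧ θ w ≠ 1) ∧
      ∀ w : V, Fixed B w → θ w = 1 := by
  set Cand : Set (Subgroup G) := {K | MaxIn K B ∧ ∃ w : V, Fixed K w ∧ ¬ Fixed B w} with hCand
  set good : Set (Finset (Subgroup G)) :=
    {s | ↑s ⊆ Cand ∧ B ⊓ s.inf id = ⊥} with hgood
  have hne : good.Nonempty := by
    refine ⟨(Set.toFinite Cand).toFinset, by simp, Subgroup.ext fun d => ?_⟩
    simp only [Subgroup.mem_inf, Subgroup.mem_bot]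
    refine ⟨fun ⟨hdB, hd⟩ => hfaith d hdB fun w => centralizes_of_mem_max hV hB hdB
      (fun K hK u hu hu' => ?_) w, fun e => e ▸ ⟨B.one_mem, Subgroup.one_mem _⟩⟩
    exact (Finset.inf_le (f := id) ((Set.toFinite Cand).mem_toFinset.2 ⟨hK, u, hu, hu'⟩)) hd
  obtain ⟨s, hs⟩ := (Set.toFinite good).exists_minimal hne
  obtain ⟨hsC, hsbot⟩ := hs.1
  have hex : ∀ K ∈ s, ∃ b ∈ B, b ∉ K ∧ ∀ K' ∈ s, K' ≠ K → b ∈ K' := by
    intro K hK
    have hnb : B ⊓ (s.erase K).inf id ≠ ⊥ := fun e => (Finset.notMem_erase K s)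
      ((hs.2 ⟨fun x hx => hsC (Finset.mem_of_mem_erase hx), e⟩ (Finset.erase_subset K s)) hK)
    obtain ⟨b, hb, hb1⟩ := (Subgroup.bot_or_exists_ne_one _).resolve_left hnb
    refine ⟨b, hb.1, fun hbK => hb1 ?_, fun K' hK' hne' =>
      (Finset.inf_le (f := id) (Finset.mem_erase.2 ⟨hne', hK'⟩)) hb.2⟩
    have : b ∈ B ⊓ s.inf id := by
      refine ⟨hb.1, ?_⟩
      rw [← Finset.insert_erase hK, Finset.inf_insert]
      exact ⟨hbK, hb.2⟩
    rwa [hsbot, Subgroup.mem_bot] at this
  have hcard : ∀ t : Finset (Subgroup G), ↑t ⊆ Cand →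
      Nat.card B ≤ Nat.card ↥(B ⊓ t.inf id) * p ^ t.card := by
    intro t
    induction t using Finset.induction_on with
    | empty => simp
    | insert K t hKt ih =>
      intro ht
      rw [Finset.coe_insert, Set.insert_subset_iff] at ht
      refine (ih ht.2).trans ?_
      have hstep := card_le_inf_mul hB ht.1.1 (inf_le_left (b := t.inf id))
      rw [Finset.card_insert_of_notMem hKt, pow_succ', ← mul_assoc]
      refine Nat.mul_le_mul_right _ (hstep.trans (le_of_eq ?_))
      rw [Finset.inf_insert, id, inf_assoc, inf_comm (t.inf id) K]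
  let e := s.equivFin.symm
  have hexb : ∀ i : Fin s.card, ∃ b ∈ B, b ∉ (e i : Subgroup G) ∧
      ∀ K' ∈ s, K' ≠ (e i : Subgroup G) → b ∈ K' := fun i => hex _ (e i).2
  choose b hb1 hb2 hb3 using hexb
  have hsCi : ∀ i, MaxIn (e i : Subgroup G) B := fun i => (hsC (e i).2).1
  choose v hv1 hv2 using fun i => (hsC (e i).2).2
  let ψ : Fin s.card → (V →* V) := fun i =>
    (normMap V (e i : Subgroup G)) ^ p * (normMap V B)⁻¹
  have hψne : ∀ i, ψ i (v i) ≠ 1 := by
    intro i h
    simp only [ψ, MonoidHom.mul_apply, MonoidHom.pow_apply, MonoidHom.inv_apply,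
      normMap_of_fixed _ (hv1 i), mul_inv_eq_one, ← pow_mul, ← card_maxIn hB (hsCi i)] at h
    refine hv2 i (fixed_iff_act.2 fun g hg => ?_)
    have hgf : act V g (v i ^ Nat.card B) = v i ^ Nat.card B := by
      rw [h]; exact fixed_iff_act.1 (normMap_fixed B _) g hg
    obtain ⟨m, hm⟩ := IsPGroup.iff_card.1 hB.isPGroup
    have hinj : ∀ x y : V, x ^ Nat.card B = y ^ Nat.card B → x = y := fun x y hxy =>
      (powCoprime (hm ▸ hV.pow_right m : (Nat.card V).Coprime (Nat.card B))).injective hxy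
    exact hinj _ _ (by rw [← map_pow, hgf])
  have hne0 : ∀ i, ∃ χ : V →* ℂˣ, χ (ψ i (v i)) ≠ 1 := fun i => by
    have : NeZero (Monoid.exponent V) := ⟨Monoid.exponent_ne_zero_of_finite⟩
    exact CommGroup.exists_apply_ne_one_of_hasEnoughRootsOfUnity V ℂ (hψne i)
  choose χ hχ using hne0
  have hkill : ∀ i j, i ≠ j → ∀ w : V, Fixed (e j : Subgroup G) w → ψ i w = 1 := by
    intro i j hij w hw
    simp only [ψ, MonoidHom.mul_apply, MonoidHom.pow_apply, MonoidHom.inv_apply]
    rw [normMap_eq_pow hB (hsCi i) (hsCi j)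
      (fun h => hij (e.injective (Subtype.ext h))) hw, mul_inv_cancel]
  refine ⟨s.card, fun i => e i, b, ∏ i, (χ i).comp (ψ i), ?_, fun i => ⟨hb1 i, hb2 i⟩,
    fun i j hij => hb3 i _ (e j).2 (fun h => hij (e.injective (Subtype.ext h.symm))),
    fun i => ⟨(hsCi i).1.le, v i, hv1 i, ?_⟩, fun w hw => ?_⟩
  · have := hcard s hsC
    rwa [hsbot, Subgroup.card_bot, one_mul] at this
  · rw [MonoidHom.finsetProd_apply, Finset.prod_eq_single i]
    · exact hχ i
    · intro j _ hji
      rw [MonoidHom.comp_apply, hkill j i hji _ (hv1 i), map_one]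
    · exact fun h => absurd (Finset.mem_univ i) h
  · rw [MonoidHom.finsetProd_apply]
    refine Finset.prod_eq_one fun i _ => ?_
    have hwi : Fixed (e i : Subgroup G) w := hw.anti (hsCi i).1.le
    simp only [MonoidHom.comp_apply, ψ, MonoidHom.mul_apply, MonoidHom.pow_apply,
      MonoidHom.inv_apply, normMap_of_fixed _ hwi, normMap_of_fixed _ hw, ← pow_mul,
      ← card_maxIn hB (hsCi i), mul_inv_cancel, map_one]

end Vale.Agent.P240
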